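import Vale.Agent.P269.Pt.Cmp
import Vale.Agent.P269.Cpt.Fam

/-!
# Finiteness of the numerical types
-/

set_option linter.unusedSectionVars false

namespace Vale.Agent.P269

open Set Function Topology Filter Cv

theorem Cv.ncard_clopen_le {X : Type} [TopologicalSpace X] [T2Space X] [CompactSpace X] {Q : RS X}
    {A : LB Q} (hA : Ge A 1) : {U : Set X | IsClopen U}.ncard ≤ 2 ^ (deg A).toNat := by
  classical
  have f : (range (connectedComponent : X → Set X)).Finite := (finite_clopen Q).subset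
    (range_subset_iff.2 fun x => (exists_comp (R := Q) x).1)
  have a := (degOn_sUnion A (T := f.toFinset) (fun V hV => by
    obtain ⟨x, rfl⟩ := f.mem_toFinset.1 hV
    exact (exists_comp (R := Q) x).1) fun V hV W hW e => by
      obtain ⟨x, rfl⟩ := f.mem_toFinset.1 hV
      obtain ⟨y, rfl⟩ := f.mem_toFinset.1 hW
      exact connectedComponent_disjoint e).2
  rw [show ⋃₀ (f.toFinset : Set (Set X)) = univ from eq_univ_of_forall fun x =>
    ⟨_, f.mem_toFinset.2 ⟨x, rfl⟩, mem_connectedComponent⟩, degOn_univ] at a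
  have b : (f.toFinset.card : ℤ) ≤ deg A := by
    rw [a, Finset.card_eq_sum_ones, Nat.cast_sum]
    refine Finset.sum_le_sum fun V hV => ?_
    obtain ⟨x, rfl⟩ := f.mem_toFinset.1 hV
    exact hA _ (exists_comp (R := Q) x).1 ⟨x, mem_connectedComponent⟩
  have k : ∀ U V : Set X, IsClopen U → f.toFinset.filter (· ⊆ U) = f.toFinset.filter (· ⊆ V) →
      U ⊆ V := fun U V c e x hx =>
    (Finset.mem_filter.1 (e.le (Finset.mem_filter.2 ⟨f.mem_toFinset.2 ⟨x, rfl⟩,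
      c.connectedComponent_subset hx⟩))).2 mem_connectedComponent
  refine (ncard_le_ncard_of_injOn (t := f.toFinset.powerset) (fun U => f.toFinset.filter (· ⊆ U))
    (fun U _ => Finset.mem_powerset.2 (Finset.filter_subset _ _))
    (fun U c V d e => (k U V c e).antisymm (k V U d e.symm)) (Finset.finite_toSet _)).trans ?_
  rw [ncard_coe_finset, Finset.card_powerset]
  exact Nat.pow_le_pow_right two_pos (by omega)

variable {S Λ R J K ν κ ν₁ κ₁ : Type} [Fintype S] [Fintype Λ] [Fintype R] [Fintype J]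
  [Fintype K] [Fintype ν] [Fintype κ] [Fintype ν₁] [Fintype κ₁]

namespace AM

variable {F : Fam S Λ R J K} {W : Wt S Λ R J} {A : Set J} {θ d : R → ℤ} {g : ℤ} {τ : S → ℂ}
  {m m' : AM Λ R J ν κ} {m₁ : AM Λ R J ν₁ κ₁} {T : Set (Ch.Mk ν κ)}

theorem Typ.deg_bz (ht : m.Typ g d) (θ : R → ℤ) : deg (bz m.L θ) = ∑ r, θ r * d r := by
  simp only [Cv.deg_bz, ht.2]

theorem Typ.deg_ω (ht : m.Typ g d) (θ : R → ℤ) : deg (m.ω * bz m.L θ) =
    2 * g - 2 + Fintype.card (Ch.Mk ν κ) + ∑ r, θ r * d r := by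
  rw [deg_mul, AC.deg_ω, ht.1, ht.deg_bz]

section bound
variable [DecidableEq R] {θ₀ : R → ℤ} {N : ℕ}

theorem Sol.ge_of_ample (hA : F.Ample θ₀ N) (h : m.Sol F) {c : R → ℤ}
    (hc : c = N • θ₀ ∨ ∃ i, c = N • θ₀ + Pi.single i 1 ∨ c = N • θ₀ - Pi.single i 1) :
    Ge (bz m.L c) 0 := ge_of_bpf fun x => by
  obtain ⟨α, a, b⟩ := hA.2.2 c hc _ (h.2.2 x)
  refine ⟨∏ j, m.y j ^ α j, (Cpt.mon_mem h.2.1 a).1, ?_⟩
  simpa only [Finset.prod_apply, Pi.pow_apply, vl] using b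

theorem degOn_nsmul (n : ℕ) (U : Set m.X) :
    degOn (bz m.L (n • θ₀)) U = n * degOn (bz m.L θ₀) U := by
  rw [← natCast_zsmul, bz_smul, degOn_zpow]

theorem Sol.degOn_nonneg (hA : F.Ample θ₀ N) (h : m.Sol F) (U : Set m.X) :
    0 ≤ degOn (bz m.L θ₀) U := by
  have a := (h.ge_of_ample hA (.inl rfl)).nonneg U
  rw [degOn_nsmul] at a
  exact nonneg_of_mul_nonneg_right a (by exact_mod_cast hA.2.1)

theorem Sol.abs_degOn_le (hA : F.Ample θ₀ N) (h : m.Sol F) (U : Set m.X) (r : R) :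
    |degOn (m.L r) U| ≤ N * degOn (bz m.L θ₀) U := by
  have a := (h.ge_of_ample hA (.inr ⟨r, .inl rfl⟩)).nonneg U
  have b := (h.ge_of_ample hA (.inr ⟨r, .inr rfl⟩)).nonneg U
  rw [bz_add, degOn_mul, degOn_nsmul, bz_single, zpow_one] at a
  rw [bz_sub, degOn_div, degOn_nsmul, bz_single, zpow_one] at b
  exact abs_le.2 ⟨by omega, by omega⟩

theorem Sol.degOn_le (hA : F.Ample θ₀ N) (h : m.Sol F) (U : Set m.X) :
    degOn (bz m.L θ₀) U ≤ ∑ r, θ₀ r * deg (m.L r) := by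
  rw [← deg_bz]
  by_cases a : IsClopen U
  · exact Ge.le_deg (fun V _ _ => h.degOn_nonneg hA V) a
  · rw [degOn, dif_neg a, ← degOn_univ]
    exact h.degOn_nonneg hA _

/-- a rational component of positive degree is stable -/
theorem Sol.degOn_θ (hA : F.Ample θ₀ N) (h : m.Sol F) {U : Set m.X}
    (hU : ∃ r, degOn (m.L r) U ≠ 0) : 3 ≤ degOn (bz m.L F.θ) U := by
  obtain ⟨r, a⟩ := hU
  have b := h.abs_degOn_le hA U r
  have c := h.degOn_nonneg hA U
  rw [hA.1, degOn_nsmul]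
  rcases c.eq_or_lt with c | c
  · rw [← c, mul_zero, abs_nonpos_iff] at b
    exact (a b).elim
  · omega

/-- only finitely many types occur on parts of stable solutions of a given type -/
theorem finite_part (hF : F.Good) (g : ℤ) (d : R → ℤ) : {x : ℤ × (R → ℤ) | ∃ m : AM Λ R J ν κ,
    m.Sol F ∧ m.Stable F.θ ∧ m.Typ g d ∧ ∃ U, IsClopen U ∧ degOn (omega m.R m.N ∅) U = x.1 ∧
      ∀ r, degOn (m.L r) U = x.2 r}.Finite := by
  classical
  obtain ⟨θ₀, N, hA⟩ := hF.ample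
  refine ((finite_Icc (-(Fintype.card (Ch.Mk ν κ) + 3 * ∑ r, θ₀ r * d r))
    (2 * g - 2 + Fintype.card (Ch.Mk ν κ) + ∑ r, F.θ r * d r)).prod (Finite.pi' fun _ : R =>
      finite_Icc (-(N * ∑ r, θ₀ r * d r)) (N * ∑ r, θ₀ r * d r))).subset ?_
  rintro x ⟨m, h, hs, ht, U, hU, a, b⟩
  have c := h.degOn_le hA U
  simp only [ht.2] at c
  refine ⟨?_, fun r => abs_le.1 ?_⟩
  · have e := (hs.mono zero_le_one).nonneg U
    have f := (hs.mono zero_le_one).le_deg hU
    have i := h.degOn_nonneg hA U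
    have k := Finset.card_le_univ (Finset.univ.filter fun n => m.p n ∈ U)
    rw [ht.deg_ω] at f
    rw [degOn_mul, AC.degOn_ω_eq hU, a, hA.1, degOn_nsmul] at e f
    rw [← hA.1] at f
    constructor <;> omega
  · rw [← b]
    exact (h.abs_degOn_le hA U r).trans (mul_le_mul_of_nonneg_left c (Nat.cast_nonneg N))

theorem finite_ctyp (hF : F.Good) (g : ℤ) (d : R → ℤ) : {x : ℤ × (R → ℤ) × Set (Ch.Mk ν κ) |
    ∃ m : AM Λ R J ν κ, m.Sol F ∧ m.Stable F.θ ∧ m.Typ g d ∧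
      ∃ z, m.CTyp z x.1 x.2.1 x.2.2}.Finite := by
  refine Finite.of_injOn (f := fun x => ((2 * x.1 - 2, x.2.1), x.2.2)) ?_ (fun x _ y _ e => ?_)
    ((finite_part (ν := ν) (κ := κ) hF g d).prod finite_univ)
  · rintro x ⟨m, h, hs, ht, z, a⟩
    exact ⟨⟨m, h, hs, ht, _, (AC.sat_cmp z).1, a.1, a.2.1⟩, trivial⟩
  · simp only [Prod.mk.injEq] at e
    exact Prod.ext (by omega) (Prod.ext e.1.2 e.2)

theorem finite_emb (hF : F.Good) (g : ℤ) (d : R → ℤ) (φ : ν₁ → ν) (ψ : κ₁ → κ) :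
    {x : ℤ × (R → ℤ) | ∃ (m : AM Λ R J ν κ) (m₁ : AM Λ R J ν₁ κ₁) (j : m₁.X → m.X), m.Sol F ∧
      m.Stable F.θ ∧ m.Typ g d ∧ Emb m₁ m φ ψ j ∧ m₁.Typ x.1 x.2}.Finite := by
  refine Finite.of_injOn (f := fun x => (2 * x.1 - 2, x.2)) ?_ (fun x _ y _ e => ?_)
    (finite_part (ν := ν) (κ := κ) hF g d)
  · rintro x ⟨m, m₁, j, h, hs, ht, e, a⟩
    refine ⟨m, h, hs, ht, j '' univ, e.liso.isClopen_image isClopen_univ, ?_, fun r => ?_⟩
    · rw [CmpP.degOn_omega e.liso e.inj e.node isClopen_univ, degOn_univ, deg_omega, a.1]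
      simp
    · rw [CmpP.degOn_L e r isClopen_univ, degOn_univ, a.2]
  · simp only [Prod.mk.injEq] at e
    exact Prod.ext (by omega) e.2

set_option linter.unusedVariables false in
/-- bounds on the number of nodes and of components -/
theorem exists_bound (hF : F.Good) (g : ℤ) (d : R → ℤ) : ∃ b : ℕ, ∀ m : AM Λ R J ν κ, m.Sol F →
    m.Stable F.θ → m.Typ g d → m.N.card ≤ b ∧ (range m.cmp).ncard ≤ b ∧
      {U : Set m.X | IsClopen U}.ncard ≤ b := by
  refine ⟨(g - 1 + (2 * g - 2 + Fintype.card (Ch.Mk ν κ) + ∑ r, F.θ r * d r)).toNat +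
    2 ^ (2 * g - 2 + Fintype.card (Ch.Mk ν κ) + ∑ r, F.θ r * d r).toNat, fun m _ hs ht => ?_⟩
  have a := Cpt.card_le hs m.N
  have b := ncard_clopen_le hs
  rw [ht.deg_ω] at a b
  rw [ht.1] at a
  have c := b.trans (Nat.le_add_left _
    (g - 1 + (2 * g - 2 + Fintype.card (Ch.Mk ν κ) + ∑ r, F.θ r * d r)).toNat)
  exact ⟨le_add_right (by omega), (ncard_le_ncard (range_subset_iff.2 fun z => (AC.sat_cmp z).1)
    m.finite_clopen).trans c, c⟩

/-- the numerical condition for the existence of a stable solution -/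
theorem Stable.pos (hs : m.Stable θ) (ht : m.Typ g d) [Nonempty m.X] :
    0 < 2 * g - 2 + Fintype.card (Ch.Mk ν κ) + ∑ r, θ r * d r := by
  have := hs _ isClopen_univ univ_nonempty
  rwa [degOn_univ, ht.deg_ω] at this

theorem Sol.eff (hA : F.Ample θ₀ N) (h : m.Sol F) (ht : m.Typ g d) :
    0 ≤ ∑ r, θ₀ r * d r ∧ (∑ r, θ₀ r * d r = 0 → d = 0) := by
  have a := h.degOn_nonneg hA univ
  have b := h.abs_degOn_le hA univ
  simp only [degOn_univ, ht.deg_bz, ht.2] at a b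
  exact ⟨a, fun e => funext fun r => by simpa [e] using b r⟩

/-- for a fixed degree bound only finitely many degrees are effective -/
theorem finite_eff (hA : F.Ample θ₀ N) (b : ℤ) : {d : R → ℤ | ∑ r, θ₀ r * d r ≤ b ∧
    ∃ (m : AM Λ R J ν κ) (g : ℤ), m.Sol F ∧ m.Typ g d}.Finite := by
  refine (Finite.pi' fun _ : R => finite_Icc (-(N * b)) (N * b)).subset ?_
  rintro d ⟨a, m, g, h, ht⟩ r
  have c := h.abs_degOn_le hA univ r
  rw [degOn_univ, degOn_univ, ht.deg_bz, ht.2] at c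
  exact abs_le.1 (c.trans (mul_le_mul_of_nonneg_left a (Nat.cast_nonneg N)))

end bound

end AM

end Vale.Agent.P269
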