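import Vale.Agent.P269.Pt.Act
import Vale.Agent.P269.Gen.Defs

/-!
# Fields as sections; residues at marked points
-/

set_option linter.unusedSectionVars false

namespace Vale.Agent.P269.Cv

open Set Function Topology Filter Module Base Ch

variable {X : Type} [TopologicalSpace X] [T2Space X] [CompactSpace X] {R : RS X}
  {N : Finset (X × X)} {ι J ν : Type} [Fintype ι] [DecidableEq ι] [Fintype J] [Fintype ν]
  {A : ι → LB R} {ch : Ch ι J} {x : ch.W ν} {π : X → V ch.M} {u : X → ∀ l, ch.E l →L[ℂ] ℂ}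
  {p : ν → X} {ξ : X → ℂ} {j : J} {s : X → ℂ}

variable (ch) in
/-- the multidegree of the section that induces the field `j` -/
def _root_.Vale.Agent.P269.Ch.wd (j : J) : ι → ℤ := fun i => ch.a (some j) i - ch.b j i

theorem chr_wd {t : ι → ℂ} (ht : ∀ i, t i ≠ 0) (j : J) :
    chr (ch.a (some j)) t = (∏ i, t i ^ ch.wd j i) * chr (ch.b j) t := by
  rw [chr, chr, ← Finset.prod_mul_distrib]
  exact Finset.prod_congr rfl fun i _ => by
    rw [← zpow_natCast, ← zpow_natCast, ← zpow_add₀ (ht i), Ch.wd, sub_add_cancel]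

theorem val_unique {c : V ch.M} (hc : c ∈ crv x) {v v' : ℂ} (a : Val x j c v) (b : Val x j c v') :
    v = v' := by
  obtain ⟨u, hu⟩ := mem_crv.1 hc
  obtain ⟨μ, e⟩ := exists_val_one (a := ch.b j) hu.1
  simpa [show val μ c = 1 from e] using (a u hu μ).symm.trans (b u hu μ)

theorem fld_eq {c : V ch.M} (hc : c ∈ crv x) {v : ℂ} (a : Val x j c v) : fld x c j = v :=
  val_unique hc (Classical.epsilon_spec ⟨v, a⟩) a

variable (x π u j s) in
/-- the field `j` is induced by the section `s` -/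
def Ind : Prop := ∀ y μ, u y (some j) (x.X j μ) = s y * val μ (π y)

namespace Cr

variable (h : Cr N A x π u p ξ)
include h

theorem val_iff (y : X) {t : ι → ℂ} (ht : ∀ i, t i ≠ 0) {v : ℂ} :
    Val x j (t • π y) ((∏ i, t i ^ ch.wd j i) * v) ↔
      ∀ μ, u y (some j) (x.X j μ) = v * val μ (π y) := by
  have e : ∀ μ, (chr (ch.a (some j)) t • u y (some j)) (x.X j μ) =
      (∏ i, t i ^ ch.wd j i) * v * val μ (t • π y) ↔ u y (some j) (x.X j μ) = v * val μ (π y) :=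
    fun μ => by
      rw [_root_.smul_apply, Base.val_smul, mul_mul_mul_comm, ← chr_wd ht, smul_eq_mul,
        mul_right_inj' (chr_ne_zero ht)]
  exact ⟨fun a μ => (e μ).1 (a _ (gr_smul (h.gr y) ht) μ), fun a w hw μ =>
    gr_unique hw (gr_smul (h.gr y) ht) (h.mem.1 _) ▸ (e μ).2 (a μ)⟩

theorem val_iff' (y : X) {v : ℂ} :
    Val x j (π y) v ↔ ∀ μ, u y (some j) (x.X j μ) = v * val μ (π y) := by
  simpa using h.val_iff (j := j) y (t := 1) (fun _ => one_ne_zero) (v := v)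

theorem ind_mem (a : Ind x π u j s) : s ∈ H0 N (bz A (ch.wd j)) := h.field_mem a

theorem fld_smul (a : Ind x π u j s) (y : X) {t : ι → ℂ} (ht : ∀ i, t i ≠ 0) :
    fld x (t • π y) j = (∏ i, t i ^ ch.wd j i) * s y :=
  fld_eq (h.par.smul_mem y ht) ((h.val_iff y ht).2 (a y))

theorem fld_π (a : Ind x π u j s) (y : X) : fld x (π y) j = s y :=
  fld_eq (h.par.mem y) ((h.val_iff' y).2 (a y))

theorem exists_ind_iff : (∃ s, Ind x π u j s) ↔ ∀ c ∈ crv x, ∃ v, Val x j c v := by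
  refine ⟨fun ⟨s, a⟩ c hc => ?_, fun a => ?_⟩
  · obtain ⟨y, t, b, rfl⟩ := (h.par.img c).1 hc
    exact ⟨_, (h.val_iff y b).2 (a y)⟩
  · choose s hs using fun y => a _ (h.par.mem y)
    exact ⟨s, fun y => (h.val_iff' y).1 (hs y)⟩

theorem ind_zero : Ind x π u j 0 ↔ x.X j = 0 :=
  ⟨fun a => ContinuousLinearMap.ext fun μ => h.u_inj fun y => (a y μ).trans (zero_mul _),
    fun a y μ => by simp [a]⟩

theorem X_ext {x' : ch.W ν} (a : Ind x π u j s) (b : Ind x' π u j s) : x.X j = x'.X j :=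
  ContinuousLinearMap.ext fun μ => h.u_ext fun y => (a y μ).trans (b y μ).symm

theorem ind_unique {s' : X → ℂ} (a : Ind x π u j s) (b : Ind x π u j s') : s = s' :=
  funext fun y => (h.fld_π a y).symm.trans (h.fld_π b y)

/-- the order of the field along a branch -/
theorem order_eq (a : Ind x π u j s) {γ : ℂ → V ch.M} (hγ : IsBranch ch.o (crv x) γ) :
    ∃ y, Orb (π y) (γ 0) ∧
      analyticOrderAt (fun t => fld x (γ t) j) 0 = (bz A (ch.wd j)).ord s y := by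
  obtain ⟨y, r, φ, a1, a2, a3, a4, a5, a6⟩ := h.par.factor_branch hγ
  refine ⟨y, ⟨r 0, a2, (h.par.deriv_factor a1 a3 a4 a6 ch.o).1⟩, ?_⟩
  have b : AnalyticAt ℂ (fun t => ∏ i, r t i ^ ch.wd j i) 0 :=
    Finset.analyticAt_fun_prod _ fun i _ => (analyticAt_pi_iff.1 a1 i).zpow (a2 i)
  have e : (fun t => fld x (γ t) j) =ᶠ[𝓝 0]
      (fun t => ∏ i, r t i ^ ch.wd j i) * ((bz A (ch.wd j)).loc s y ∘ φ) := by
    filter_upwards [a6, eventually_all.2 fun i =>
      (analyticAt_pi_iff.1 a1 i).continuousAt.eventually_ne (a2 i)] with t d e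
    rw [d]
    exact h.par.loc_bz (f := fun c => fld x c j) (fun y t => h.fld_smul a y) y _ e
  have d : AnalyticAt ℂ ((bz A (ch.wd j)).loc s y) (φ 0) := by rw [a4]; exact (h.ind_mem a).1 y
  rw [analyticOrderAt_congr e, analyticOrderAt_mul b (d.comp a3), b.analyticOrderAt_eq_zero.2
    (Finset.prod_ne_zero_iff.2 fun i _ => zpow_ne_zero _ (a2 i)), zero_add,
    analyticOrderAt_comp_of_deriv_ne_zero a3 a5, a4, LB.ord]

theorem order_br (a : Ind x π u j s) (y : X) :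
    analyticOrderAt (fun t => fld x (br A π y t) j) 0 = (bz A (ch.wd j)).ord s y := by
  refine congrArg (analyticOrderAt · 0) (funext fun t => ?_)
  simpa using h.par.loc_bz (f := fun c => fld x c j) (fun y t => h.fld_smul a y) y t (t := 1)
    fun _ => one_ne_zero

theorem orb_mark {y : X} {n : ν} : (∃ t : ι → ℂ, π y = t • x.p n) ↔ y = p n := by
  refine ⟨fun ⟨s, e⟩ => ?_, fun e => let ⟨s, _, b⟩ := (h.mark n).symm; ⟨s, e ▸ b⟩⟩
  obtain ⟨t, -, b⟩ := h.mark n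
  exact ((h.par.inj _ _ (s * t) (by rw [e, b, mul_smul])).resolve_right (sm_iff.1 (h.sm n) y)).symm

/-- the residue along a branch through a marked point -/
theorem lead_mark {n : ν} {γ : ℂ → V ch.M} (hγ : IsBranch ch.o (crv x) γ) {t : ι → ℂ}
    (e : γ 0 = t • π (p n)) {ρ : ℂ} : Lead x γ ρ ↔ ρ = (∏ i, t i ^ ch.χ i) * ξ (p n) := by
  classical
  choose m hm using fun μ => h.mem.1 none (x.Ξ μ)
  obtain ⟨y, r, φ, a1, a2, a3, a4, a5, a6⟩ := h.par.factor_branch hγ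
  have b := (h.par.deriv_factor a1 a3 a4 a6 ch.o).1
  obtain rfl : p n = y :=
    (h.par.fibre a2 (b.symm.trans e)).elim Eq.symm fun d => (sm_iff.1 (h.sm n) _ (Jn.symm d)).elim
  obtain rfl : t = r 0 := Dict.smul_cancel (h.par.ne _) (e.symm.trans b)
  have := Xi.lead_of h.par (mem_image_iff h.par h.sm h.mark) h.sm_image hm h.xi
    (fun μ => funext fun y => by rw [← h.u_Q, hm, h.Xi]; rfl) a1 a2 a3 a4 a5 a6
  rw [if_neg fun d => d.2 (Finset.mem_image_of_mem _ (Finset.mem_univ _)), Xi.sg_sm (h.sm n),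
    chr_χ _ a2] at this
  have d : ∀ ρ, Lead x γ ρ ↔ ρ = _ := fun ρ => ⟨fun a => Xi.lead_unique hγ a this, fun a => a ▸ this⟩
  rw [d]
  have := chr_ne_zero (a := ch.bω) a2
  have := a2 ch.o
  congr! 1
  simp only [mul_pow, one_mul]
  field_simp

theorem exists_branch (n : ν) : ∃ γ, IsBranch ch.o (crv x) γ ∧ γ 0 = x.p n :=
  let ⟨_, a, b⟩ := h.mark n
  ⟨_, (h.par.isBranch (p n)).const_smul h.par.cone a, by rw [br_zero, b]⟩

/-- the residues at two marked points -/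
theorem lead_iff {n n' : ν} {t t' : ι → ℂ} (e : x.p n = t • π (p n)) (e' : x.p n' = t' • π (p n'))
    (c : ℂ) : (∀ γ₁ γ₂ ρ₁ ρ₂, IsBranch ch.o (crv x) γ₁ → IsBranch ch.o (crv x) γ₂ → γ₁ 0 = x.p n →
      γ₂ 0 = x.p n' → Lead x γ₁ ρ₁ → Lead x γ₂ ρ₂ → ρ₁ = c * ρ₂) ↔
      (∏ i, t i ^ ch.χ i) * ξ (p n) = c * ((∏ i, t' i ^ ch.χ i) * ξ (p n')) := by
  refine ⟨fun a => ?_, fun a γ₁ γ₂ ρ₁ ρ₂ b1 b2 c1 c2 d1 d2 => ?_⟩
  · obtain ⟨γ₁, b1, c1⟩ := h.exists_branch n
    obtain ⟨γ₂, b2, c2⟩ := h.exists_branch n'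
    exact a _ _ _ _ b1 b2 c1 c2 ((h.lead_mark b1 (c1.trans e)).2 rfl)
      ((h.lead_mark b2 (c2.trans e')).2 rfl)
  · rw [(h.lead_mark b1 (c1.trans e)).1 d1, (h.lead_mark b2 (c2.trans e')).1 d2, a]

theorem mem_sol {S K : Type} [Fintype S] [Fintype K] {T : Tgt S J K} : x ∈ ch.sol ν T ↔
    ∃ s : J → X → ℂ, (∀ j, Ind x π u j (s j)) ∧ ∀ y (t : ι → ℂ), (∀ i, t i ≠ 0) →
      (fun j => (∏ i, t i ^ ch.wd j i) * s j y) ∈ T.cone := by
  refine ⟨fun a => ?_, fun ⟨s, a, b⟩ => ⟨h.mem, fun z hz => ?_⟩⟩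
  · choose s b c using fun y => a.2 _ (h.gr y)
    refine ⟨fun j y => s y j, fun j y => c y j, fun y t ht => ?_⟩
    obtain ⟨v, d, e⟩ := a.2 _ (gr_smul (h.gr y) ht)
    convert d using 2 with j
    exact val_unique (h.par.smul_mem y ht) ((h.val_iff y ht).2 (c y j)) fun w hw μ =>
      gr_unique hw (gr_smul (h.gr y) ht) (h.mem.1 _) ▸ e j μ
  · obtain ⟨y, t, c, rfl⟩ := h.mem_gr.1 hz
    exact ⟨_, b y t c, fun j => (h.val_iff y c).2 (a j y) _ hz⟩

/-- the fields can be replaced -/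
theorem setX (F : ∀ j, Tens ch.M (ch.b j) →L[ℂ] ch.E (some j)) :
    Cr N A (ch := ch) (x.1, x.2.1, x.2.2.1, F) π u p ξ :=
  ⟨h.mem, h.par, h.gr, h.sm, h.inj, h.mark, h.xi, h.ne, h.Xi⟩

end Cr

theorem Ind.act {s' : ch.A ν} (hs : IsUnit s') (a : Ind x π u j s) :
    Ind (act s' x) (fun y i => s'.1 i (π y i)) (fun y l => u y l ∘L Ring.inverse (s'.2.1 l)) j s :=
  fun y μ => (congrArg (u y _) (inv_ap ((isUnit_iff.1 hs).2.1 _) _)).trans
    ((a y _).trans (congrArg _ (Ch.val_sub s' μ _)))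

theorem Ind.comp {X' : Type} (a : Ind x π u j s) (f : X' → X) {c : X' → ι → ℂ}
    (h0 : ∀ y i, c y i ≠ 0) : Ind x (fun y => c y • π (f y))
      (fun y l => chr (ch.a l) (c y) • u (f y) l) j fun y => (∏ i, c y i ^ ch.wd j i) * s (f y) :=
  fun y μ => by
    rw [_root_.smul_apply, a, Base.val_smul, chr_wd (h0 y), smul_eq_mul]
    ring

end Vale.Agent.P269.Cv
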