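import Vale.Agent.P269.Pt.Fld
import Vale.Agent.P269.Cv.Joint

/-!
# The standard charts
-/

set_option linter.unusedSectionVars false

namespace Vale.Agent.P269.Cv

open Set Function Topology Filter Module Base Ch

variable {S Λ ρ J K : Type} [Fintype S] [Fintype Λ] [Fintype ρ] [DecidableEq ρ] [Fintype J]
  [Fintype K] (F : Fam S Λ ρ J K) (g : ℤ) (n : ℕ) (d : ρ → ℤ) (k D : ℕ)

theorem sum_hat (w : ρ → ℤ) : ∑ o, Tgt.hat w o = 0 := by simp [Tgt.hat, Fintype.sum_option]

theorem abs_hat (w : ρ → ℤ) (o : Option ρ) : |Tgt.hat w o| ≤ ∑ i, |w i| := by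
  cases o with
  | none => exact (abs_neg _).trans_le (Finset.abs_sum_le_sum_abs _ _)
  | some i => exact Finset.single_le_sum (f := fun i => |w i|) (fun _ _ => abs_nonneg _) (by simp)

theorem prod_hat (t : Option ρ → ℂ) (ht : t none ≠ 0) (w : ρ → ℤ) :
    ∏ o, t o ^ Tgt.hat w o = ∏ r, (t (some r) / t none) ^ w r := by
  simp only [Fintype.prod_option, Tgt.hat, Option.elim, div_zpow, Finset.prod_div_distrib, zpow_neg]
  rw [div_eq_inv_mul]
  congr 2
  induction (Finset.univ : Finset ρ) using Finset.induction_on with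
  | empty => simp
  | insert a s h ih => rw [Finset.sum_insert h, Finset.prod_insert h, zpow_add₀ ht, ih]

/-- `D` is large compared with `k` -/
def _root_.Vale.Agent.P269.Fam.BigD (k D : ℕ) : Prop := (2 * k + 4 + k * ∑ i, |F.θ i| : ℤ) ≤ D

theorem chart_wd (j : J) : (F.chart g n d k D).wd j = Tgt.hat (F.w j) := funext fun o => by
  have := abs_hat (F.w j) o
  have e : (∑ i, (F.w j i).natAbs : ℕ) = ∑ i, |F.w j i| := by simp
  cases o <;> simp only [Ch.wd, Fam.chart, Tgt.chart, Option.elim, Tgt.hat, abs_le] at * <;> omega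

theorem chart_a_none (j : J) : (F.chart g n d k D).a (some j) none ≠ 0 := by
  have := abs_hat (F.w j) none
  have e : (∑ i, (F.w j i).natAbs : ℕ) = ∑ i, |F.w j i| := by simp
  simp only [Fam.chart, Tgt.chart, Option.elim, Tgt.hat, abs_le] at *
  omega

variable {F k D}

theorem _root_.Vale.Agent.P269.Fam.BigD.le (h : F.BigD k D) : 4 ≤ D := by
  have : (0 : ℤ) ≤ k * ∑ i, |F.θ i| := by positivity
  unfold Fam.BigD at h
  omega

theorem chart_a_ne (h : D ≠ 0) (l : Option J) : (F.chart g n d k D).a l ≠ 0 := fun e => by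
  cases l with
  | none => exact h (congrFun e none)
  | some j => exact chart_a_none F g n d k D j (congrFun e none)

theorem chart_χ (h : F.BigD k D) :
    (F.chart g n d k D).χ = Pi.single none 1 - k • Tgt.hat F.θ := funext fun o => by
  have a := abs_le.1 (abs_hat F.θ o)
  have b : -(k * ∑ i, |F.θ i| : ℤ) ≤ k * Tgt.hat F.θ o := by nlinarith
  unfold Fam.BigD at h
  cases o <;> simp [Ch.χ, Fam.chart, Tgt.chart] at * <;> omega

theorem sum_χ (h : F.BigD k D) : ∑ o, (F.chart g n d k D).χ o = 1 := by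
  simp only [chart_χ g n d h, Pi.sub_apply, Pi.smul_apply, Finset.sum_sub_distrib, ← Finset.smul_sum,
    sum_hat]
  simp

theorem chart_fits (hF : ∀ q, (F.G q).totalDegree ≠ 0) [Nonempty J] :
    (F.chart g n d k D).Fits F (F.tdeg (F.chart g n d k D)) where
  wt := ⟨fun r => Tgt.hat (Pi.single r 1), fun j o => (congrFun (chart_wd F g n d k D j) o).trans (by
    cases o <;> simp [Tgt.hat, Pi.single_apply])⟩
  le q α hα o := by
    refine (Finset.sum_le_sum fun j _ => Nat.mul_le_mul_right _ ?_).trans_eq (Finset.mul_sum ..).symm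
    exact (MvPolynomial.monomial_le_degreeOf j hα).trans (MvPolynomial.degreeOf_le_totalDegree _ _)
  ne q e := by
    refine mul_ne_zero (hF q) (fun a => ?_) (congrFun e none)
    simpa [Fam.chart, Tgt.chart] using
      Finset.sum_eq_zero_iff.1 a (Classical.arbitrary J) (Finset.mem_univ _)

variable {X : Type} [TopologicalSpace X] [T2Space X] [CompactSpace X] {R : RS X}
  {N : Finset (X × X)} {ν : Type} [Fintype ν] {p : ν → X} {L : ρ → LB R} {y : J → X → ℂ}

theorem bz_hat (A : Option ρ → LB R) (w : ρ → ℤ) :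
    bz A (Tgt.hat w) = bz (fun r => A (some r) / A none) w := LB.ext (funext₂ fun x z => by
  rw [bz_φ, bz_φ, prod_hat _ ((A none).ne x z)]
  simp)

theorem bz_sum {ι α : Type} [Fintype ι] (A : ι → LB R) (T : Finset α) (a : α → ι → ℤ) :
    bz A (∑ j ∈ T, a j) = ∏ j ∈ T, bz A (a j) := by
  classical
  induction T using Finset.induction_on with
  | empty => simp
  | insert a s h ih => rw [Finset.sum_insert h, Finset.prod_insert h, bz_add, ih]

/-- the bundles of the standard chart -/
noncomputable def stdA (B : LB R) (L : ρ → LB R) : Option ρ → LB R := fun o => B * o.elim 1 L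

theorem bz_stdA (B : LB R) (w : ρ → ℤ) : bz (stdA B L) (Tgt.hat w) = bz L w := by
  simp [bz_hat, stdA]

variable {g n d}

theorem Cr.chart_M {x : (F.chart g n d k D).W ν} {A π u ξ} (h : Cr (R := R) N A x π u p ξ)
    (o : Option ρ) : ((F.chart g n d k D).M o : ℤ) = (F.chart g n d k D).m o + 1 - g :=
  Int.toNat_of_nonneg ((Nat.cast_nonneg _).trans_eq (h.par.finrank_one h.cur o))

theorem Cr.chart_h {x : (F.chart g n d k D).W ν} {A π u ξ} (h : Cr (R := R) N A x π u p ξ)
    (hD : D ≠ 0) (l : Option J) : ((F.chart g n d k D).h l : ℤ) =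
      ∑ o, (F.chart g n d k D).a l o * (F.chart g n d k D).m o + 1 - g :=
  Int.toNat_of_nonneg ((Nat.cast_nonneg _).trans_eq (h.par.finrank h.cur (chart_a_ne (k := k) g n d hD l)))

/-- the bundles `L^(N θ₀)`, `L^(N θ₀ ± e_i)` are base point free -/
theorem bpf_of_ample {θ₀ : ρ → ℤ} {m : ℕ} (ha : F.Ample θ₀ m) {l : Λ → ℂ}
    (hy : ∀ j, y j ∈ H0 N (bz L (F.w j))) (hc : ∀ z, (l, fun j => y j z) ∈ F.cone) {c : ρ → ℤ}
    (h : c = m • θ₀ ∨ ∃ i, c = m • θ₀ + Pi.single i 1 ∨ c = m • θ₀ - Pi.single i 1) :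
    Bpf N (bz L c) := fun z => by
  obtain ⟨α, a, b⟩ := ha.2.2 c h _ (hc z)
  refine ⟨∏ j, y j ^ α j, ?_, by simpa using b⟩
  convert H0.prod_mem (T := Finset.univ) fun j _ => H0.pow_mem (hy j) (α j) using 2
  rw [show c = ∑ j, (α j : ℤ) • F.w j from funext fun i => by simp [← a], bz_sum]
  simp only [bz_smul, zpow_natCast]

/-- **uniform bounds** for stable maps -/
theorem near_of_ample {θ₀ : ρ → ℤ} {m : ℕ} (ha : F.Ample θ₀ m) {l : Λ → ℂ}
    (hy : ∀ j, y j ∈ H0 N (bz L (F.w j))) (hc : ∀ z, (l, fun j => y j z) ∈ F.cone) {P : Finset X}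
    {W : LB R} (hW : ∀ U, degOn W U = degOn (omega R N P) U) (hB : Ge (W * bz L F.θ) 1) (k : ℕ) :
    Ge (W * bz L F.θ / omega R N ∅) 0 ∧
      ∀ o, Near (stdA ((W * bz L F.θ) ^ k) L o) (W * bz L F.θ) k m := by
  have e : bz L F.θ = bz L θ₀ ^ 3 := by rw [ha.1, ← zpow_natCast, ← bz_smul]; rfl
  have e' : bz L (m • θ₀) = bz L θ₀ ^ m := by rw [← zpow_natCast, ← bz_smul, natCast_zsmul]
  have a := e' ▸ (bpf_of_ample ha hy hc (.inl rfl)).ge
  have b := fun i => (bpf_of_ample ha hy hc (.inr ⟨i, .inl rfl⟩)).ge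
  have b' := fun i => (bpf_of_ample ha hy hc (.inr ⟨i, .inr rfl⟩)).ge
  simp only [bz_add, bz_sub, bz_single, zpow_one, e'] at b b'
  have c : Ge (W * bz L F.θ / bz L θ₀) 0 := fun U r s => by
    simpa only [e, degOn_div, degOn_mul, hW] using ge_of_ample (N := N) (P := P) ha.2.1 a
      (fun U r s => by simpa only [e, degOn_mul, hW] using hB U r s) U r s
  refine ⟨fun U r s => ?_, fun o => ?_⟩
  · have := ge_omega N P (R := R) U r s
    have := a.of_pow' ha.2.1.ne' U r s
    simp only [e, degOn_div, degOn_mul, degOn_pow, hW] at *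
    omega
  generalize W * bz L F.θ = B at *
  cases o with
  | none =>
    have := (hB.pow m).mono (n' := 0) (by positivity)
    constructor <;> simpa [stdA] using this
  | some i =>
    constructor <;> intro U r s
    all_goals
      have := b i U r s
      have := b' i U r s
      have := c U r s
      simp only [stdA, Option.elim, degOn_div, degOn_mul, degOn_pow] at *
      nlinarith

open Classical in
/-- **every stable map has a point in the standard chart** -/
theorem exists_std (hk : F.Big k) (hD : F.BigD k D) (hN : Nd N) (hs : ∀ n, Sm N (p n))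
    (hp : Injective p) {l : Λ → ℂ} (hy : ∀ j, y j ∈ H0 N (bz L (F.w j)))
    (hc : ∀ z, (l, fun j => y j z) ∈ F.cone)
    {W : LB R} {σ : X → ℂ} (hσ : σ ∈ H0 N (W / omega R N (Finset.univ.image p))) (σ0 : ∀ z, σ z ≠ 0)
    (hB : Ge (W * bz L F.θ) 1) (hg : gen R N = g)
    (hn : Fintype.card ν = n) (hd : ∀ r, deg (L r) = d r) (t : ν → Option ρ → ℂ)
    (ht : ∀ n o, t n o ≠ 0) : ∃ (x : (F.chart g n d k D).W ν) (π : _) (u : _),
      Cr N (stdA ((W * bz L F.θ) ^ k) L) x π u p (σ ^ k) ∧
      (∀ j, Ind x π u j (y j)) ∧ ∀ n, x.p n = t n • π (p n) := by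
  obtain ⟨θ₀, m, ha, hm⟩ := hk
  have hW : ∀ U, degOn W U = degOn (omega R N (Finset.univ.image p)) U := fun U =>
    sub_eq_zero.1 ((degOn_div _ _ U).symm.trans (degOn_of_ne (fun z _ => hσ.1 z) fun z _ => σ0 z))
  obtain ⟨a, b⟩ := near_of_ample ha hy hc hW hB k
  set B := W * bz L F.θ with hBe
  have dg : (fun o => deg (stdA (B ^ k) L o)) = (F.chart g n d k D).m := funext fun o => by
    rw [stdA, deg_mul, deg_pow, hBe, deg_mul, ← degOn_univ, hW, degOn_univ, deg_omega, deg_bz,
      Finset.card_image_of_injective _ hp, hg, Finset.card_univ, hn]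
    cases o <;> simp [hd, Fam.chart, Tgt.chart]
  obtain ⟨π, f, -⟩ := exists_full (N := N) (A := stdA (B ^ k) L) (M := (F.chart g n d k D).M)
    fun o => by
      have := finrank_H0 (h1_eq_zero hN (ge_omega_of (m := 1) ((b o).ge hB (by omega)) hB a))
      rw [congrFun dg o, hg] at this
      exact (Int.toNat_natCast _).symm.trans (congrArg _ this)
  obtain ⟨P, C⟩ := f.isCurve (o := none) hN hB a (k := k) (c := m) (by omega) (fun o => (b o).1)
    fun o => (b o).2
  rw [dg, hg] at C
  have D0 : D ≠ 0 := by have := hD.le; omega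
  obtain ⟨Q, Ξ, u, h⟩ := P.exists_base (ch := F.chart g n d k D) (ξ := σ ^ k) C (chart_a_ne g n d D0)
    (fun l => Int.toNat_of_nonneg ((Nat.cast_nonneg _).trans_eq (P.finrank C (chart_a_ne (k := k) g n d D0 l))))
    (l := none) (fun _ => by have := hD.le; exact le_trans (by norm_num) this)
    (by have := hD.le; exact le_trans (by norm_num) this) hs hp (by
      rw [chart_χ g n d hD, bz_sub, bz_single, ← natCast_zsmul, bz_smul, bz_stdA]
      simpa [stdA, hBe, mul_pow, Fam.chart, Tgt.chart, div_pow, div_eq_inv_mul (W ^ k)] using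
        H0.pow_mem hσ k) fun z => pow_ne_zero _ (σ0 z)
  have c := fun G => (h (fun n => t n • π (p n)) G fun n => ⟨_, ht n, rfl⟩).2
  choose G hG using fun j => (c 0).exists_field (j := j) (chart_a_ne g n d D0 _) (s := y j) (by
    change _ ∈ H0 N (bz _ ((F.chart g n d k D).wd j))
    rw [chart_wd, bz_stdA]; exact hy j)
  exact ⟨_, π, u, c G, hG, fun _ => rfl⟩

end Vale.Agent.P269.Cv
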