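import Vale.Agent.P269.Gen.Abs
import Vale.Agent.P269.Pt.Std

/-!
# Operations on abstract maps: definitions
-/

set_option linter.unusedSectionVars false

namespace Vale.Agent.P269

open Set Function Topology Filter Cv

variable {S Λ R J ν κ ν' κ' κ₀ ν₁ κ₁ ν₂ κ₂ : Type} [Fintype S] [Fintype Λ] [Fintype R] [Fintype J]
  [Fintype ν] [Fintype κ] [Fintype ν'] [Fintype κ'] [Fintype κ₀] [Fintype ν₁] [Fintype κ₁]
  [Fintype ν₂] [Fintype κ₂]

/-- The weights without the extra torus. -/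
def Wt.noS (F : Wt S Λ R J) : Wt Empty Λ R J := ⟨F.w, fun _ => Empty.elim, fun _ => Empty.elim⟩

namespace AC

/-- Relabelling (and forgetting) marked points. -/
@[reducible] def re (c : AC ν' κ') (φ : Ch.Mk ν κ ↪ Ch.Mk ν' κ') : AC ν κ :=
  { c with p := fun n => c.p (φ n), inj := c.inj.comp φ.injective, sm := fun _ => c.sm _ }

open Classical in
/-- The persistent pairs `κ₀` become nodes. -/
@[reducible] noncomputable def glue (c : AC ν (κ ⊕ κ₀)) : AC ν κ :=
  { c with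
    N := c.N ∪ Finset.univ.image fun e => (c.p (.inr (.inr e, false)), c.p (.inr (.inr e, true)))
    p := fun n => c.p (n.map id (Prod.map .inl id))
    nd := by
      refine ⟨fun a ha b hb e => ?_, fun a ha b hb e => ?_, fun a ha b hb e => ?_⟩
      all_goals
        simp only [Finset.coe_union, mem_union, Finset.mem_coe, Finset.mem_union, Finset.mem_image,
          Finset.mem_univ, true_and] at ha hb
        rcases ha with ha | ⟨a, rfl⟩ <;> rcases hb with hb | ⟨b, rfl⟩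
      exacts [c.nd.ne a ha b hb e, (c.sm _ a ha).1 e, (c.sm _ b hb).2 e.symm,
        by simpa using c.inj e, c.nd.inj1 ha hb e, ((c.sm _ a ha).1 e).elim,
        ((c.sm _ b hb).1 e.symm).elim, by rw [show a = b by simpa using c.inj e],
        c.nd.inj2 ha hb e, ((c.sm _ a ha).2 e).elim, ((c.sm _ b hb).2 e.symm).elim,
        by rw [show a = b by simpa using c.inj e]]
    inj := c.inj.comp (injective_id.sumMap (Sum.inl_injective.prodMap injective_id))
    sm := fun n a ha => (Finset.mem_union.1 ha).elim (c.sm _ a) fun h => by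
      obtain ⟨e, -, rfl⟩ := Finset.mem_image.1 h
      constructor <;> intro h <;> rcases n with n | ⟨q, b⟩ <;> simpa using c.inj h }

/-- `U` is a union of connected components of the curve normalised at the persistent nodes. -/
def Sat (c : AC ν κ) (U : Set c.X) : Prop := IsClopen U ∧ ∀ x ∈ U, ∀ y, Jn c.N x y → y ∈ U

/-- The connected component of a point. -/
def cmp (c : AC ν κ) (z : c.X) : Set c.X := ⋂₀ {U | c.Sat U ∧ z ∈ U}

end AC

namespace AM

/-- Relabelling (and forgetting) marked points. -/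
@[reducible] def re (m : AM Λ R J ν' κ') (φ : Ch.Mk ν κ ↪ Ch.Mk ν' κ') : AM Λ R J ν κ :=
  ⟨m.toAC.re φ, m.L, m.l, m.y⟩

/-- The persistent pairs `κ₀` become nodes. -/
@[reducible] noncomputable def glue (m : AM Λ R J ν (κ ⊕ κ₀)) : AM Λ R J ν κ :=
  ⟨m.toAC.glue, m.L, m.l, m.y⟩

/-- `m₁` is a union of connected components of `m`. -/
structure Emb (m₁ : AM Λ R J ν₁ κ₁) (m : AM Λ R J ν κ) (φ : ν₁ → ν) (ψ : κ₁ → κ)
    (j : m₁.X → m.X) : Prop where
  liso : LIso m₁.R m.R j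
  inj : Injective j
  node : ∀ x z, Jn m.N (j x) z ↔ ∃ y, Jn m₁.N x y ∧ z = j y
  mark : ∀ n, j (m₁.p n) = m.p (n.map φ (Prod.map ψ id))
  all : ∀ n, m.p n ∈ range j → ∃ n' : Ch.Mk ν₁ κ₁, n = n'.map φ (Prod.map ψ id)
  L : ∀ r, liso.pb (m.L r) = m₁.L r
  l : m₁.l = m.l
  y : ∀ i x, m₁.y i x = m.y i (j x)

/-- `m` is the disjoint union of `m₁` and `m₂`. -/
structure Split (m : AM Λ R J ν κ) (m₁ : AM Λ R J ν₁ κ₁) (m₂ : AM Λ R J ν₂ κ₂) (φ : ν₁ ⊕ ν₂ ≃ ν)
    (ψ : κ₁ ⊕ κ₂ ≃ κ) (j₁ : m₁.X → m.X) (j₂ : m₂.X → m.X) : Prop where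
  one : Emb m₁ m (fun n => φ (.inl n)) (fun q => ψ (.inl q)) j₁
  two : Emb m₂ m (fun n => φ (.inr n)) (fun q => ψ (.inr q)) j₂
  compl : IsCompl (range j₁) (range j₂)

/-- The component through the point `z` has genus `g`, degree `d` and contains the marked points
`T`. -/
def CTyp (m : AM Λ R J ν κ) (z : m.X) (g : ℤ) (d : R → ℤ) (T : Set (Ch.Mk ν κ)) : Prop :=
  degOn (omega m.R m.N ∅) (m.cmp z) = 2 * g - 2 ∧ (∀ r, degOn (m.L r) (m.cmp z) = d r) ∧
    ∀ n, m.p n ∈ m.cmp z ↔ n ∈ T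

end AM

end Vale.Agent.P269
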