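import Vale.Agent.P269.Pt.Uniq
import Vale.Agent.P269.Cv.Norm

/-!
# Points of `base` and pointed nodal curves with line bundles
-/

set_option linter.unusedSectionVars false

namespace Vale.Agent.P269.Cv

open Set Function Topology Filter Module Base Ch

/-! ### Linear algebra -/

section

variable {X E F : Type} [NormedAddCommGroup E] [NormedSpace ℂ E] [FiniteDimensional ℂ E]
  [NormedAddCommGroup F] [NormedSpace ℂ F] [FiniteDimensional ℂ F]

theorem exists_lift {u : X → E →L[ℂ] ℂ} {v : X → F →L[ℂ] ℂ} (h : ∀ μ, ∃ e, ∀ y, u y e = v y μ) :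
    ∃ T : F →L[ℂ] E, ∀ y μ, u y (T μ) = v y μ := by
  let a : E →ₗ[ℂ] X → ℂ := LinearMap.pi fun y => (u y).toLinearMap
  let b : F →ₗ[ℂ] X → ℂ := LinearMap.pi fun y => (v y).toLinearMap
  obtain ⟨l, hl⟩ := Module.projective_lifting_property a.rangeRestrict
    (b.codRestrict _ fun μ => let ⟨e, he⟩ := h μ; ⟨e, funext he⟩) a.surjective_rangeRestrict
  exact ⟨l.toContinuousLinearMap, fun y μ =>
    congrFun (congrArg Subtype.val (LinearMap.congr_fun hl μ)) y⟩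

theorem isUnit_of_inj {T : E →L[ℂ] E} (h : ∀ e, T e = 0 → e = 0) : IsUnit T :=
  have a : Injective T := (injective_iff_map_eq_zero _).2 h
  ContinuousLinearMap.isUnit_iff_bijective.2
    ⟨a, (LinearMap.injective_iff_surjective (f := T.toLinearMap)).1 a⟩

theorem isUnit_of_dual {T : E →L[ℂ] E} (h : ∀ l : E →L[ℂ] ℂ, l ∘L T = 0 → l = 0) : IsUnit T := by
  have a : Surjective T := by
    by_contra b
    obtain ⟨l, c, d⟩ := (LinearMap.range T.toLinearMap).exists_dual_map_eq_bot_of_lt_top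
      (lt_top_iff_ne_top.2 fun e => b (LinearMap.range_eq_top.1 e)) inferInstance
    refine c (congrArg ContinuousLinearMap.toLinearMap (h l.toContinuousLinearMap ?_))
    exact ContinuousLinearMap.ext fun e => (Submodule.eq_bot_iff _).1 d _ ⟨_, ⟨e, rfl⟩, rfl⟩
  exact ContinuousLinearMap.isUnit_iff_bijective.2
    ⟨(LinearMap.injective_iff_surjective (f := T.toLinearMap)).2 a, a⟩

theorem exists_lift_vec {n : ℕ} {v : X → E} {w : X → Fin n → ℂ}
    (h : ∀ j, ∃ l : E →L[ℂ] ℂ, ∀ y, w y j = l (v y)) :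
    ∃ T : E →L[ℂ] Fin n → ℂ, ∀ y, T (v y) = w y := by
  choose l hl using h
  exact ⟨.pi l, fun y => funext fun j => (hl j y).symm⟩

end

variable {X X' : Type} [TopologicalSpace X] [TopologicalSpace X'] [T2Space X] [CompactSpace X]
  [T2Space X'] [CompactSpace X'] {R : RS X} {R' : RS X'} {N : Finset (X × X)}
  {N' : Finset (X' × X')} {ι J ν : Type} [Fintype ι] [DecidableEq ι] [Fintype J] [Fintype ν]
  {A : ι → LB R} {A' : ι → LB R'}

section

variable {M : ι → ℕ} {o : ι} {π : X → V M} {C : Set (V M)} {g : ℤ} {m : ι → ℤ} {a : ι → ℕ}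

theorem Par.val_eq_zero (h : Par o C N A π) {μ : Tens M a} :
    (∀ c ∈ C, val μ c = 0) ↔ ∀ y, val μ (π y) = 0 :=
  ⟨fun e y => e _ (h.mem y), fun e c hc => by
    obtain ⟨y, t, -, rfl⟩ := (h.img c).1 hc
    rw [Base.val_smul, e, mul_zero]⟩

theorem cast_single (i : ι) : (fun j => ((Pi.single i 1 : ι → ℕ) j : ℤ)) = Pi.single i 1 :=
  funext fun j => by by_cases b : j = i <;> simp [b]

theorem single_ne (i : ι) : (Pi.single i 1 : ι → ℕ) ≠ 0 := fun e => by simpa using congrFun e i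

theorem Par.finrank (h : Par o C N A π) (hC : IsCurve o g m C) (ha : a ≠ 0) :
    (finrank ℂ (H0 N (bz A fun i => a i)) : ℤ) = ∑ i, a i * m i + 1 - g :=
  (h.isCurve_iff.1 hC a ha).2

theorem Par.finrank_one (h : Par o C N A π) (hC : IsCurve o g m C) (i : ι) :
    (Module.finrank ℂ (H0 N (A i)) : ℤ) = m i + 1 - g := by
  have := h.finrank hC (single_ne i)
  rwa [cast_single, bz_single, zpow_one, Finset.sum_eq_single i (fun j _ e => by simp [e]) (by simp),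
    Pi.single_eq_same, Nat.cast_one, one_mul] at this

theorem Par.full (h : Par o C N A π) (hC : IsCurve o g m C) : Full N A π := by
  refine ⟨h.sec, fun i s hs => ?_⟩
  obtain ⟨F, a, rfl⟩ := h.le_PP hC (single_ne i) (x := s) (by rwa [cast_single, bz_single, zpow_one])
  rw [Pol_eq_span] at a
  clear hs
  induction a using Submodule.span_induction with
  | mem F a =>
    obtain ⟨l, rfl⟩ := a
    let k : Σ j, Fin ((Pi.single i 1 : ι → ℕ) j) := ⟨i, ⟨0, by simp⟩⟩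
    refine ⟨l k, fun x => Fintype.prod_eq_single k fun ⟨j, b, hb⟩ e => (e ?_).elim⟩
    by_cases d : j = i
    · subst d
      simp only [Pi.single_eq_same, Nat.lt_one_iff] at hb
      subst hb
      rfl
    · simp [d] at hb
  | zero => exact ⟨0, fun _ => rfl⟩
  | add F G _ _ a b =>
    obtain ⟨l, a⟩ := a
    obtain ⟨l', b⟩ := b
    exact ⟨l + l', fun x => congrArg₂ (· + ·) (a x) (b x)⟩
  | smul c F _ a =>
    obtain ⟨l, a⟩ := a
    exact ⟨c • l, fun x => congrArg (c * ·) (a x)⟩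

/-- the curve spans the factor `i` -/
theorem Full.eq_zero {i : ι} (h : Full N A π) (hM : finrank ℂ (H0 N (A i)) = M i)
    {l : (Fin (M i) → ℂ) →L[ℂ] ℂ} (hl : ∀ y, l (π y i) = 0) : l = 0 := by
  let T : ((Fin (M i) → ℂ) →L[ℂ] ℂ) →ₗ[ℂ] H0 N (A i) :=
    (LinearMap.pi fun y => (ContinuousLinearMap.apply ℂ ℂ (π y i)).toLinearMap).codRestrict _
      (lin_mem h.sec i)
  have a : Surjective T := fun s => let ⟨l, e⟩ := h.span i s.1 s.2
    ⟨l, Subtype.ext (funext fun y => (e y).symm)⟩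
  refine (injective_iff_map_eq_zero T).1 ((LinearMap.injective_iff_surjective_of_finrank_eq_finrank
    ?_).2 a) l (Subtype.ext (funext hl))
  rw [hM, ← LinearMap.toContinuousLinearMap.finrank_eq]
  exact (Subspace.dual_finrank_eq).trans (by simp)

theorem exists_Q (h : Par o C N A π) (hC : IsCurve o g m C) (ha : a ≠ 0) {n : ℕ}
    (hn : (n : ℤ) = ∑ i, a i * m i + 1 - g) : ∃ Q : Tens M a →L[ℂ] Fin n → ℂ, Surjective Q ∧
      ∀ μ, Q μ = 0 ↔ ∀ c ∈ C, val μ c = 0 := by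
  let T : Tens M a →ₗ[ℂ] H0 N (bz A fun i => a i) :=
    (LinearMap.pi fun y => (evL a (π y)).toLinearMap).codRestrict _ (val_mem h.sec)
  let e : H0 N (bz A fun i => a i) ≃ₗ[ℂ] Fin n → ℂ := .ofFinrankEq _ _ (by
    have := h.finrank hC ha
    rw [← hn] at this
    simpa using this)
  refine ⟨(e.toLinearMap ∘ₗ T).toContinuousLinearMap, e.surjective.comp fun s => ?_, fun μ =>
    e.map_eq_zero_iff.trans (Subtype.ext_iff.trans (funext_iff.trans h.val_eq_zero.symm))⟩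
  obtain ⟨μ, b⟩ := mem_PP.1 (h.le_PP hC ha s.2)
  exact ⟨μ, Subtype.ext (funext fun y => (b y).symm)⟩

end

variable {ch : Ch ι J} {x x' : ch.W ν} {π : X → V ch.M} {π' : X' → V ch.M}
  {u : X → ∀ l, ch.E l →L[ℂ] ℂ} {u' : X' → ∀ l, ch.E l →L[ℂ] ℂ} {p : ν → X} {p' : ν → X'}
  {ξ : X → ℂ} {ξ' : X' → ℂ}

theorem mem_crv_iff {c : V ch.M} :
    c ∈ crv x ↔ (∀ i, c i ≠ 0) ∧ ∀ l μ, x.Q l μ = 0 → val μ c = 0 := by
  refine ⟨fun ⟨z, a, e⟩ => e ▸ ⟨a.1, fun l μ b => by rw [← a.2, b, map_zero]⟩, fun ⟨a, b⟩ => ?_⟩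
  have : ∀ l, ∃ u : Dual ℂ (ch.E l), (x.Q l).toLinearMap.dualMap u = (evL _ c).toLinearMap :=
    fun l => by
      rw [← LinearMap.mem_range, LinearMap.range_dualMap_eq_dualAnnihilator_ker]
      exact (Submodule.mem_dualAnnihilator _).2 (b l)
  choose u hu using this
  exact mem_crv.2 ⟨fun l => (u l).toContinuousLinearMap, a, fun l => LinearMap.congr_fun (hu l)⟩

theorem crv_eq {C : Set (V ch.M)} (h : Par ch.o C N A π) {g : ℤ} {m : ι → ℤ}
    (hC : IsCurve ch.o g m C) (hQ : ∀ l μ, x.Q l μ = 0 ↔ ∀ c ∈ C, val μ c = 0) {l : Option J}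
    (hl : ∀ i, 2 ≤ ch.a l i) (ho : 3 ≤ ch.a l ch.o) : crv x = C :=
  Set.ext fun c => ⟨fun a => by_contra fun b =>
    let ⟨μ, d, e⟩ := h.exists_cut hC hl ho (crv_ne a) b
    e ((mem_crv_iff.1 a).2 l μ ((hQ l μ).2 d)),
    fun a => mem_crv_iff.2 ⟨hC.ne_zero c a, fun l μ b => (hQ l μ).1 b c a⟩⟩

variable (ch) in
/-- the multidegree of the tensor `Ξ` -/
def _root_.Vale.Agent.P269.Ch.χ : ι → ℤ :=
  fun i => ch.a none i - ch.bω i - if i = ch.o then 2 * ch.k else 0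

open Classical in
variable (x N A π u p ξ) in
/-- The point `x` of the chart presents the pointed nodal curve `(X, N, p)` with the bundles `A` and
the trivialisation `ξ` of `ω_log^(-k) ⊗ O(χ)`; `u` are the evaluation maps. -/
structure Cr : Prop where
  mem : x ∈ ch.base ν
  par : Par ch.o (crv x) N A π
  gr : ∀ y, (π y, u y) ∈ gr x
  sm : ∀ n, Sm N (p n)
  inj : Injective p
  mark : ∀ n, Orb (π (p n)) (x.p n)
  xi : ξ ∈ H0 N ((omega R N (Finset.univ.image p) ^ ch.k)⁻¹ * bz A ch.χ)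
  ne : ∀ y, ξ y ≠ 0
  Xi : ∀ y μ, u y none (x.Ξ μ) = ξ y * wsec A π N (Finset.univ.image p) μ y

open Classical in
theorem mem_image_iff (h : Par ch.o (crv x) N A π) (hs : ∀ n, Sm N (p n))
    (hm : ∀ n, Orb (π (p n)) (x.p n)) (y : X) :
    y ∈ Finset.univ.image p ↔ ∃ n, ∃ s : ι → ℂ, π y = s • x.p n := by
  simp only [Finset.mem_image, Finset.mem_univ, true_and]
  refine exists_congr fun n => ⟨fun e => let ⟨s, _, b⟩ := (hm n).symm; ⟨s, e ▸ b⟩, fun ⟨s, e⟩ => ?_⟩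
  obtain ⟨t, -, b⟩ := hm n
  exact (h.inj _ _ (s * t) (by rw [e, b, mul_smul])).resolve_right (sm_iff.1 (hs n) y)

/-- **every point of `base` comes from a pointed nodal curve** -/
theorem Par.exists_cr (h : Par ch.o (crv x) N A π) (hx : x ∈ ch.base ν) :
    ∃ u p ξ, Cr N A x π u p ξ := by
  classical
  choose u hu using fun y => mem_crv.1 (h.mem y)
  choose p t a b using fun n => (h.img _).1 (hx.2.2.2.1 n).1
  have sm : ∀ n, Sm N (p n) := fun n => not_not.1 fun e =>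
    (hx.2.2.2.1 n).2 (b n ▸ (h.isNode_iff (a n)).2 e)
  have mk : ∀ n, Orb (π (p n)) (x.p n) := fun n => ⟨t n, a n, b n⟩
  obtain ⟨ξ, d, e, f⟩ := (h.lead_iff (hx.1 none) (mem_image_iff h sm mk)
    (Finset.forall_mem_image.2 fun n _ => sm n)).1 hx.2.2.2.2.2
  refine ⟨u, p, ξ, hx, h, hu, sm, fun n n' e => ?_, mk, d, e, fun y => f y _ (hu y)⟩
  obtain ⟨s, -, k⟩ := (e ▸ mk n').symm.trans (mk n)
  exact hx.2.2.2.2.1 n n' s k

theorem exists_cr (hx : x ∈ ch.base ν) : ∃ (X : Type) (_ : TopologicalSpace X) (_ : T2Space X)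
    (_ : CompactSpace X) (R : RS X) (N : Finset (X × X)) (A : ι → LB R) (π : X → V ch.M)
    (u : _) (p : _) (ξ : _), Cr N A x π u p ξ :=
  let ⟨X, _, _, _, R, N, A, π, h⟩ := hx.2.2.1.isNodal.exists_par
  ⟨X, _, ‹_›, ‹_›, R, N, A, π, h.exists_cr hx⟩

open Classical in
/-- a criterion for a point of `base` -/
theorem Cr.of (h : Par ch.o (crv x) N A π) (hQ : ∀ l, Surjective (x.Q l))
    (hk : ∀ l μ, (∀ y, val μ (π y) = 0) → x.Q l μ = 0) (hC : IsCurve ch.o ch.g ch.m (crv x))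
    (hu : ∀ y, (π y, u y) ∈ Ch.gr x) (hs : ∀ n, Sm N (p n)) (hp : Injective p)
    (hq : ∀ n, Orb (π (p n)) (x.p n))
    (hξ : ξ ∈ H0 N ((omega R N (Finset.univ.image p) ^ ch.k)⁻¹ * bz A ch.χ)) (h0 : ∀ y, ξ y ≠ 0)
    (hΞ : ∀ y μ, u y none (x.Ξ μ) = ξ y * wsec A π N (Finset.univ.image p) μ y) :
    Cr N A x π u p ξ := by
  refine ⟨⟨hQ, fun l μ a => hk l μ (h.val_eq_zero.1 a), hC, fun n => ?_, fun n n' s f => ?_,
    (h.lead_iff (hQ none) (mem_image_iff h hs hq) (Finset.forall_mem_image.2 fun n _ => hs n)).2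
      ⟨ξ, hξ, h0, fun y v a μ => gr_unique a (hu y) (hQ none) ▸ hΞ y μ⟩⟩,
    h, hu, hs, hp, hq, hξ, h0, hΞ⟩
  · obtain ⟨t, f, k⟩ := hq n
    rw [k]
    exact ⟨h.smul_mem _ f, fun r => (h.isNode_iff f).1 r (hs n)⟩
  · obtain ⟨t, -, k⟩ := hq n'
    obtain ⟨t', -, k'⟩ := (hq n).symm
    refine (hp ((h.inj _ _ (t' * (s * t)) ?_).resolve_right (sm_iff.1 (hs n') _))).symm
    rw [k', f, k, mul_smul, mul_smul]

open Classical in
/-- **construction of points of `base`** with arbitrary fields -/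
theorem Par.exists_base {C : Set (V ch.M)} (h : Par ch.o C N A π) (hC : IsCurve ch.o ch.g ch.m C)
    (ha : ∀ l, ch.a l ≠ 0) (hh : ∀ l, (ch.h l : ℤ) = ∑ i, ch.a l i * ch.m i + 1 - ch.g)
    {l : Option J} (hl : ∀ i, 2 ≤ ch.a l i) (ho : 3 ≤ ch.a l ch.o) (hs : ∀ n, Sm N (p n))
    (hp : Injective p) (hξ : ξ ∈ H0 N ((omega R N (Finset.univ.image p) ^ ch.k)⁻¹ * bz A ch.χ))
    (h0 : ∀ y, ξ y ≠ 0) : ∃ Q Ξ u, ∀ (q : ν → V ch.M) F, (∀ n, Orb (π (p n)) (q n)) →
      crv (ch := ch) (ν := ν) (Q, q, Ξ, F) = C ∧ Cr N A (ch := ch) (Q, q, Ξ, F) π u p ξ := by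
  choose Q a b using fun l => exists_Q h hC (ha l) (hh l)
  have e : ∀ q Ξ F, crv (ch := ch) (ν := ν) (Q, q, Ξ, F) = C := fun _ _ _ => crv_eq h hC b hl ho
  have h' : ∀ q Ξ F, Par ch.o (crv (ch := ch) (ν := ν) (Q, q, Ξ, F)) N A π :=
    fun q Ξ F => (e q Ξ F).symm ▸ h
  have sm : ∀ y ∈ Finset.univ.image p, Sm N y := Finset.forall_mem_image.2 fun n _ => hs n
  obtain ⟨Ξ, d⟩ := (h' 0 0 0).exists_Xi sm (fun s hs => mem_PP.1 (h.le_PP hC (ha none) hs)) hξ
  choose u hu using fun y => mem_crv.1 ((h' 0 0 0).mem y)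
  exact ⟨Q, Ξ, u, fun q F hq => ⟨e _ _ _, .of (h' _ _ _) a
    (fun l μ f => (b l μ).2 (h.val_eq_zero.2 f)) ((e q Ξ F).symm ▸ hC) hu hs hp hq hξ h0
    fun y => d y _ (hu y)⟩⟩

namespace Cr

variable (h : Cr N A x π u p ξ)
include h

theorem cur : IsCurve ch.o ch.g ch.m (crv x) := h.mem.2.2.1

theorem u_Q (y : X) (l : Option J) (μ : Tens ch.M (ch.a l)) : u y l (x.Q l μ) = val μ (π y) :=
  (h.gr y).2 l μ

theorem u_mem (l : Option J) (v : ch.E l) :
    (fun y => u y l v) ∈ H0 N (bz A fun i => ch.a l i) := by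
  obtain ⟨μ, rfl⟩ := h.mem.1 l v
  simp only [h.u_Q]
  exact val_mem h.par.sec μ

theorem u_inj {l : Option J} {v : ch.E l} (e : ∀ y, u y l v = 0) : v = 0 := by
  obtain ⟨μ, rfl⟩ := h.mem.1 l v
  exact h.mem.2.1 l μ (h.par.val_eq_zero.2 fun y => (h.u_Q y l μ).symm.trans (e y))

theorem u_ext {l : Option J} {v w : ch.E l} (e : ∀ y, u y l v = u y l w) : v = w :=
  sub_eq_zero.1 (h.u_inj fun y => by rw [map_sub, e, sub_self])

theorem u_surj {l : Option J} (ha : ch.a l ≠ 0) {s : X → ℂ}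
    (hs : s ∈ H0 N (bz A fun i => ch.a l i)) : ∃ v, ∀ y, u y l v = s y :=
  let ⟨μ, e⟩ := mem_PP.1 (h.par.le_PP h.cur ha hs)
  ⟨x.Q l μ, fun y => (h.u_Q y l μ).trans (e y).symm⟩

theorem mem_gr {z : ch.Pt} : z ∈ Ch.gr x ↔ ∃ y, ∃ t : ι → ℂ, (∀ i, t i ≠ 0) ∧
    z = (t • π y, fun l => chr (ch.a l) t • u y l) := by
  refine ⟨fun a => ?_, fun ⟨y, t, a, e⟩ => e ▸ gr_smul (h.gr y) a⟩
  obtain ⟨y, t, b, e⟩ := (h.par.img z.1).1 ⟨z, a, rfl⟩
  exact ⟨y, t, b, Prod.ext e (funext fun l =>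
    gr_unique (c := z.1) a (e ▸ gr_smul (h.gr y) b) (h.mem.1 l))⟩

theorem gen_eq : gen R N = ch.g := (h.par.numbers h.cur).1

theorem deg_eq (i : ι) : deg (A i) = ch.m i := (h.par.numbers h.cur).2.1 i

theorem full : Full N A π := h.par.full h.cur

open Classical in
theorem sm_image : ∀ y ∈ Finset.univ.image p, Sm N y := Finset.forall_mem_image.2 fun n _ => h.sm n

/-- a family of sections divisible by the test forms -/
theorem exists_field {j : J} (ha : ch.a (some j) ≠ 0) {s : X → ℂ}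
    (hs : s ∈ H0 N (bz A fun i => ch.a (some j) i - ch.b j i)) :
    ∃ F : Tens ch.M (ch.b j) →L[ℂ] ch.E (some j), ∀ y μ, u y (some j) (F μ) = s y * val μ (π y) :=
  exists_lift (v := fun y => s y • evL _ (π y)) fun μ => h.u_surj ha (by
    have := H0.mul_mem hs (val_mem h.par.sec μ)
    rw [← bz_add] at this
    convert this using 3
    exacts [funext fun i => (sub_add_cancel _ _).symm, rfl])

theorem field_mem {j : J} {F : Tens ch.M (ch.b j) →L[ℂ] ch.E (some j)} {s : X → ℂ}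
    (e : ∀ y μ, u y (some j) (F μ) = s y * val μ (π y)) :
    s ∈ H0 N (bz A fun i => ch.a (some j) i - ch.b j i) := by
  rw [show (fun i => (ch.a (some j) i : ℤ) - ch.b j i) = (fun i => (ch.a (some j) i : ℤ)) -
    fun i => (ch.b j i : ℤ) from rfl, bz_sub]
  refine ⟨fun y => ?_, fun n hn => ?_⟩
  · obtain ⟨μ, a⟩ := exists_val_one (a := ch.b j) (h.par.ne y)
    have b := (val_mem h.par.sec μ).1 y
    refine (((h.u_mem _ (F μ)).1 y).div b (a ▸ one_ne_zero)).congr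
      ((b.ev_ne (a ▸ one_ne_zero)).mono fun z hz => ?_)
    rw [Pi.div_apply, e, mul_div_cancel_right₀ _ hz]
  · obtain ⟨μ, a⟩ := exists_val_one (a := ch.b j) (h.par.ne n.1)
    have b := (h.u_mem _ (F μ)).2 n hn
    simp only [e] at b
    rwa [← node_eq h.par.sec hn, a, mul_one, mul_one] at b

end Cr

end Vale.Agent.P269.Cv
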