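import Vale.Agent.P269.Pt.Same
import Vale.Agent.P269.Map.Defs
import Vale.Agent.P269.Base.Usc
import Vale.Agent.P269.Base.LF

/-!
# Local constancy of the components in a family of nodal curves
-/

set_option linter.unusedSectionVars false

namespace Vale.Agent.P269

open Set Function Topology Filter Cv

namespace LC

open Module Base Nrm

section lin

variable {T E : Type*} [TopologicalSpace T] [NormedAddCommGroup E] [NormedSpace ℂ E]
  [FiniteDimensional ℂ E] {t₀ : T}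

/-- upper semicontinuity of the dimension -/
theorem ev_finrank_le {I : T → Submodule ℂ E}
    (h : ∀ μ ∉ I t₀, ∀ᶠ q : T × E in 𝓝 (t₀, μ), q.2 ∉ I q.1) :
    ∀ᶠ t in 𝓝 t₀, finrank ℂ (I t) ≤ finrank ℂ (I t₀) := by
  obtain ⟨W, hW⟩ := (I t₀).exists_isCompl
  have := FiniteDimensional.proper ℂ E
  have hK : IsCompact (Metric.sphere (0 : E) 1 ∩ W) :=
    (isCompact_sphere _ _).inter_right W.closed_of_finiteDimensional
  refine (hK.eventually_forall_of_forall_eventually (x₀ := t₀) (P := fun t μ => μ ∉ I t)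
    fun μ a => h μ fun b => ?_).mono fun t a => ?_
  · simpa [Submodule.disjoint_def.1 hW.disjoint μ b a.2] using a.1
  · have b := Submodule.finrank_add_finrank_le_of_disjoint (s := I t) (t := W)
      (Submodule.disjoint_def.2 fun μ b c => by_contra fun d =>
        a ((‖μ‖⁻¹ : ℂ) • μ) ⟨by simp [norm_smul, d], W.smul_mem _ c⟩ ((I t).smul_mem _ b))
    have := Submodule.finrank_add_eq_of_isCompl hW
    omega

end lin

variable {ι : Type} [Fintype ι] {M : ι → ℕ} {o : ι}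

/-- the forms that vanish on `D` -/
def Van (a : ι → ℕ) (D : Set (V M)) : Submodule ℂ (Tens M a) where
  carrier := {μ | ∀ c ∈ D, val μ c = 0}
  add_mem' h h' c hc := by rw [val_add, h c hc, h' c hc, add_zero]
  zero_mem' _ _ := rfl
  smul_mem' s _ h c hc := by rw [val_smul', h c hc, mul_zero]

section fam

variable {T E : Type*} [TopologicalSpace T] [NormedAddCommGroup E] [NormedSpace ℂ E]
  [FiniteDimensional ℂ E] {C : T → Set (V M)} {p : T → E} {t₀ : T}
  {u : Set (∀ i, Fin (M i) → Fin (M i) → ℂ)}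

theorem tube (h : LocFam o C p t₀) (hu : IsOpen u) (a : ∀ c ∈ C t₀, P c ∈ u) :
    ∀ᶠ t in 𝓝 t₀, ∀ c ∈ C t, P c ∈ u :=
  h.compact (p := fun q => P q.2 ∈ u) (fun c hc => ((continuousAt_snd (p := (t₀, c))).eventually
    ((continuousAt_P (h.ne_zero.self_of_nhds c hc)).eventually_mem
      (hu.mem_nhds (a c hc)))).mono fun _ b _ => b)
    (.of_forall fun _ _ hs c _ b => P_smul hs c ▸ b)

theorem exists_approx (h : LocFam o C p t₀) {c : V M} (hc : c ∈ C t₀) : ∃ y : T → V M,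
    y t₀ = c ∧ ContinuousAt y t₀ ∧ (∀ᶠ t in 𝓝 t₀, y t ∈ C t) ∧
      ∀ u, IsOpen u → P c ∈ u → ∀ᶠ t in 𝓝 t₀, P (y t) ∈ u := by
  obtain ⟨y, a, b⟩ := h.exists_approx hc
  have e : y t₀ = c :=
    tendsto_nhds_unique (tendsto_pure_nhds y t₀) (a.mono_left (pure_le_nhds _))
  exact ⟨y, e, by rwa [ContinuousAt, e], b, fun u hu d =>
    ((continuousAt_P (h.ne_zero.self_of_nhds c hc)).tendsto.comp a).eventually (hu.mem_nhds d)⟩

theorem ev_van (h : LocFam o C p t₀) (hu : IsOpen u) (a : ι → ℕ) : ∀ᶠ t in 𝓝 t₀,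
    finrank ℂ (Van a (C t ∩ P ⁻¹' u)) ≤ finrank ℂ (Van a (C t₀ ∩ P ⁻¹' u)) := by
  refine ev_finrank_le fun μ hμ => ?_
  obtain ⟨c, hc, b⟩ : ∃ c ∈ C t₀ ∩ P ⁻¹' u, val μ c ≠ 0 := by
    by_contra! d
    exact hμ d
  obtain ⟨y, rfl, e, f, k⟩ := exists_approx h hc.1
  filter_upwards [continuousAt_fst.eventually (f.and (k u hu hc.2)),
    (continuous_val₂.continuousAt.comp (continuousAt_snd.prodMk
      (e.comp_of_eq (continuousAt_fst (p := (t₀, μ))) rfl))).eventually_ne b] with q r s v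
  exact s (v _ r)

end fam

variable {X : Type} [TopologicalSpace X] [T2Space X] [CompactSpace X] {R : RS X}
  {C : Set (V M)} {N : Finset (X × X)} {A : ι → LB R} {π : X → V M} {U : Set X}

theorem cont_P (h : Par o C N A π) : Continuous fun z => P (π z) :=
  continuous_iff_continuousAt.2 fun x => by
    refine ((continuousAt_P (h.ne x)).tendsto.comp (tends_br h.sec x)).congr'
      ((R.src_nhds x).mono fun y hy => ?_)
    exact ((congrArg P (br_e hy)).trans (P_smul (fun i => (A i).ne x y) _)).symm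

theorem exists_sep (h : Par o C N A π) (hU : IsClopen U) (hN : ∀ n ∈ N, n.1 ∈ U ↔ n.2 ∈ U) :
    ∃ u v, IsOpen u ∧ IsOpen v ∧ Disjoint u v ∧ (∀ z ∈ U, P (π z) ∈ u) ∧
      ∀ z ∉ U, P (π z) ∈ v := by
  obtain ⟨u, v, a, b, c, d, e⟩ := SeparatedNhds.of_isCompact_isCompact
    (hU.isClosed.isCompact.image (cont_P h)) (hU.compl.isClosed.isCompact.image (cont_P h))
    (disjoint_left.2 fun _ ⟨x, hx, a⟩ ⟨y, hy, b⟩ => by
      obtain ⟨s, -, e⟩ := exists_of_P (h.ne y) (b.trans a.symm)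
      rcases h.inj x y s e with rfl | e | e
      exacts [hy hx, hy ((hN _ e).1 hx), hy ((hN _ e).2 hx)])
  exact ⟨u, v, a, b, e, fun z hz => c ⟨z, hz, rfl⟩, fun z hz => d ⟨z, hz, rfl⟩⟩

variable (N U) in
/-- the sections supported on `U` -/
def Hs (L : LB R) : Submodule ℂ (X → ℂ) where
  carrier := {s | s ∈ H0 N L ∧ ∀ x ∉ U, s x = 0}
  add_mem' a b := ⟨add_mem a.1 b.1, fun x h => by simp [a.2 x h, b.2 x h]⟩
  zero_mem' := ⟨zero_mem _, fun _ _ => rfl⟩
  smul_mem' c _ a := ⟨Submodule.smul_mem _ c a.1, fun x h => by simp [a.2 x h]⟩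

instance {L : LB R} : FiniteDimensional ℂ (Hs N U L) :=
  Submodule.finiteDimensional_of_le (S₂ := H0 N L) fun _ a => a.1

/-- the inequality of Riemann on a part of the curve -/
theorem riemann_part (hU : IsClopen U) (hN : ∀ n ∈ N, n.1 ∈ U ↔ n.2 ∈ U) (L : LB R) :
    2 * degOn L U - degOn (omega R N ∅) U ≤ 2 * finrank ℂ (Hs N U L) := by
  classical
  obtain ⟨R', h⟩ := R.exists_sub hU.isOpen
  have : CompactSpace U := isCompact_iff_compactSpace.1 hU.isClosed.isCompact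
  have i : Injective (Subtype.val : U → X) := Subtype.val_injective
  have z : ∀ (s : U → ℂ), ∀ x ∉ U, extend Subtype.val s 0 x = 0 := fun s x hx =>
    extend_apply' _ _ _ fun ⟨y, e⟩ => hx (e ▸ y.2)
  have a := riemann (N.preimage _ (i.prodMap i).injOn) (h.pb L)
  have b := (Submodule.finrank_mono (s := H0 (N.preimage _ (i.prodMap i).injOn) (h.pb L))
    (t := (Hs N U L).map (LinearMap.funLeft ℂ ℂ Subtype.val)) fun s hs => ⟨extend Subtype.val s 0,
      ⟨⟨h.extend_mem i hs.1, fun n hn => ?_⟩, z s⟩, funext fun y => i.extend_apply ..⟩).trans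
    ((Hs N U L).finrank_map_le (LinearMap.funLeft ℂ ℂ Subtype.val))
  · have d := h.degOn_K i isClopen_univ
    have e : ∑ n ∈ N, (degOn (R.pt n.1) U + degOn (R.pt n.2) U) =
        2 * (N.filter (· ∈ range (Prod.map (Subtype.val : U → X) (Subtype.val : U → X)))).card := by
      rw [Finset.card_filter, Nat.cast_sum, Finset.mul_sum]
      refine Finset.sum_congr rfl fun n hn => ?_
      by_cases k : n.1 ∈ U <;> simp [degOn_pt hU, range_prodMap, ← hN n hn, k]
    rw [gen, Finset.card_preimage, ← degOn_univ, h.degOn_pb i isClopen_univ, image_univ,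
      Subtype.range_coe] at a
    rw [degOn_univ, deg_K, image_univ, Subtype.range_coe] at d
    rw [degOn_omega, e, Finset.sum_empty]
    omega
  · by_cases k : n.1 ∈ U
    · exact (i.extend_apply s 0 ⟨_, k⟩).trans ((hs.2 (⟨_, k⟩, ⟨_, (hN n hn).1 k⟩)
        (Finset.mem_preimage.2 hn)).trans (i.extend_apply s 0 ⟨_, (hN n hn).1 k⟩).symm)
    · exact (z s _ k).trans (z s _ (mt (hN n hn).2 k)).symm

theorem rr_part (hU : IsClopen U) (hN : ∀ n ∈ N, n.1 ∈ U ↔ n.2 ∈ U) {L : LB R} (h : h1 N L = 0) :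
    2 * degOn L U - degOn (omega R N ∅) U = 2 * finrank ℂ (Hs N U L) := by
  have a := riemann_part hU hN L
  have b := riemann_part hU.compl (fun n hn => not_congr (hN n hn)) L
  have d := Submodule.finrank_sup_add_finrank_inf_eq (Hs N U L) (Hs N Uᶜ L)
  have e := Submodule.finrank_mono (s := Hs N U L ⊔ Hs N Uᶜ L) (t := H0 N L)
    (sup_le (fun _ a => a.1) fun _ a => a.1)
  rw [show Hs N U L ⊓ Hs N Uᶜ L = ⊥ from (Submodule.eq_bot_iff _).2 fun s a => funext fun x =>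
    (em (x ∈ U)).elim (fun k => a.2.2 x (not_not.2 k)) (a.1.2 x), finrank_bot] at d
  have f := degOn_add_compl (L := L) hU
  have k := degOn_add_compl (L := omega R N ∅) hU
  have := finrank_H0 h
  rw [deg_omega, Finset.card_empty] at k
  omega

variable {g : ℤ} {m : ι → ℤ} {a : ι → ℕ} {u v : Set (∀ i, Fin (M i) → Fin (M i) → ℂ)}

open Classical in
theorem piecewise_mem (hU : IsClopen U) (hN : ∀ n ∈ N, n.1 ∈ U ↔ n.2 ∈ U) {L : LB R} {s : X → ℂ}
    (h : s ∈ H0 N L) : U.piecewise s 0 ∈ H0 N L :=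
  ⟨LB.piecewise_mem hU (fun x _ => h.1 x) fun _ _ => LB.sec_zero,
    fun n hn => if_congr (hN n hn) (h.2 n hn) rfl⟩

theorem rank_part (h : Par o C N A π) (hC : IsCurve o g m C) (ha : a ≠ 0) (hU : IsClopen U)
    (hN : ∀ n ∈ N, n.1 ∈ U ↔ n.2 ∈ U) (e : ∀ z, P (π z) ∈ u ↔ z ∈ U) :
    2 * degOn (bz A fun i => a i) U - degOn (omega R N ∅) U =
      2 * (finrank ℂ (Tens M a) - finrank ℂ (Van a (C ∩ P ⁻¹' u))) := by
  classical
  let Φ : Tens M a →ₗ[ℂ] X → ℂ := .pi fun x => if x ∈ U then (evL a (π x)).toLinearMap else 0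
  have k : ∀ μ, Φ μ = U.piecewise (fun x => val μ (π x)) 0 := fun μ => funext fun x => by
    by_cases d : x ∈ U <;> simp [Φ, d]
  have b := Φ.finrank_range_add_finrank_ker
  rw [show LinearMap.range Φ = Hs N U (bz A fun i => a i) from Submodule.ext fun s => ⟨?_, ?_⟩,
    show LinearMap.ker Φ = Van a (C ∩ P ⁻¹' u) from Submodule.ext fun μ => ⟨?_, ?_⟩] at b
  · rw [rr_part hU hN ((h.numbers hC).2.2 a ha)]
    omega
  · rintro d c ⟨hc, f⟩
    obtain ⟨x, t, ht, rfl⟩ := (h.img c).1 hc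
    have := congrFun ((k μ).symm.trans d) x
    rw [piecewise_eq_of_mem _ _ _ ((e x).1 (P_smul ht _ ▸ f))] at this
    rw [Dict.val_smul, this, Pi.zero_apply, mul_zero]
  · exact fun d => (k μ).trans (funext fun x => ite_eq_right_iff.2 fun f =>
      d _ ⟨h.mem x, (e x).2 f⟩)
  · rintro ⟨μ, rfl⟩
    exact k μ ▸ ⟨piecewise_mem hU hN (val_mem h.sec μ), fun x => piecewise_eq_of_notMem _ _ _⟩
  · intro d
    obtain ⟨μ, f⟩ := mem_PP.1 (h.le_PP hC ha d.1)
    refine ⟨μ, (k μ).trans (funext fun x => ?_)⟩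
    by_cases r : x ∈ U
    exacts [(if_pos r).trans (f x).symm, (if_neg r).trans (d.2 x r).symm]

theorem rank_add (h : Par o C N A π) (hC : IsCurve o g m C) (ha : a ≠ 0) (hU : IsClopen U)
    (hN : ∀ n ∈ N, n.1 ∈ U ↔ n.2 ∈ U) (e : ∀ z, P (π z) ∈ u ↔ z ∈ U)
    (e' : ∀ z, P (π z) ∈ v ↔ z ∉ U) :
    (finrank ℂ (Van a (C ∩ P ⁻¹' u)) + finrank ℂ (Van a (C ∩ P ⁻¹' v)) : ℤ) =
      2 * finrank ℂ (Tens M a) - (∑ i, a i * m i + 1 - g) := by
  have b := rank_part h hC ha hU hN e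
  have d := rank_part h hC ha hU.compl (fun n hn => not_congr (hN n hn)) e'
  have f := degOn_add_compl (L := bz A fun i => a i) hU
  have k := degOn_add_compl (L := omega R N ∅) hU
  rw [deg_omega, Finset.card_empty, (h.numbers hC).1] at k
  simp only [deg_bz, (h.numbers hC).2.1] at f
  omega

variable {ν κ : Type} [Fintype ν] [Fintype κ]

/-- representatives of the components -/
theorem exists_rep (c : AC ν κ) : ∃ (β : Type) (_ : Finite β) (z : β → c.X) (r : c.X → β),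
    (∀ b, r (z b) = b) ∧ (∀ U, c.Sat U → ∀ x, z (r x) ∈ U ↔ x ∈ U) ∧ ∀ B, c.Sat (r ⁻¹' B) := by
  let ρ : c.X → {U // c.Sat U} → Prop := fun x U => x ∈ U.1
  have k : IsLocallyConstant (rangeFactorization ρ) :=
    (IsLocallyConstant.iff_eventually_eq _).2 fun x => (eventually_all.2 fun U : {U // c.Sat U} =>
      show ∀ᶠ y in 𝓝 x, ρ y U = ρ x U from (em (x ∈ U.1)).elim
        (fun a => Eventually.mono (U.2.1.2.mem_nhds a) fun _ b => propext (iff_of_true b a))
        fun a => Eventually.mono (U.2.1.compl.2.mem_nhds a) fun _ b =>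
          propext (iff_of_false b a)).mono fun _ a => Subtype.ext (funext a)
  exact ⟨range ρ, inferInstance, rangeSplitting ρ, rangeFactorization ρ,
    fun b => Subtype.ext (apply_rangeSplitting ρ b), fun U h x =>
      (congrFun (apply_rangeSplitting ρ _) ⟨U, h⟩).to_iff, fun B => ⟨⟨⟨k Bᶜ⟩, k B⟩,
        fun x a y b => mem_of_eq_of_mem (s := B) (y := rangeFactorization ρ x)
          (Subtype.ext (funext fun U : {U // c.Sat U} => propext (jn U.2 b).symm)) a⟩⟩

variable {T E : Type*} [TopologicalSpace T] [NormedAddCommGroup E] [NormedSpace ℂ E]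
  [FiniteDimensional ℂ E] {C : T → Set (V M)} {p : T → E} {t₀ : T}

/-- **local constancy** in a local family -/
theorem same (h : LocFam o C p t₀) (hC : ∀ t, IsCurve o g m (C t)) {c₀ : AC ν κ}
    {A₀ : ι → LB c₀.R} {π₀ : c₀.X → V M} (h₀ : Par o (C t₀) c₀.N A₀ π₀)
    {q : Ch.Mk ν κ → T → V M} (hq : ∀ n, ContinuousAt (q n) t₀)
    (hp : ∀ n, Orb (π₀ (c₀.p n)) (q n t₀)) : ∀ᶠ t in 𝓝 t₀, ∀ (c : AC ν κ) (A : ι → LB c.R)
      (π : c.X → V M), Par o (C t) c.N A π → (∀ n, Orb (π (c.p n)) (q n t)) →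
        AC.Same c₀ A₀ c A := by
  classical
  choose u v ho ho' hd hu hv using fun U : {U // c₀.Sat U} =>
    exists_sep h₀ U.2.1 (sat_iff.1 U.2).2
  have hd := fun U => disjoint_left.1 (hd U)
  have ev : ∀ {y : T → V M} {z : c₀.X}, ContinuousAt y t₀ → Orb (π₀ z) (y t₀) →
      ∀ᶠ t in 𝓝 t₀, ∀ U, P (y t) ∈ u U ↔ z ∈ U.1 := fun {y z} a ⟨s, b, e⟩ => by
    have k := (continuousAt_P (e ▸ smul_ne b (h₀.ne z))).tendsto.comp a
    rw [e, P_smul b] at k
    refine eventually_all.2 fun U => ?_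
    by_cases d : z ∈ U.1
    · exact (k.eventually ((ho U).mem_nhds (hu U z d))).mono fun _ f => iff_of_true f d
    · exact (k.eventually ((ho' U).mem_nhds (hv U z d))).mono fun _ f =>
        iff_of_false (fun r => hd U r f) d
  obtain ⟨β, _, z, r, r1, r2, r3⟩ := exists_rep c₀
  choose y y0 y1 y2 _ using fun b => exists_approx h (h₀.mem (z b))
  have b0 : ∀ (c : AC ν κ) (A : ι → LB c.R), (bz A fun i => (0 : ι → ℕ) i) = 1 :=
    fun c A => bz_zero A
  have t3 := h.usc_sec 0 (fun b => ⟨y1 b, y2 b⟩) fun s a b c hc => by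
    obtain ⟨x, t, ht, rfl⟩ := (h₀.img c).1 hc
    have d := b0 c₀ A₀ ▸ h₀.mem_of_isSecZ (isSecZ_iff.2 a)
    rw [a.hom t ht _ (h₀.mem x), (r2 {x | s (π₀ x) = 0} ⟨((IsLocallyConstant.iff_eventually_eq _).2
      (ev_const d.1)).isClopen_fiber 0, fun x e w f => ((mem_H0_iff.1 d).2 x w f).symm.trans e⟩
      x).1 ((congrArg s (y0 (r x))).symm.trans (b (r x))), mul_zero]
  have t0 : ∀ U U', ∀ᶠ t in 𝓝 t₀, U ≤ U' → ∀ c ∈ C t, P c ∈ u U' ∪ v U := fun U U' =>
    eventually_imp_distrib_left.2 fun e => tube h ((ho U').union (ho' U)) fun c hc => by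
      obtain ⟨x, t, ht, rfl⟩ := (h₀.img c).1 hc
      rw [P_smul ht]
      exact (em (x ∈ U.1)).imp (fun a => hu U' x (e a)) (hv U x)
  filter_upwards [t3, eventually_all.2 y2,
    eventually_all.2 fun b => ev (z := z b) (y1 b) (y0 b ▸ Orb.refl _), eventually_all.2 fun n =>
      ev (hq n) (hp n), eventually_all.2 fun U => eventually_all.2 (t0 U),
    eventually_all.2 fun U => eventually_all.2 fun i => eventually_all.2 fun k : Fin 2 =>
      (ev_van h (ho U) (Pi.single i (k + 1))).and (ev_van h (ho' U) (Pi.single i (k + 1)))]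
    with t t3 t1 t2 t5 t0 t4 c A π H hp'
  have e1 : ∀ U w, P (π w) ∈ v U ↔ P (π w) ∉ u U := fun U w =>
    ⟨fun a b => hd U b a, (t0 U U le_rfl _ (H.mem w)).resolve_left⟩
  have sat : ∀ U, c.Sat {w | P (π w) ∈ u U} := fun U => sat_iff.2 ⟨⟨⟨by
    simp only [compl_ofPred, ← e1]
    exact (ho' U).preimage (cont_P H)⟩,
    (ho U).preimage (cont_P H)⟩, fun n hn => by simp only [mem_ofPred_eq, node_eq H.sec hn]⟩
  choose x s hs e using fun b => (H.img _).1 (t1 b)
  simp only [e, P_smul (hs _)] at t2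
  refine ⟨.ofSurjective (.ofMapLEIff (fun U => ⟨_, sat U⟩) fun U U' => ⟨fun a w b => ?_,
    fun a w b => (t0 U U' a _ (H.mem w)).resolve_right (hd U b)⟩) fun U => ?_, fun U => ?_⟩
  · exact (r2 _ U'.2 w).1 ((t2 _ U').1 (a ((t2 _ U).2 ((r2 _ U.2 w).2 b))))
  · let W : {U // c₀.Sat U} := ⟨_, r3 {b | x b ∈ U.1}⟩
    obtain ⟨f, a, b⟩ := H.exists_isSecZ (b0 c A ▸ sub_mem
      (piecewise_mem U.2.1 (sat_iff.1 U.2).2 H0.one_mem)
      (piecewise_mem (sat W).1 (sat_iff.1 (sat W)).2 H0.one_mem))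
    have a := isSecZ_iff.1 a
    refine ⟨W, Subtype.ext (Set.ext fun w => ?_)⟩
    have d := (b w).symm.trans (t3 f a (fun j => by
      rw [e, a.hom _ (hs j) _ (H.mem _), b]
      exact mul_eq_zero_of_right _ (sub_eq_zero.2 (if_congr
        ((t2 j W).trans (by simp [W, r1])).symm rfl rfl))) _ (H.mem w))
    change P (π w) ∈ u W ↔ _
    by_cases k : w ∈ U.1 <;> by_cases k' : P (π w) ∈ u W <;> simp [k, k'] at d ⊢
  · have m0 : ∀ w, P (π₀ w) ∈ u U ↔ w ∈ U.1 := fun w =>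
      ⟨fun a => by_contra fun b => hd U a (hv U w b), hu U w⟩
    have key : ∀ i (k : Fin 2), 2 * ((k + 1) * degOn (A₀ i) U.1) - degOn (omega c₀.R c₀.N ∅) U.1 =
        2 * ((k + 1) * degOn (A i) {w | P (π w) ∈ u U}) -
          degOn (omega c.R c.N ∅) {w | P (π w) ∈ u U} := fun i k => by
      have ha : (Pi.single i (k + 1) : ι → ℕ) ≠ 0 := fun e => by simpa using congrFun e i
      have a1 := rank_part h₀ (hC _) ha U.2.1 (sat_iff.1 U.2).2 m0
      have a2 := rank_add h₀ (hC _) ha U.2.1 (sat_iff.1 U.2).2 m0 fun w =>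
        ⟨fun a b => hd U (hu U w b) a, hv U w⟩
      have a3 := rank_part (u := u U) H (hC _) ha (sat U).1 (sat_iff.1 (sat U)).2 fun _ => Iff.rfl
      have a4 := rank_add (u := u U) H (hC _) ha (sat U).1 (sat_iff.1 (sat U)).2
        (fun _ => Iff.rfl) (e1 U)
      have := t4 U i k
      rw [degOn_bz, Finset.sum_eq_single i (fun j _ d => by simp [d]) (by simp), Pi.single_eq_same,
        Nat.cast_succ] at a1 a3
      omega
    refine ⟨?_, fun i => ?_, fun n => ?_⟩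
    · have a := key o 0
      have b := key o 1
      change _ = degOn _ {w | P (π w) ∈ u U}
      simp only [Fin.val_zero, Fin.val_one, Nat.cast_zero, Nat.cast_one] at a b
      omega
    · have a := key i 0
      have b := key i 1
      change _ = degOn _ {w | P (π w) ∈ u U}
      simp only [Fin.val_zero, Fin.val_one, Nat.cast_zero, Nat.cast_one] at a b
      omega
    · obtain ⟨s, a, b⟩ := hp' n
      rw [← t5 n U, b, P_smul a]
      rfl

end LC

namespace Ch

variable {Λ R J ν κ ι : Type} [Fintype Λ] [Fintype R] [Fintype J] [Fintype ν] [Fintype κ]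
  [Fintype ι] [DecidableEq ι] {ch : Ch ι J}

/-- **local constancy** for the curves of a chart -/
theorem eventually_same (hc : ch.Cuts) {x₀ : ch.W (Mk ν κ)} (hx : x₀ ∈ ch.base _) {c₀ : AC ν κ}
    {A₀ : ι → LB c₀.R} {π₀ : c₀.X → V ch.M} (h : Par ch.o (crv x₀) c₀.N A₀ π₀)
    (hp : ∀ n, Base.Orb (π₀ (c₀.p n)) (x₀.p n)) :
    ∀ᶠ x in 𝓝 x₀, x ∈ ch.base _ → ∀ (c : AC ν κ) (A : ι → LB c.R) (π : c.X → V ch.M),
      Par ch.o (crv x) c.N A π → (∀ n, Base.Orb (π (c.p n)) (x.p n)) → AC.Same c₀ A₀ c A := by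
  obtain ⟨l, hl⟩ := hc.cut
  have := LC.same (locFam_base hl ⟨x₀, hx⟩) (fun y => y.2.2.2.1) h (q := fun n y => y.1.p n)
    (fun n => (W.an_p analyticAt_id n).continuousAt.comp continuous_subtype_val.continuousAt) hp
  rw [nhds_subtype_eq_comap, eventually_comap] at this
  exact this.mono fun x a b => a ⟨x, b⟩ rfl

theorem Rep.eventually_same (hc : ch.Cuts) {ℓ : R → ι → ℤ} {A A' : Set J} {x₀ : ch.WF ν κ Λ}
    (hx : x₀.2 ∈ ch.base _) {m₀ : AM Λ R J ν κ} (h : Rep ℓ A x₀ m₀) :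
    ∀ᶠ x in 𝓝 x₀, x.2 ∈ ch.base _ → ∀ m, Rep ℓ A' x m → m₀.Same m := by
  have k : ∀ {x : ch.W (Mk ν κ)} {c B π}, CRep x c B π → ∀ n, Base.Orb (π (c.p n)) (x.p n) :=
    fun h n => let ⟨s, a, b⟩ := h.mark; ⟨s _, a _, b n⟩
  have d : ∀ {m : AM Λ R J ν κ} {B : ι → LB m.R} {r}, (1 : m.X → ℂ) ∈ (bz B (ℓ r) / m.L r).Γ →
      ∀ U, degOn (m.L r) U = ∑ i, ℓ r i * degOn (B i) U := fun a U => by
    rw [← degOn_bz, eq_comm, ← sub_eq_zero, ← degOn_div]
    exact degOn_of_ne (fun x _ => a x) fun _ _ => one_ne_zero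
  obtain ⟨-, B, π, a, b, -⟩ := h
  refine (continuousAt_snd.eventually (Ch.eventually_same hc hx a.par (k a))).mono
    fun x e hx m ⟨_, B', π', a', b', _⟩ => (e hx _ B' π' a'.par (k a')).imp fun σ f U =>
      ⟨(f U).1, fun r => ?_, (f U).2.2⟩
  simp only [d (b r), d (b' r), (f U).2.1]

end Ch

end Vale.Agent.P269
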