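import Vale.Agent.P269.Gen.Abs
import Vale.Agent.P269.Gen.Act
import Vale.Agent.P269.Cv.CtrA

/-!
# Isomorphisms of abstract maps
-/

set_option linter.unusedSectionVars false

namespace Vale.Agent.P269

open Set Function Topology Filter Cv

namespace Cv

variable {X X' : Type} [TopologicalSpace X] [TopologicalSpace X'] {R : RS X} {R' : RS X'}
  {N : Finset (X × X)} {N' : Finset (X' × X')} {e : X ≃ X'} {L L₂ : LB R} {L' : LB R'}

theorem LIso.pb_symm (h : LIso R R' e) (L' : LB R') : (h.symm e).pb (h.pb L') = L' :=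
  LB.ext (funext₂ fun x y => by simp)

theorem LIso.symm_pb (h : LIso R R' e) (L : LB R) : h.pb ((h.symm e).pb L) = L :=
  LB.ext (funext₂ fun x y => by simp)

theorem jn_symm (hN : ∀ x y, Jn N x y ↔ Jn N' (e x) (e y)) (x y : X') :
    Jn N' x y ↔ Jn N (e.symm x) (e.symm y) := by
  rw [hN, e.apply_symm_apply, e.apply_symm_apply]

theorem sm_equiv (hN : ∀ x y, Jn N x y ↔ Jn N' (e x) (e y)) (x : X) : Sm N x ↔ Sm N' (e x) := by
  simp only [sm_iff, hN, e.surjective.forall]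

theorem LIso.mem0_iff (h : LIso R R' e) (hN : ∀ x y, Jn N x y ↔ Jn N' (e x) (e y)) {s : X' → ℂ} :
    (fun y => s (e y)) ∈ H0 N (h.pb L') ↔ s ∈ H0 N' L' := by
  refine ⟨fun a => ?_, h.pb_mem0 fun x y a => .inr ((hN x y).1 a)⟩
  simpa only [h.pb_symm, e.apply_symm_apply] using
    (h.symm e).pb_mem0 (fun x y a => .inr ((jn_symm hN x y).1 a)) a

theorem LB.ord_mul_unit {s u : X → ℂ} {x : X} (a : L₂.Sec u x) (h0 : u x ≠ 0) :
    (L * L₂).ord (s * u) x = L.ord s x := by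
  by_cases b : L.Sec s x
  · rw [LB.ord_mul b a, (LB.ord_eq_zero a).2 h0, add_zero]
  · refine (analyticOrderAt_of_not_analyticAt fun d => b ?_).trans
      (analyticOrderAt_of_not_analyticAt b).symm
    have := LB.Sec.div (L := L * L₂) d a h0
    rw [mul_div_cancel_right] at this
    exact this.congr ((a.ev_ne h0).mono fun z hz => mul_div_cancel_right₀ _ hz)

variable [T2Space X] [CompactSpace X] [T2Space X'] [CompactSpace X']

theorem LIso.deg_equiv (h : LIso R R' e) (L' : LB R') : deg (h.pb L') = deg L' := by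
  rw [← degOn_univ, h.degOn_pb e.injective isClopen_univ, image_univ, e.range_eq_univ, degOn_univ]

theorem LIso.chi_one_equiv (h : LIso R R' e) : chi (1 : LB R) = chi (1 : LB R') := by
  have := h.degOn_K e.injective isClopen_univ
  rw [image_univ, e.range_eq_univ, degOn_univ, degOn_univ, deg_K, deg_K] at this
  omega

theorem LIso.ge_equiv (h : LIso R R' e) {n : ℤ} : Ge (h.pb L') n ↔ Ge L' n :=
  ⟨fun a => h.pb_symm L' ▸ (h.symm e).ge_pb e.symm.injective a, h.ge_pb e.injective⟩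

end Cv

variable {S Λ R J K ν κ : Type} [Fintype S] [Fintype Λ] [Fintype R] [Fintype J] [Fintype K]
  [Fintype ν] [Fintype κ]

namespace AC

variable {c c' : AC ν κ}

theorem mem_P {z : c.X} : z ∈ c.P ↔ ∃ n, c.p n = z := by
  simp only [P, Finset.mem_image, Finset.mem_univ, true_and]

theorem sm_P : ∀ z ∈ c.P, Sm c.N z := fun _ hz => let ⟨n, e⟩ := mem_P.1 hz; e ▸ c.sm n

theorem sg_true (q : κ) : c.sg (c.p (.inr (q, true))) = -1 := if_pos ⟨q, rfl⟩

theorem sg_false (q : κ) : c.sg (c.p (.inr (q, false))) = 1 :=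
  if_neg fun ⟨_, e⟩ => by simpa using c.inj e

theorem sg_inl (n : ν) : c.sg (c.p (.inl n)) = 1 := if_neg fun ⟨_, e⟩ => by simpa using c.inj e

theorem sg_of_not_mem {z : c.X} (h : z ∉ c.P) : c.sg z = 1 :=
  if_neg fun ⟨_, e⟩ => h (mem_P.2 ⟨_, e.symm⟩)

theorem sg_sq (z : c.X) : c.sg z * c.sg z = 1 := by
  unfold sg
  split_ifs <;> simp

theorem sg_mem : c.sg ∈ H0 c.N (c.ω / omega c.R c.N c.P) := by
  rw [ω, mul_div_cancel_left]
  exact cst_mem0 _ fun n hn => (sg_of_not_mem fun a => Xi.not_sm_fst hn (sm_P _ a)).trans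
    (sg_of_not_mem fun a => Xi.not_sm_snd hn (sm_P _ a)).symm

theorem degOn_ω (U : Set c.X) : degOn c.ω U = degOn (omega c.R c.N c.P) U := by
  rw [ω, degOn_mul, degOn_cst, add_zero]

theorem card_P : c.P.card = Fintype.card (Ch.Mk ν κ) := by
  classical
  rw [P, ← Finset.card_univ]
  convert Finset.card_image_of_injective _ c.inj

theorem deg_ω : deg c.ω = 2 * gen c.R c.N - 2 + Fintype.card (Ch.Mk ν κ) := by
  rw [ω, deg_mul, deg_cst, add_zero, deg_omega, card_P]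

theorem conn_iff : c.Conn ↔ Cv.Conn c.N := Iff.rfl

theorem sg_comp {e : c.X ≃ c'.X} (hp : ∀ n, e (c.p n) = c'.p n) (z : c.X) : c'.sg (e z) = c.sg z := by
  classical
  exact if_congr (exists_congr fun q => by rw [← hp, e.apply_eq_iff_eq]) rfl rfl

theorem mem_P_equiv {e : c.X ≃ c'.X} (hp : ∀ n, e (c.p n) = c'.p n) (z : c.X) :
    e z ∈ c'.P ↔ z ∈ c.P := by
  simp only [mem_P, ← hp, e.apply_eq_iff_eq]

/-- the canonical isomorphism of the dualising bundles -/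
theorem exists_omega {e : c.X ≃ c'.X} (h : LIso c.R c'.R e)
    (hN : ∀ x y, Jn c.N x y ↔ Jn c'.N (e x) (e y)) (hp : ∀ n, e (c.p n) = c'.p n) :
    ∃ w ∈ H0 c.N (omega c.R c.N c.P / h.pb (omega c'.R c'.N c'.P)),
      w ∈ H0 c.N (c.ω / h.pb c'.ω) ∧ (∀ y, w y ≠ 0) ∧ (∀ n, w (c.p n) = 1) ∧
      ∀ y, Sm c.N y ∧ y ∉ c.P → w y = c.R.d (fun z => c'.R.e (e y) (e z)) y := by
  obtain ⟨w, a, b, d, f⟩ := h.exists_omega e.injective c.nd c'.nd sm_P sm_P
    (fun x y => (hN x y).1) fun y => by rw [sm_equiv hN, mem_P_equiv hp]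
  refine ⟨w, a, ?_, b, fun n => ?_, d⟩
  · rwa [ω, ω, map_mul, show h.pb (LB.cst c'.R c'.sg c'.sg_ne) = LB.cst c.R c.sg c.sg_ne from
      LB.ext (funext₂ fun x y => by simp only [LIso.pb_φ, LB.cst, sg_comp hp]),
      mul_div_mul_right_eq_div]
  · rw [f _ fun a => a.2 (mem_P.2 ⟨n, rfl⟩), hp, Xi.sg_sm (c.sm n), Xi.sg_sm (c'.sm n), mul_one]

theorem gen_eq {e : c.X ≃ c'.X} (h : LIso c.R c'.R e)
    (hN : ∀ x y, Jn c.N x y ↔ Jn c'.N (e x) (e y)) : gen c.R c.N = gen c'.R c'.N := by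
  obtain ⟨w, a, b, -⟩ := h.exists_omega (P := ∅) (P' := ∅) e.injective c.nd c'.nd (by simp) (by simp)
    (fun x y => (hN x y).1) fun y => by simp [sm_equiv hN]
  have := deg_of_ne a.1 b
  rw [deg_div, h.deg_equiv, deg_omega, deg_omega, Finset.card_empty, Finset.card_empty] at this
  omega

theorem card_N_eq {e : c.X ≃ c'.X} (h : LIso c.R c'.R e)
    (hN : ∀ x y, Jn c.N x y ↔ Jn c'.N (e x) (e y)) : c.N.card = c'.N.card := by
  have := gen_eq h hN
  rw [gen, gen, h.chi_one_equiv] at this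
  omega

end AC

namespace AM

variable {F : Wt S Λ R J} {A A' : Set J} {m m' m'' : AM Λ R J ν κ}

/-- Rescaling by the extra torus. -/
noncomputable def scl (F : Wt S Λ R J) (τ : S → ℂ) (m : AM Λ R J ν κ) : AM Λ R J ν κ :=
  { m with l := F.actL τ m.l, y := fun j z => (∏ i, τ i ^ F.wt j i) * m.y j z }

theorem iso_scl {τ : S → ℂ} (hτ : IsUnit τ) : Iso F A m (m.scl F τ) :=
  ⟨Equiv.refl _, LIso.id _, fun _ => 1, τ, hτ, fun _ _ => Iff.rfl, fun _ => rfl,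
    fun i => ⟨(div_self' (m.L i)).symm ▸ H0.one_mem, fun _ => one_ne_zero, fun _ => rfl⟩, rfl,
    fun j _ x => by
      simp only [Wt.actT, Pi.one_apply, one_zpow, Finset.prod_const_one, mul_one]
      rfl⟩

theorem Iso.refl (m : AM Λ R J ν κ) : Iso F A m m :=
  ⟨Equiv.refl _, LIso.id _, fun _ => 1, 1, isUnit_one, fun _ _ => Iff.rfl, fun _ => rfl,
    fun i => ⟨(div_self' (m.L i)).symm ▸ H0.one_mem, fun _ => one_ne_zero, fun _ => rfl⟩,
    (F.actL_one _).symm, fun j _ x => by simp [Wt.actT, vl]⟩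

theorem Iso.symm (h : Iso F A m m') : Iso F A m' m := by
  obtain ⟨e, h, t, τ, hτ, hN, hp, ht, hl, hy⟩ := h
  have h0 := isUnit_pi_iff.1 hτ
  have hp' : ∀ n, e.symm (m'.p n) = m.p n := fun n => e.symm_apply_eq.2 (hp n).symm
  refine ⟨e.symm, h.symm e, fun i => (fun y => t i (e.symm y))⁻¹, τ⁻¹,
    isUnit_pi_iff.2 fun i => inv_ne_zero (h0 i), jn_symm hN, hp',
    fun i => ⟨?_, fun x => inv_ne_zero ((ht i).2.1 _), fun q => ?_⟩, ?_, fun j hj x => ?_⟩
  · have := H0.inv_mem (((h.symm e).mem0_iff (jn_symm hN)).2 (ht i).1) fun x => (ht i).2.1 _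
    rwa [map_div, h.pb_symm, inv_div] at this
  · simp only [Pi.inv_apply, hp', (ht i).2.2 q]
  · rw [hl, ← F.actL_mul, show τ⁻¹ * τ = 1 from funext fun i => inv_mul_cancel₀ (h0 i), F.actL_one]
  · obtain ⟨x, rfl⟩ := e.surjective x
    have a := prod_zpow_ne h0 (F.wt j)
    have b := prod_zpow_ne (fun i => (ht i).2.1 x) (F.w j)
    simp only [Wt.actT, vl, hy j hj, e.symm_apply_apply, Pi.inv_apply, inv_zpow,
      Finset.prod_inv_distrib]
    field_simp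

theorem Iso.trans (h : Iso F A m m') (h' : Iso F A m' m'') : Iso F A m m'' := by
  obtain ⟨e, h, t, τ, hτ, hN, hp, ht, hl, hy⟩ := h
  obtain ⟨e', h', t', τ', hτ', hN', hp', ht', hl', hy'⟩ := h'
  refine ⟨e.trans e', h'.comp h, fun i => (fun x => t' i (e x)) * t i, τ' * τ, hτ'.mul hτ,
    fun x y => (hN x y).trans (hN' _ _), fun n => (congrArg e' (hp n)).trans (hp' n),
    fun i => ⟨?_, fun x => mul_ne_zero ((ht' i).2.1 _) ((ht i).2.1 _), fun q => ?_⟩,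
    by rw [hl', hl, F.actL_mul], fun j hj x => ?_⟩
  · have := H0.mul_mem ((h.mem0_iff hN).2 (ht' i).1) (ht i).1
    rwa [map_div, div_mul_div_cancel] at this
  · simp only [Pi.mul_apply, hp, (ht i).2.2 q, (ht' i).2.2 q]
  · simp only [Wt.actT, vl, Equiv.trans_apply, hy' j hj, hy j hj, Pi.mul_apply, mul_zpow,
      Finset.prod_mul_distrib]
    ring

theorem Iso.mono (h : Iso F A m m') (e : A' ⊆ A) : Iso F A' m m' :=
  let ⟨f, h, t, τ, hτ, hN, hp, ht, hl, hy⟩ := h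
  ⟨f, h, t, τ, hτ, hN, hp, ht, hl, fun j hj => hy j (e hj)⟩

/-- the comparison of the bundles `L ^ a` -/
theorem bz_cmp {e : m.X ≃ m'.X} {h : LIso m.R m'.R e} {t : R → m.X → ℂ}
    (ht : ∀ i, t i ∈ H0 m.N (h.pb (m'.L i) / m.L i) ∧ (∀ x, t i x ≠ 0) ∧ m.Mt (t i)) (a : R → ℤ) :
    (fun x => ∏ i, t i x ^ a i) ∈ H0 m.N (h.pb (bz m'.L a) / bz m.L a) := by
  classical
  rw [h.pb_bz, ← bz_div]
  exact bz_mem (c := fun x i => t i x) (fun i => (ht i).1) (fun x i => (ht i).2.1 x) a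

/-- the fields differ by units -/
theorem Iso.exists_unit (h : Iso F A m m') : ∃ (e : m.X ≃ m'.X) (h : LIso m.R m'.R e),
    (∀ x y, Jn m.N x y ↔ Jn m'.N (e x) (e y)) ∧ (∀ n, e (m.p n) = m'.p n) ∧ ∀ j ∈ A,
      ∃ v ∈ H0 m.N (h.pb (bz m'.L (F.w j)) / bz m.L (F.w j)), (∀ x, v x ≠ 0) ∧ m.Mt v ∧
        (fun x => m'.y j (e x)) = m.y j * v := by
  obtain ⟨e, h, t, τ, hτ, hN, hp, ht, hl, hy⟩ := h
  refine ⟨e, h, hN, hp, fun j hj => ⟨_, Submodule.smul_mem _ (∏ i, τ i ^ F.wt j i) (bz_cmp ht _),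
    fun x => mul_ne_zero (prod_zpow_ne (isUnit_pi_iff.1 hτ) _)
      (prod_zpow_ne (fun i => (ht i).2.1 x) _), fun q => ?_, funext fun x => ?_⟩⟩
  · simp only [Pi.smul_apply, fun i => (ht i).2.2 q]
  · exact (hy j hj x).trans (mul_comm _ _)

theorem Iso.sec_mem (h : Iso F A m m') {j : J} (hj : j ∈ A)
    (a : m.y j ∈ H0 m.N (bz m.L (F.w j))) : m'.y j ∈ H0 m'.N (bz m'.L (F.w j)) := by
  obtain ⟨e, h, hN, -, hy⟩ := h.exists_unit
  obtain ⟨v, b, -, -, d⟩ := hy j hj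
  have := H0.mul_mem a b
  rwa [mul_div_cancel, ← d, h.mem0_iff hN] at this

theorem Iso.sec (h : Iso F univ m m') (a : m.Sec F) : m'.Sec F := fun j => h.sec_mem trivial (a j)

theorem Iso.stable (h : Iso F A m m') {θ : R → ℤ} (a : m.Stable θ) : m'.Stable θ := by
  obtain ⟨e, h, t, τ, hτ, hN, hp, ht, hl, hy⟩ := h
  obtain ⟨w, -, b, d, -⟩ := AC.exists_omega h hN hp
  have := H0.mul_mem (H0.inv_mem b d) (bz_cmp ht θ)
  rw [inv_div, div_mul_div_comm, ← map_mul] at this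
  exact h.ge_equiv.1 (Ge.iso a this.1 fun x =>
    mul_ne_zero (inv_ne_zero (d x)) (prod_zpow_ne (fun i => (ht i).2.1 x) _))

theorem Iso.typ (h : Iso F A m m') {g : ℤ} {d : R → ℤ} (a : m.Typ g d) : m'.Typ g d := by
  obtain ⟨e, h, t, τ, hτ, hN, hp, ht, hl, hy⟩ := h
  refine ⟨(AC.gen_eq h hN).symm.trans a.1, fun i => ?_⟩
  have := deg_of_ne (ht i).1.1 (ht i).2.1
  rw [deg_div, h.deg_equiv, a.2 i] at this
  omega

theorem Iso.conn (h : Iso F A m m') (a : m.Conn) : m'.Conn := by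
  obtain ⟨e, h, hN, -⟩ := h.exists_unit
  refine ⟨a.1.map e, fun U b d => (a.2 (e ⁻¹' U) (b.preimage h.cont) fun n hn => ?_).imp
    (fun k => e.surjective.preimage_injective k) fun k => e.surjective.preimage_injective k⟩
  exact ((hN _ _).1 (.inl hn)).elim (d _) fun k => (d _ k).symm

theorem Iso.mt (h : Iso F A m m') {j : J} (hj : j ∈ A) (a : m.Mt (m.y j)) : m'.Mt (m'.y j) := by
  obtain ⟨e, h, hN, hp, hy⟩ := h.exists_unit
  obtain ⟨v, -, -, b, d⟩ := hy j hj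
  intro q
  rw [← hp, ← hp, congrFun d, congrFun d, Pi.mul_apply, Pi.mul_apply, a q, b q]

theorem Iso.card_N (h : Iso F A m m') : m.N.card = m'.N.card :=
  let ⟨_, h, hN, _⟩ := h.exists_unit
  AC.card_N_eq h hN

theorem Iso.vl (h : Iso F univ m m') :
    ∃ τ, IsUnit τ ∧ ∃ t : Ch.Mk ν κ → R → ℂ, (∀ n, IsUnit (t n)) ∧
      (∀ q, t (.inr (q, false)) = t (.inr (q, true))) ∧
      ∀ n, m'.vl (m'.p n) = F.actT (τ, t n) (m.vl (m.p n)) :=
  let ⟨_, _, t, τ, hτ, _, hp, ht, hl, hy⟩ := h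
  ⟨τ, hτ, fun n i => t i (m.p n), fun _ => isUnit_pi_iff.2 fun i => (ht i).2.1 _,
    fun q => funext fun i => (ht i).2.2 q,
    fun n => Prod.ext hl (funext fun j => hp n ▸ hy j trivial (m.p n))⟩

theorem Iso.sol {F : Fam S Λ R J K} (hF : F.Inv) (h : Iso F.toWt univ m m') (a : m.Sol F) :
    m'.Sol F := by
  refine ⟨?_, h.sec a.2.1, ?_⟩ <;> obtain ⟨e, h, t, τ, hτ, hN, hp, ht, hl, hy⟩ := h
  · exact hl ▸ hF.invB _ hτ _ a.1
  · exact e.surjective.forall.2 fun x => mem_of_eq_of_mem (y := F.actT (τ, fun i => t i x) (m.vl x))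
      (Prod.ext hl (funext fun j => hy j trivial x)) (hF.cone_act (t := (τ, fun i => t i x))
        (Prod.isUnit_iff.2 ⟨hτ, isUnit_pi_iff.2 fun i => (ht i).2.1 x⟩) (a.2.2 x))

theorem Iso.main {F : Fam S Λ R J K} (h : Iso F.toWt A m m') (hA : F.movᶜ ⊆ A) {u : ν → J → ℕ}
    (a : m.Main F u) : m'.Main F u := by
  refine ⟨fun j hj => h.mt (hA hj) (a.1 j hj), fun j hj hz => ?_⟩
  obtain ⟨e, h, hN, hp, hy⟩ := h.exists_unit
  obtain ⟨v, b, d, -, f⟩ := hy j (hA hj)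
  refine ⟨fun n => ?_, e.surjective.forall.2 fun x k => ?_⟩
  · rw [← hp, ← h.ord_pb, f, ← mul_div_cancel (bz m.L (F.w j)) (h.pb _),
      LB.ord_mul_unit (b.1 _) (d _), (a.2 j hj hz).1]
  · rw [congrFun f]
    exact mul_ne_zero ((a.2 j hj hz).2 x fun n e' => k n (e' ▸ hp _)) (d x)

end AM

end Vale.Agent.P269
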