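import Vale.Agent.P269.Pt.Ops2
import Vale.Agent.P269.Pt.Iso
import Vale.Agent.P269.Cv.CtrB

/-!
# Connected components of abstract nodal curves
-/

set_option linter.unusedSectionVars false

namespace Vale.Agent.P269

open Set Function Topology Filter Cv

namespace Cv

variable {X : Type} [TopologicalSpace X] [T2Space X] [CompactSpace X] {R : RS X}
  {N : Finset (X × X)}

theorem finite_clopen (R : RS X) : {U : Set X | IsClopen U}.Finite := by
  obtain ⟨T, a, b⟩ := exists_finite_meets R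
  have k : ∀ U V : Set X, IsClopen U → IsClopen V → U ∩ T = V ∩ T → U ⊆ V := fun U V c d e => by
    by_contra f
    obtain ⟨x, g, h⟩ := b _ (c.diff d) (sdiff_nonempty.2 f)
    exact h.2 (e.le ⟨h.1, g⟩).1
  exact Finite.of_injOn (f := fun U => U ∩ T) (t := 𝒫 T) (fun _ _ => inter_subset_right)
    (fun U c V d e => (k U V c d e).antisymm (k V U d c e.symm)) a.powerset

theorem degOn_sUnion (L : LB R) {T : Finset (Set X)} (h : ∀ V ∈ T, IsClopen V)
    (d : (T : Set (Set X)).PairwiseDisjoint id) :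
    IsClopen (⋃₀ (T : Set (Set X))) ∧ degOn L (⋃₀ (T : Set (Set X))) = ∑ V ∈ T, degOn L V := by
  induction T using Finset.cons_induction with
  | empty => simpa using ⟨isClopen_empty, degOn_empty⟩
  | cons V T hV ih =>
    rw [Finset.coe_cons] at d
    obtain ⟨a, b⟩ := ih (fun W hW => h W (Finset.mem_cons_of_mem hW)) (d.subset (subset_insert _ _))
    have c := h V (Finset.mem_cons_self _ _)
    rw [Finset.coe_cons, sUnion_insert, Finset.sum_cons, degOn_union c a, b]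
    · exact ⟨c.union a, rfl⟩
    · exact disjoint_sUnion_right.2 fun W hW => d (mem_insert _ _) (mem_insert_of_mem _ hW)
        fun e => hV (e ▸ hW)

theorem isClopen_level {s : X → ℂ} (hs : s ∈ (1 : LB R).Γ) (a : ℂ) : IsClopen {x | s x = a} :=
  ((IsLocallyConstant.iff_eventually_eq _).2 (ev_const hs)).isClopen_fiber a

theorem Conn.gen_nonneg (R : RS X) (h : Conn N) : 0 ≤ gen R N := by
  obtain ⟨z⟩ := h.1
  have a := h1_nonneg N (1 : LB R)
  have b : Module.finrank ℂ (H0 N (1 : LB R)) ≤ Module.finrank ℂ (Submodule.span ℂ {(1 : X → ℂ)}) :=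
    Submodule.finrank_mono fun s hs => Submodule.mem_span_singleton.2 ⟨s z, funext fun x => by
      have := (h.2 _ (isClopen_level hs.1 (s z)) fun n hn => by
        simp only [mem_ofPred_eq, hs.2 n hn]).resolve_left (Nonempty.ne_empty ⟨z, rfl⟩)
      simpa using (this.ge (mem_univ x)).symm⟩
  have c := b.trans (finrank_span_le_card {(1 : X → ℂ)})
  rw [h1, deg_one] at a
  simp only [toFinset_singleton, Finset.card_singleton] at c
  omega

end Cv

variable {S Λ R J K ν κ ν₁ κ₁ : Type} [Fintype S] [Fintype Λ] [Fintype R] [Fintype J]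
  [Fintype K] [Fintype ν] [Fintype κ] [Fintype ν₁] [Fintype κ₁]

namespace AC

variable {c : AC ν κ} {U U' : Set c.X} {z z' : c.X}

theorem sat_iff : c.Sat U ↔ IsClopen U ∧ ∀ n ∈ c.N, n.1 ∈ U ↔ n.2 ∈ U :=
  and_congr_right fun _ => ⟨fun h _ a => ⟨fun b => h _ b _ (.inl a), fun b => h _ b _ (.inr a)⟩,
    fun h _ a _ b => b.elim (fun d => (h _ d).1 a) fun d => (h _ d).2 a⟩

theorem Sat.jn (h : c.Sat U) (a : Jn c.N z z') : z ∈ U ↔ z' ∈ U :=
  ⟨fun b => h.2 _ b _ a, fun b => h.2 _ b _ a.symm⟩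

theorem sat_empty : c.Sat ∅ := ⟨isClopen_empty, fun _ h => h.elim⟩

theorem sat_univ : c.Sat univ := ⟨isClopen_univ, fun _ _ _ _ => trivial⟩

theorem Sat.compl (h : c.Sat U) : c.Sat Uᶜ := ⟨h.1.compl, fun _ a _ b d => a ((h.jn b).2 d)⟩

theorem Sat.inter (h : c.Sat U) (h' : c.Sat U') : c.Sat (U ∩ U') :=
  ⟨h.1.inter h'.1, fun _ a _ b => ⟨h.2 _ a.1 _ b, h'.2 _ a.2 _ b⟩⟩

theorem Sat.union (h : c.Sat U) (h' : c.Sat U') : c.Sat (U ∪ U') :=
  ⟨h.1.union h'.1, fun _ a _ b => a.imp (fun d => h.2 _ d _ b) fun d => h'.2 _ d _ b⟩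

theorem finite_clopen (c : AC ν κ) : {U : Set c.X | IsClopen U}.Finite := Cv.finite_clopen c.R

theorem sat_cmp (z : c.X) : c.Sat (c.cmp z) := by
  refine ⟨?_, fun x a y b U hU => hU.1.2 x (a U hU) y b⟩
  rw [cmp, sInter_eq_biInter]
  exact (c.finite_clopen.subset fun U hU => hU.1.1).isClopen_biInter fun U hU => hU.1.1

theorem mem_cmp_self (z : c.X) : z ∈ c.cmp z := fun _ h => h.2

theorem Sat.cmp_subset (h : c.Sat U) (hz : z ∈ U) : c.cmp z ⊆ U := sInter_subset_of_mem ⟨h, hz⟩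

theorem cmp_eq (h : z' ∈ c.cmp z) : c.cmp z' = c.cmp z :=
  ((sat_cmp z).cmp_subset h).antisymm ((sat_cmp z').cmp_subset (by_contra fun a =>
    (sat_cmp z').compl.cmp_subset a h (mem_cmp_self z')))

theorem mem_cmp_comm : z' ∈ c.cmp z ↔ z ∈ c.cmp z' :=
  ⟨fun h => cmp_eq h ▸ mem_cmp_self z, fun h => cmp_eq h ▸ mem_cmp_self z'⟩

theorem cmp_jn (h : Jn c.N z z') : c.cmp z = c.cmp z' :=
  (cmp_eq ((sat_cmp z).2 _ (mem_cmp_self z) _ h)).symm

theorem finite_cmp (c : AC ν κ) : (range c.cmp).Finite :=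
  c.finite_clopen.subset (range_subset_iff.2 fun z => (sat_cmp z).1)

theorem conn_iff_sat : c.Conn ↔ Nonempty c.X ∧ ∀ U, c.Sat U → U = ∅ ∨ U = univ := by
  simp only [Conn, sat_iff, and_imp]

theorem Conn.cmp_eq (h : c.Conn) (z : c.X) : c.cmp z = univ :=
  ((conn_iff_sat.1 h).2 _ (sat_cmp z)).resolve_left (Nonempty.ne_empty ⟨z, mem_cmp_self z⟩)

theorem conn_iff_cmp : c.Conn ↔ ∃ z, c.cmp z = univ := by
  refine ⟨fun h => h.1.elim fun z => ⟨z, h.cmp_eq z⟩, fun ⟨z, h⟩ => conn_iff_sat.2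
    ⟨⟨z⟩, fun U a => ?_⟩⟩
  by_cases b : z ∈ U
  · exact .inr (eq_univ_of_univ_subset (h ▸ a.cmp_subset b))
  · exact .inl (compl_univ_iff.1 (eq_univ_of_univ_subset (h ▸ a.compl.cmp_subset b)))

/-- the degree is the sum of the degrees on the components -/
theorem Sat.degOn_eq_sum (h : c.Sat U) (L : LB c.R) {T : Finset (Set c.X)}
    (hT : ∀ V, V ∈ T ↔ ∃ z ∈ U, V = c.cmp z) : degOn L U = ∑ V ∈ T, degOn L V := by
  rw [← (degOn_sUnion L (T := T) (fun V a => ?_) fun V a W b e => ?_).2]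
  · congr 1
    refine subset_antisymm (fun x a => ⟨_, (hT _).2 ⟨x, a, rfl⟩, mem_cmp_self x⟩)
      (sUnion_subset fun V a => ?_)
    obtain ⟨x, b, rfl⟩ := (hT V).1 a
    exact h.cmp_subset b
  · obtain ⟨x, -, rfl⟩ := (hT V).1 a
    exact (sat_cmp x).1
  · obtain ⟨x, -, rfl⟩ := (hT V).1 a
    obtain ⟨y, -, rfl⟩ := (hT W).1 b
    exact disjoint_left.2 fun u f g => e ((cmp_eq f).symm.trans (cmp_eq g))

/-- a connected nodal curve has nonnegative genus -/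
theorem Conn.gen_nonneg (h : c.Conn) : 0 ≤ gen c.R c.N := Cv.Conn.gen_nonneg c.R h

theorem degOn_omega_cmp (z : c.X) :
    ∃ g : ℕ, degOn (omega c.R c.N ∅) (c.cmp z) = 2 * g - 2 := by
  have hU := sat_cmp z
  obtain ⟨R', h⟩ := c.R.exists_sub hU.1.isOpen
  have : CompactSpace (c.cmp z) := isCompact_iff_compactSpace.1 hU.1.isClosed.isCompact
  obtain ⟨N', a, b⟩ := CtrB.exists_pre (j := (Subtype.val : c.cmp z → c.X)) c.nd
    Subtype.val_injective
  have d := CtrB.degOn_img h Subtype.val_injective a c.nd (P := ∅) (P' := ∅) (by simp) (by simp)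
    (fun y => by
      simp only [sm_iff, b, Finset.notMem_empty, not_false_eq_true, and_true]
      exact ⟨fun e x f => e ⟨x, hU.2 _ y.2 _ f⟩ f, fun e x => e x⟩) isClopen_univ
  rw [image_univ, Subtype.range_coe, degOn_univ, deg_omega] at d
  have e : Cv.Conn N' := ⟨⟨⟨z, mem_cmp_self z⟩⟩, fun V f g => by
    have k : ∀ V : Set (c.cmp z), IsClopen V → (∀ n ∈ N', n.1 ∈ V ↔ n.2 ∈ V) →
        ⟨z, mem_cmp_self z⟩ ∈ V → V = univ := fun V f g i => by
      have s : c.Sat (Subtype.val '' V) := ⟨h.isClopen_image f, by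
        rintro _ ⟨x, hx, rfl⟩ y hy
        have := (b x ⟨y, hU.2 _ x.2 _ hy⟩).2 hy
        exact ⟨⟨y, hU.2 _ x.2 _ hy⟩, this.elim (fun l => (g _ l).1 hx) fun l => (g _ l).2 hx, rfl⟩⟩
      refine eq_univ_of_forall fun x => ?_
      obtain ⟨y, l, n⟩ := s.cmp_subset ⟨_, i, rfl⟩ x.2
      exact Subtype.ext n ▸ l
    by_cases i : ⟨z, mem_cmp_self z⟩ ∈ V
    · exact .inr (k V f g i)
    · exact .inl (compl_univ_iff.1 (k _ f.compl (fun n hn => not_congr (g n hn)) i))⟩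
  obtain ⟨g, f⟩ := Int.eq_ofNat_of_zero_le (e.gen_nonneg R')
  exact ⟨g, by rw [← d, f]; simp⟩

/-- sections of the trivial bundle on a connected curve are constant -/
theorem eq_of_mem_cmp {s : c.X → ℂ} (hs : s ∈ H0 c.N (1 : LB c.R)) (h : z' ∈ c.cmp z) :
    s z' = s z :=
  Sat.cmp_subset (U := {x | s x = s z}) ⟨isClopen_level hs.1 _, fun x a y b =>
    ((mem_H0_iff.1 hs).2 x y b).symm.trans a⟩ rfl h

open Classical in
theorem degOn_ω_eq (h : IsClopen U) : degOn c.ω U =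
    degOn (omega c.R c.N ∅) U + (Finset.univ.filter fun n => c.p n ∈ U).card := by
  rw [degOn_ω, degOn_omega, degOn_omega, Finset.sum_empty, add_zero, P,
    Finset.sum_image c.inj.injOn]
  simp only [degOn_pt h, Finset.sum_boole]

end AC

namespace AM

variable {F : Fam S Λ R J K} {W : Wt S Λ R J} {A : Set J} {θ d : R → ℤ} {g : ℤ} {τ : S → ℂ}
  {m m' : AM Λ R J ν κ} {m₁ : AM Λ R J ν₁ κ₁} {T : Set (Ch.Mk ν κ)}

theorem exists_ctyp (m : AM Λ R J ν κ) (z : m.X) : ∃ (g : ℕ) (d : R → ℤ) (T : Set (Ch.Mk ν κ)),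
    m.CTyp z g d T :=
  let ⟨g, h⟩ := AC.degOn_omega_cmp z
  ⟨g, _, {n | m.p n ∈ m.cmp z}, h, fun _ => rfl, fun _ => Iff.rfl⟩

theorem CTyp.unique {z : m.X} {g' : ℤ} {d' : R → ℤ} {T' : Set (Ch.Mk ν κ)} (h : m.CTyp z g d T)
    (h' : m.CTyp z g' d' T') : g = g' ∧ d = d' ∧ T = T' :=
  ⟨by have := h.1; have := h'.1; omega, funext fun r => (h.2.1 r).symm.trans (h'.2.1 r),
    Set.ext fun n => (h.2.2 n).symm.trans (h'.2.2 n)⟩

theorem CTyp.nonneg {z : m.X} (h : m.CTyp z g d T) : 0 ≤ g := by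
  obtain ⟨k, _, _, a⟩ := m.exists_ctyp z
  rw [(h.unique a).1]
  positivity

theorem Conn.ctyp (h : m.Conn) (z : m.X) : m.CTyp z g d T ↔ m.Typ g d ∧ T = univ := by
  simp only [CTyp, Typ, h.cmp_eq z, degOn_univ, deg_omega, mem_univ, true_iff, eq_univ_iff_forall,
    Finset.card_empty, and_assoc]
  exact and_congr_left fun _ => by omega

theorem conn_of_ctyp {z : m.X} (hs : m.Stable θ) (h : m.CTyp z g d univ) (ht : m.Typ g d) :
    m.Conn := by
  classical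
  refine AC.conn_iff_cmp.2 ⟨z, by_contra fun a => ?_⟩
  have b := (AC.sat_cmp z).1
  have c := hs _ b.compl (nonempty_compl.2 a)
  have e := degOn_add_compl (L := omega m.R m.N ∅) b
  have f : ∀ r, degOn (m.L r) (m.cmp z)ᶜ = 0 := fun r => by
    have := degOn_add_compl (L := m.L r) b
    rw [h.2.1, ht.2] at this
    omega
  rw [degOn_mul, degOn_bz, AC.degOn_ω_eq b.compl] at c
  rw [h.1, deg_omega, ht.1] at e
  simp only [f, mul_zero, Finset.sum_const_zero, Finset.card_empty, mem_compl_iff,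
    fun n => (h.2.2 n).2 trivial, not_true_eq_false, Finset.filter_false] at c e
  omega

namespace CmpP

theorem map_inj {φ : ν₁ → ν} {ψ : κ₁ → κ} {j : m₁.X → m.X} (h : Emb m₁ m φ ψ j) :
    Injective (Sum.map φ (Prod.map ψ id) : Ch.Mk ν₁ κ₁ → Ch.Mk ν κ) := fun a b e =>
  m₁.inj (h.inj (by rw [h.mark, h.mark, e]))

theorem sat_image {c : AC ν₁ κ₁} {c' : AC ν κ} {j : c.X → c'.X} (h : LIso c.R c'.R j)
    (hN : ∀ x z, Jn c'.N (j x) z ↔ ∃ y, Jn c.N x y ∧ z = j y) {U : Set c.X} (hU : c.Sat U) :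
    c'.Sat (j '' U) := ⟨h.isClopen_image hU.1, by
  rintro _ ⟨x, a, rfl⟩ z b
  obtain ⟨y, e, rfl⟩ := (hN x z).1 b
  exact ⟨y, hU.2 x a y e, rfl⟩⟩

theorem sat_preimage {c : AC ν₁ κ₁} {c' : AC ν κ} {j : c.X → c'.X} (h : LIso c.R c'.R j)
    (hN : ∀ x z, Jn c'.N (j x) z ↔ ∃ y, Jn c.N x y ∧ z = j y) {U : Set c'.X} (hU : c'.Sat U) :
    c.Sat (j ⁻¹' U) :=
  ⟨hU.1.preimage h.cont, fun x a y b => hU.2 _ a _ ((hN x _).2 ⟨y, b, rfl⟩)⟩

theorem cmp {c : AC ν₁ κ₁} {c' : AC ν κ} {j : c.X → c'.X} (h : LIso c.R c'.R j)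
    (hN : ∀ x z, Jn c'.N (j x) z ↔ ∃ y, Jn c.N x y ∧ z = j y) (x : c.X) :
    c'.cmp (j x) = j '' c.cmp x :=
  ((sat_image h hN (AC.sat_cmp x)).cmp_subset ⟨x, AC.mem_cmp_self x, rfl⟩).antisymm
    (image_subset_iff.2 ((sat_preimage h hN (AC.sat_cmp _)).cmp_subset (AC.mem_cmp_self _)))

theorem degOn_omega {c : AC ν₁ κ₁} {c' : AC ν κ} {j : c.X → c'.X} (h : LIso c.R c'.R j)
    (hj : Injective j) (hN : ∀ x z, Jn c'.N (j x) z ↔ ∃ y, Jn c.N x y ∧ z = j y) {U : Set c.X}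
    (hU : IsClopen U) : degOn (omega c'.R c'.N ∅) (j '' U) = degOn (omega c.R c.N ∅) U :=
  (CtrB.degOn_img h hj c.nd c'.nd (P := ∅) (P' := ∅) (by simp) (by simp) (fun y => by
    simp only [sm_iff, hN, Finset.notMem_empty, not_false_eq_true, and_true]
    exact ⟨fun a _ ⟨x, b, _⟩ => a x b, fun a x b => a _ ⟨x, b, rfl⟩⟩) hU).symm

theorem degOn_L {φ : ν₁ → ν} {ψ : κ₁ → κ} {j : m₁.X → m.X} (h : Emb m₁ m φ ψ j) (r : R)
    {U : Set m₁.X} (hU : IsClopen U) : degOn (m.L r) (j '' U) = degOn (m₁.L r) U := by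
  rw [← h.L, h.liso.degOn_pb h.inj hU]

theorem node {e : m.X ≃ m'.X} {t : R → m.X → ℂ} (h : IsoD W A m m' e t τ) (x : m.X) (z : m'.X) :
    Jn m'.N (e x) z ↔ ∃ y, Jn m.N x y ∧ z = e y :=
  ⟨fun a => ⟨e.symm z, (h.node _ _).2 (by rwa [e.apply_symm_apply]), (e.apply_symm_apply z).symm⟩,
    fun ⟨y, a, b⟩ => b ▸ (h.node x y).1 a⟩

theorem clopen {e : m.X ≃ m'.X} {t : R → m.X → ℂ} (h : IsoD W A m m' e t τ) {U : Set m.X} :
    IsClopen (e '' U) ↔ IsClopen U :=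
  ⟨fun a => e.preimage_image U ▸ a.preimage h.liso.cont, h.liso.isClopen_image⟩

end CmpP

theorem IsoD.sat {e : m.X ≃ m'.X} {t : R → m.X → ℂ} (h : IsoD W A m m' e t τ) {U : Set m.X} :
    m'.Sat (e '' U) ↔ m.Sat U :=
  ⟨fun a => e.preimage_image U ▸ CmpP.sat_preimage h.liso (CmpP.node h) a,
    CmpP.sat_image h.liso (CmpP.node h)⟩

theorem IsoD.cmp {e : m.X ≃ m'.X} {t : R → m.X → ℂ} (h : IsoD W A m m' e t τ) (z : m.X) :
    m'.cmp (e z) = e '' m.cmp z := CmpP.cmp h.liso (CmpP.node h) z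

theorem IsoD.degOn_L {e : m.X ≃ m'.X} {t : R → m.X → ℂ} (h : IsoD W A m m' e t τ) (r : R)
    (U : Set m.X) : degOn (m'.L r) (e '' U) = degOn (m.L r) U := by
  by_cases a : IsClopen U
  · rw [← h.liso.degOn_pb e.injective a, ← sub_eq_zero, ← degOn_div]
    exact degOn_of_ne (fun x _ => (h.mem r).1 x) fun x _ => h.ne r x
  · rw [degOn, degOn, dif_neg a, dif_neg fun b => a ((CmpP.clopen h).1 b)]

theorem IsoD.degOn_omega {e : m.X ≃ m'.X} {t : R → m.X → ℂ} (h : IsoD W A m m' e t τ)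
    (U : Set m.X) : degOn (omega m'.R m'.N ∅) (e '' U) = degOn (omega m.R m.N ∅) U := by
  by_cases a : IsClopen U
  · exact CmpP.degOn_omega h.liso e.injective (CmpP.node h) a
  · rw [degOn, degOn, dif_neg a, dif_neg fun b => a ((CmpP.clopen h).1 b)]

theorem IsoD.ctyp {e : m.X ≃ m'.X} {t : R → m.X → ℂ} (h : IsoD W A m m' e t τ) {z : m.X} :
    m'.CTyp (e z) g d T ↔ m.CTyp z g d T := by
  simp only [CTyp, h.cmp, h.degOn_L, h.degOn_omega, ← h.mark, e.injective.mem_set_image]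

theorem Iso.ctyp (h : Iso W A m m') {n : Ch.Mk ν κ} (a : m.CTyp (m.p n) g d T) :
    m'.CTyp (m'.p n) g d T :=
  let ⟨_, _, _, h⟩ := iso_iff.1 h
  h.mark n ▸ h.ctyp.2 a

theorem Emb.cmp {φ : ν₁ → ν} {ψ : κ₁ → κ} {j : m₁.X → m.X} (h : Emb m₁ m φ ψ j) (x : m₁.X) :
    m.cmp (j x) = j '' m₁.cmp x := CmpP.cmp h.liso h.node x

theorem Emb.conn {φ : ν₁ → ν} {ψ : κ₁ → κ} {j : m₁.X → m.X} (h : Emb m₁ m φ ψ j) :
    m₁.Conn ↔ ∃ z, range j = m.cmp z := by
  rw [AC.conn_iff_cmp]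
  refine ⟨fun ⟨x, a⟩ => ⟨j x, by rw [h.cmp, a, image_univ]⟩, fun ⟨z, a⟩ => ?_⟩
  obtain ⟨x, rfl⟩ := a.ge (AC.mem_cmp_self z)
  rw [h.cmp, ← image_univ] at a
  exact ⟨x, (h.inj.image_injective a).symm⟩

theorem Emb.ctyp {φ : ν₁ → ν} {ψ : κ₁ → κ} {j : m₁.X → m.X} (h : Emb m₁ m φ ψ j) {x : m₁.X}
    {T₁ : Set (Ch.Mk ν₁ κ₁)} :
    m.CTyp (j x) g d (Sum.map φ (Prod.map ψ id) '' T₁) ↔ m₁.CTyp x g d T₁ := by
  have c := (AC.sat_cmp x).1
  simp only [CTyp, h.cmp, CmpP.degOn_L h _ c, CmpP.degOn_omega h.liso h.inj h.node c]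
  refine and_congr_right fun _ => and_congr_right fun _ => ⟨fun a n => ?_, fun a n => ?_⟩
  · rw [← h.inj.mem_set_image, h.mark, a, (CmpP.map_inj h).mem_set_image]
  · refine ⟨fun b => ?_, ?_⟩
    · obtain ⟨n', rfl⟩ := h.all n (image_subset_range _ _ b)
      rw [← h.mark, h.inj.mem_set_image, a] at b
      exact mem_image_of_mem _ b
    · rintro ⟨n', b, rfl⟩
      rw [← h.mark]
      exact mem_image_of_mem _ ((a n').2 b)

end AM

end Vale.Agent.P269
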