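import Vale.Agent.P269.Pt.Ops2
import Vale.Agent.P269.Pt.Iso

/-!
# Relabelling, gluing, cutting and unpairing abstract maps
-/

set_option linter.unusedSectionVars false

namespace Vale.Agent.P269

open Set Function Topology Filter Cv

variable {S Λ R J K ν κ ν' κ' κ₀ : Type} [Fintype S] [Fintype Λ] [Fintype R] [Fintype J] [Fintype K]
  [Fintype ν] [Fintype κ] [Fintype ν'] [Fintype κ'] [Fintype κ₀]

namespace AC

theorem re_P (c : AC ν' κ') (φ : Ch.Mk ν κ ≃ Ch.Mk ν' κ') : (c.re φ.toEmbedding).P = c.P :=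
  Finset.ext fun _ => mem_P.trans (mem_P.trans φ.surjective.exists).symm

theorem re_ω (c : AC ν' κ') (φ : Ch.Mk ν κ ≃ Ch.Mk ν' κ') :
    (fun z => (c.re φ.toEmbedding).sg z * c.sg z) ∈ H0 c.N ((c.re φ.toEmbedding).ω / c.ω) := by
  have := H0.mul_mem (sg_mem (c := c.re φ.toEmbedding)) (H0.inv_mem (sg_mem (c := c)) c.sg_ne)
  rwa [re_P, ← div_eq_mul_inv (_ / _), div_div_div_cancel_right,
    show c.sg⁻¹ = c.sg from funext fun z => inv_eq_of_mul_eq_one_right (sg_sq z)] at this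

theorem re_sg (c : AC ν' κ') {φ : ν ≃ ν'} {ψ : κ ≃ κ'} :
    (c.re (φ.sumCongr (ψ.prodCongr (Equiv.refl Bool))).toEmbedding).sg = c.sg := by
  classical
  exact funext fun z => if_congr (ψ.surjective.exists (p := fun q => z = c.p (.inr (q, true)))).symm
    rfl rfl

theorem re_ω_eq (c : AC ν' κ') {φ : ν ≃ ν'} {ψ : κ ≃ κ'} :
    (c.re (φ.sumCongr (ψ.prodCongr (Equiv.refl Bool))).toEmbedding).ω = c.ω := by
  simp only [ω, re_P, re_sg]

theorem re_mt (c : AC ν' κ') {φ : ν ≃ ν'} {ψ : κ ≃ κ'} {α : Type} {t : c.X → α} :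
    (c.re (φ.sumCongr (ψ.prodCongr (Equiv.refl Bool))).toEmbedding).Mt t ↔ c.Mt t :=
  (ψ.surjective.forall (p := fun q => t (c.p (.inr (q, false))) = t (c.p (.inr (q, true))))).symm

section glue

variable {c : AC ν (κ ⊕ κ₀)}

theorem mem_glue {a : c.X × c.X} : a ∈ c.glue.N ↔ a ∈ c.N ∨
    ∃ e, (c.p (.inr (.inr e, false)), c.p (.inr (.inr e, true))) = a := by
  simp only [Finset.mem_union, Finset.mem_image, Finset.mem_univ, true_and]

theorem jn_glue {x y : c.X} : Jn c.glue.N x y ↔ Jn c.N x y ∨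
    ∃ e b, x = c.p (.inr (.inr e, b)) ∧ y = c.p (.inr (.inr e, !b)) := by
  simp only [Jn, mem_glue (c := c), Prod.mk.injEq, Bool.exists_bool, exists_or, Bool.not_false,
    Bool.not_true, @eq_comm _ x, @eq_comm _ y, and_comm (b := c.p _ = x)]
  exact or_or_or_comm

theorem sm_glue {x : c.X} : Sm c.glue.N x ↔ Sm c.N x ∧ ∀ e b, x ≠ c.p (.inr (.inr e, b)) := by
  simp only [sm_iff, jn_glue (c := c), not_or, forall_and]
  exact and_congr_right fun _ => ⟨fun h e b a => h _ ⟨e, b, a, rfl⟩, fun h _ ⟨e, b, a, _⟩ => h e b a⟩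

theorem jn_iff_glue {x y : c.X} :
    Jn c.N x y ↔ Jn c.glue.N x y ∧ ∀ e b, x ≠ c.p (.inr (.inr e, b)) :=
  ⟨fun h => ⟨jn_glue.2 (.inl h), fun _ _ a => h.not_sm (a ▸ c.sm _)⟩,
    fun h => (jn_glue.1 h.1).resolve_right fun ⟨e, b, a, _⟩ => h.2 e b a⟩

theorem mem_P_glue {x : c.X} : x ∈ c.P ↔ x ∈ c.glue.P ∨ ∃ e b, x = c.p (.inr (.inr e, b)) := by
  simp only [mem_P, Sum.exists, Prod.exists, or_assoc, @eq_comm _ x]
  rfl

theorem sg_glue (z : c.X) : Xi.sg c.glue.N z * c.glue.sg z = Xi.sg c.N z * c.sg z := by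
  classical
  by_cases h : ∃ e, z = c.p (.inr (.inr e, true))
  · obtain ⟨e, rfl⟩ := h
    rw [show Xi.sg c.glue.N _ = -1 from Xi.sg_snd (mem_glue.2 (.inr ⟨e, rfl⟩)), Xi.sg_sm (c.sm _),
      sg_true, show c.glue.sg _ = 1 from if_neg fun ⟨_, a⟩ => by simpa using c.inj a, mul_comm]
  · congr 1
    · exact if_congr ⟨fun ⟨n, a, b⟩ => (mem_glue.1 a).elim (fun a => ⟨n, a, b⟩) fun ⟨e, a⟩ =>
        (h ⟨e, by rw [← b, ← a]⟩).elim, fun ⟨n, a, b⟩ => ⟨n, mem_glue.2 (.inl a), b⟩⟩ rfl rfl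
    · exact if_congr ⟨fun ⟨q, a⟩ => ⟨.inl q, a⟩, fun a => (Sum.exists.1 a).resolve_right h⟩ rfl rfl

theorem glue_ω : c.glue.ω = c.ω := by
  classical
  rw [ω, ω, omega_eq c.glue.nd sm_P, omega_eq c.nd sm_P, mul_assoc, mul_assoc]
  congr 1
  · refine congrArg _ (Finset.ext fun y => ?_)
    simp only [mem_special, sm_glue (c := c), mem_P_glue (c := c), not_or, not_exists, and_assoc,
      and_comm (a := y ∉ _)]
  · refine LB.ext (funext₂ fun x y => ?_)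
    simp only [LB.mul_φ, LB.cst, div_mul_div_comm]
    exact congrArg₂ _ (sg_glue y) (sg_glue x)

theorem mem_H0_glue {L : LB c.R} {s : c.X → ℂ} : s ∈ H0 c.glue.N L ↔ s ∈ H0 c.N L ∧
    ∀ e, s (c.p (.inr (.inr e, false))) = s (c.p (.inr (.inr e, true))) :=
  ⟨fun h => ⟨⟨h.1, fun n a => h.2 n (mem_glue.2 (.inl a))⟩, fun e => h.2 _ (mem_glue.2
    (.inr ⟨e, rfl⟩))⟩, fun h => ⟨h.1.1, fun n a => (mem_glue.1 a).elim (h.1.2 n)
      fun ⟨e, a⟩ => a ▸ h.2 e⟩⟩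

theorem card_glue : c.glue.N.card = c.N.card + Fintype.card κ₀ := by
  classical
  rw [← Finset.card_univ, ← Finset.card_image_of_injective Finset.univ
    (f := fun e => (c.p (.inr (.inr e, false)), c.p (.inr (.inr e, true))))
    fun a b e => by simpa using c.inj (congrArg Prod.fst e)]
  convert Finset.card_union_of_disjoint (Finset.disjoint_left.2 fun a h b => ?_)
  obtain ⟨e, -, rfl⟩ := Finset.mem_image.1 b
  exact (c.sm _ _ h).1 rfl

theorem gen_glue : gen c.R c.glue.N = gen c.R c.N + Fintype.card κ₀ := by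
  rw [gen, gen, card_glue, Nat.cast_add, add_assoc]

theorem mt_glue {α : Type} {t : c.X → α} : c.Mt t ↔ c.glue.Mt t ∧
    ∀ e, t (c.p (.inr (.inr e, false))) = t (c.p (.inr (.inr e, true))) := Sum.forall

theorem nds_glue : c.glue.Nds fun a : κ₀ × Bool => c.p (.inr (.inr a.1, a.2)) :=
  ⟨fun a b e => by simpa [Prod.ext_iff] using c.inj e,
    fun e => jn_glue.2 (.inr ⟨e, false, rfl, rfl⟩)⟩

theorem sat_glue {U : Set c.X} : c.glue.Sat U ↔ c.Sat U ∧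
    ∀ e, c.p (.inr (.inr e, false)) ∈ U ↔ c.p (.inr (.inr e, true)) ∈ U := by
  refine ⟨fun h => ⟨⟨h.1, fun x a y b => h.2 x a y (jn_glue.2 (.inl b))⟩, fun e =>
    ⟨fun a => h.2 _ a _ (nds_glue.jn e), fun a => h.2 _ a _ (nds_glue.jn e).symm⟩⟩,
    fun h => ⟨h.1.1, fun x a y b => (jn_glue.1 b).elim (h.1.2 x a y) ?_⟩⟩
  rintro ⟨e, _ | _, rfl, rfl⟩
  exacts [(h.2 e).1 a, (h.2 e).2 a]

theorem Conn.glue (h : c.Conn) : c.glue.Conn :=
  ⟨h.1, fun U a b => h.2 U a fun n hn => b n (mem_glue.2 (.inl hn))⟩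

end glue

section cut

variable {c : AC ν κ} {n : κ₀ × Bool → c.X} (h : c.Nds n)

@[simp] theorem cut_p_inl (a : ν) : (c.cut h).p (.inl a) = c.p (.inl a) := rfl

@[simp] theorem cut_p_old (q : κ) (b : Bool) : (c.cut h).p (.inr (.inl q, b)) = c.p (.inr (q, b)) :=
  rfl

@[simp] theorem cut_p_new (e : κ₀) (b : Bool) : (c.cut h).p (.inr (.inr e, b)) = n (e, b) := rfl

include h in
theorem Nds.jn_not (e : κ₀) (b : Bool) : Jn c.N (n (e, b)) (n (e, !b)) := by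
  cases b
  exacts [h.jn e, (h.jn e).symm]

include h in
theorem Nds.mem_range {x y : c.X} (a : Jn c.N x y) (b : x ∈ range n) : y ∈ range n := by
  obtain ⟨⟨e, b⟩, rfl⟩ := b
  exact ⟨_, (h.jn_not e b).unique c.nd a⟩

theorem jn_cut {x y : c.X} : Jn (c.cut h).N x y ↔ Jn c.N x y ∧ x ∉ range n := by
  simp only [Jn, Finset.mem_filter, or_and_right]
  exact or_congr_right (and_congr_right fun a =>
    not_congr ⟨h.mem_range (.inl a), h.mem_range (.inr a)⟩)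

theorem jn_cut_glue {x y : c.X} : Jn (c.cut h).glue.N x y ↔ Jn c.N x y := by
  rw [jn_glue, jn_cut]
  refine ⟨fun a => a.elim And.left ?_, fun a => (em (x ∈ range n)).symm.imp (⟨a, ·⟩) ?_⟩
  · rintro ⟨e, b, rfl, rfl⟩
    exact h.jn_not e b
  · rintro ⟨⟨e, b⟩, rfl⟩
    exact ⟨e, b, rfl, a.unique c.nd (h.jn_not e b)⟩

theorem cut_glue_p : (c.cut h).glue.p = c.p := funext (by rintro (_ | _) <;> rfl)

theorem card_cut : (c.cut h).N.card + Fintype.card κ₀ = c.N.card :=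
  card_glue.symm.trans (card_N_eq (c := (c.cut h).glue) (c' := c) (e := Equiv.refl _) (LIso.id _)
    fun _ _ => jn_cut_glue h)

theorem gen_cut : gen c.R (c.cut h).N + Fintype.card κ₀ = gen c.R c.N := by
  rw [gen, gen, ← card_cut h, Nat.cast_add, add_assoc]

theorem cut_ω : ∃ w ∈ H0 c.N ((c.cut h).ω / c.ω), (∀ z, w z ≠ 0) ∧ ∀ z, Sm c.N z → w z = 1 := by
  obtain ⟨w, -, a, b, d, e⟩ := exists_omega (c := (c.cut h).glue) (c' := c) (e := Equiv.refl _)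
    (LIso.id _) (fun _ _ => jn_cut_glue h) (congrFun (cut_glue_p h))
  rw [glue_ω, H0_congr fun _ _ => jn_cut_glue h] at a
  refine ⟨w, a, b, fun z hz => ?_⟩
  by_cases f : z ∈ (c.cut h).glue.P
  · obtain ⟨m, rfl⟩ := mem_P.1 f
    exact d m
  · exact (e z ⟨by simpa only [sm_iff, jn_cut_glue h] using hz, f⟩).trans (RS.d_e_self z)

theorem mem_H0_cut {L : LB c.R} {s : c.X → ℂ} : s ∈ H0 c.N L ↔ s ∈ H0 (c.cut h).N L ∧
    ∀ e, s (n (e, false)) = s (n (e, true)) := by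
  rw [← H0_congr fun _ _ => jn_cut_glue h]
  exact mem_H0_glue

theorem mt_cut {α : Type} {t : c.X → α} :
    (c.cut h).Mt t ↔ c.Mt t ∧ ∀ e, t (n (e, false)) = t (n (e, true)) := Sum.forall

end cut

/-- all nodes can be chosen -/
theorem exists_nds (c : AC ν κ) :
    ∃ n : Fin c.N.card × Bool → c.X, ∃ h : c.Nds n, (c.cut h).N = ∅ := by
  classical
  refine ⟨fun a => bif a.2 then (c.N.equivFin.symm a.1).1.2 else (c.N.equivFin.symm a.1).1.1,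
    ⟨?_, fun e => .inl (c.N.equivFin.symm e).2⟩, Finset.filter_eq_empty_iff.2 fun a ha =>
      not_not.2 ⟨(c.N.equivFin ⟨a, ha⟩, false), by simp⟩⟩
  rintro ⟨a, _ | _⟩ ⟨b, _ | _⟩ e
  · exact Prod.ext (c.N.equivFin.symm.injective
      (Subtype.ext (c.nd.inj1 (Subtype.prop _) (Subtype.prop _) e))) rfl
  · exact (c.nd.ne _ (Subtype.prop _) _ (Subtype.prop _) e).elim
  · exact (c.nd.ne _ (Subtype.prop _) _ (Subtype.prop _) e.symm).elim
  · exact Prod.ext (c.N.equivFin.symm.injective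
      (Subtype.ext (c.nd.inj2 (Subtype.prop _) (Subtype.prop _) e))) rfl

end AC

namespace AM

variable {F : Fam S Λ R J K} {W : Wt S Λ R J} {A : Set J} {θ d : R → ℤ} {g : ℤ} {τ : S → ℂ}

section re

variable {m m' : AM Λ R J ν' κ'}

theorem re_sec (φ : Ch.Mk ν κ ↪ Ch.Mk ν' κ') : (m.re φ).Sec W ↔ m.Sec W := Iff.rfl

theorem re_sol (φ : Ch.Mk ν κ ↪ Ch.Mk ν' κ') : (m.re φ).Sol F ↔ m.Sol F := Iff.rfl

theorem re_typ (φ : Ch.Mk ν κ ↪ Ch.Mk ν' κ') : (m.re φ).Typ g d ↔ m.Typ g d := Iff.rfl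

theorem re_conn (φ : Ch.Mk ν κ ↪ Ch.Mk ν' κ') : (m.re φ).Conn ↔ m.Conn := Iff.rfl

theorem re_stable (φ : Ch.Mk ν κ ≃ Ch.Mk ν' κ') :
    (m.re φ.toEmbedding).Stable θ ↔ m.Stable θ := by
  simp only [Stable, Ge, degOn_mul, AC.degOn_ω, AC.re_P]

theorem Stable.of_re {φ : Ch.Mk ν κ ↪ Ch.Mk ν' κ'} (h : (m.re φ).Stable θ) : m.Stable θ := by
  intro U a b
  have := h U a b
  simp only [degOn_mul, AC.degOn_ω, degOn_omega] at this ⊢
  refine this.trans (add_le_add_left (add_le_add_right (Finset.sum_le_sum_of_subset_of_nonneg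
    (fun z hz => ?_) fun z _ _ => (eff_pt z).ge U a b) _) _)
  obtain ⟨n, e⟩ := AC.mem_P.1 hz
  exact AC.mem_P.2 ⟨_, e⟩

theorem re_main (φ : ν ≃ ν') (ψ : κ ≃ κ') {u : ν' → J → ℕ} :
    (m.re (φ.sumCongr (ψ.prodCongr (Equiv.refl Bool))).toEmbedding).Main F (fun n => u (φ n)) ↔
      m.Main F u := by
  simp only [Main, AC.re_mt, φ.surjective.forall]
  rfl

theorem IsoD.re {e : m.X ≃ m'.X} {t : R → m.X → ℂ} (h : IsoD W A m m' e t τ)
    (φ : Ch.Mk ν κ ↪ Ch.Mk ν' κ') (hφ : ∀ i, (m.re φ).Mt (t i)) :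
    IsoD W A (m.re φ) (m'.re φ) e t τ :=
  ⟨h.liso, h.unit, h.node, fun _ => h.mark _, h.mem, h.ne, hφ, h.l, h.y⟩

theorem IsoD.of_re {φ : Ch.Mk ν κ ≃ Ch.Mk ν' κ'} {e : m.X ≃ m'.X} {t : R → m.X → ℂ}
    (h : IsoD W A (m.re φ.toEmbedding) (m'.re φ.toEmbedding) e t τ) (hφ : ∀ i, m.Mt (t i)) :
    IsoD W A m m' e t τ :=
  ⟨h.liso, h.unit, h.node, φ.surjective.forall.2 h.mark, h.mem, h.ne, hφ, h.l, h.y⟩

theorem iso_re (φ : ν ≃ ν') (ψ : κ ≃ κ') :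
    Iso W A (m.re (φ.sumCongr (ψ.prodCongr (Equiv.refl Bool))).toEmbedding)
      (m'.re (φ.sumCongr (ψ.prodCongr (Equiv.refl Bool))).toEmbedding) ↔ Iso W A m m' :=
  ⟨fun h => let ⟨_, _, _, h⟩ := iso_iff.1 h; (h.of_re fun i => m.re_mt.1 (h.mt i)).iso,
    fun h => let ⟨_, _, _, h⟩ := iso_iff.1 h; (h.re _ fun i => m.re_mt.2 (h.mt i)).iso⟩

end re

section unp

variable {m m' : AM Λ R J ν (κ ⊕ κ₀)}

theorem mt_unp {α : Type} {t : m.X → α} : m.Mt t ↔ (m.re (Ch.unp ν κ κ₀).toEmbedding).Mt t ∧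
    ∀ e, t (m.p (.inr (.inr e, false))) = t (m.p (.inr (.inr e, true))) := Sum.forall

theorem Iso.unp (h : Iso W A m m') :
    Iso W A (m.re (Ch.unp ν κ κ₀).toEmbedding) (m'.re (Ch.unp ν κ κ₀).toEmbedding) :=
  let ⟨_, _, _, h⟩ := iso_iff.1 h
  (h.re _ fun i => (mt_unp.1 (h.mt i)).1).iso

theorem main_unp {u : ν → J → ℕ}
    (hs : ∀ j ∉ F.mov, j ∉ F.zer → m.y j ∈ (bz m.L (F.w j)).Γ) : m.Main F u ↔
    (m.re (Ch.unp ν κ κ₀).toEmbedding).Main F (Sum.elim u 0) ∧ ∀ j ∉ F.mov, ∀ e,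
      m.y j (m.p (.inr (.inr e, false))) = m.y j (m.p (.inr (.inr e, true))) := by
  refine ⟨fun h => ⟨⟨fun j a => (mt_unp.1 (h.1 j a)).1, fun j a b => ⟨Sum.forall.2
    ⟨(h.2 j a b).1, fun q => (LB.ord_eq_zero (hs j a b _)).2 ((h.2 j a b).2 _ fun n e => ?_)⟩,
    fun z hz => (h.2 j a b).2 z fun n => hz (.inl n)⟩⟩, fun j a => (mt_unp.1 (h.1 j a)).2⟩,
    fun h => ⟨fun j a => mt_unp.2 ⟨h.1.1 j a, h.2 j a⟩, fun j a b =>
      ⟨fun n => (h.1.2 j a b).1 (.inl n), fun z hz => ?_⟩⟩⟩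
  · exact Sum.inr_ne_inl (m.inj e)
  · by_cases k : ∃ q : κ₀ × Bool, z = m.p (.inr (.inr q.1, q.2))
    · obtain ⟨q, rfl⟩ := k
      exact (LB.ord_eq_zero (hs j a b _)).1 ((h.1.2 j a b).1 (.inr q))
    · exact (h.1.2 j a b).2 z (Sum.forall.2 ⟨hz, fun q e => k ⟨q, e⟩⟩)

/-- on a free target an isomorphism of the unpaired maps respects the pairs -/
theorem IsoD.mt_of_free [DecidableEq R] (hF : F.Good) {e : m.X ≃ m'.X} {t : R → m.X → ℂ}
    (h : IsoD F.toWt univ (m.re (Ch.unp ν κ κ₀).toEmbedding) (m'.re (Ch.unp ν κ κ₀).toEmbedding)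
      e t τ) (hs : m.Sol F) (a : ∀ j, m.Mt (m.y j)) (a' : ∀ j, m'.Mt (m'.y j)) :
    IsoD F.toWt univ m m' e t τ := by
  refine h.of_re fun i => mt_unp.2 ⟨h.mt i, fun q => ?_⟩
  have k : ∀ b, e (m.p (.inr (.inr q, b))) = m'.p (.inr (.inr q, b)) := fun b =>
    h.mark (.inl (.inr (q, b)))
  refine (div_eq_one_iff_eq (h.ne i _)).1 (congrFun (hF.free
    (fun i => t i (m.p (.inr (.inr q, false))) / t i (m.p (.inr (.inr q, true))))
    (isUnit_pi_iff.2 fun i => div_ne_zero (h.ne i _) (h.ne i _)) _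
    (hs.2.2 (m.p (.inr (.inr q, true)))) (Prod.ext (F.actL_one _) (funext fun j => ?_))) i)
  have b := a' j (.inr q)
  have c := prod_zpow_ne (isUnit_pi_iff.1 h.unit) (F.wt j)
  have d := prod_zpow_ne (fun i => h.ne i (m.p (.inr (.inr q, true)))) (F.w j)
  rw [← k, ← k, h.y j trivial, h.y j trivial] at b
  simp only [Wt.actT, vl, a j (.inr q), mul_assoc, mul_right_inj' c] at b
  simp only [Wt.actT, vl, Pi.one_apply, one_zpow, Finset.prod_const_one, one_mul, div_zpow,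
    Finset.prod_div_distrib]
  rw [div_mul_eq_mul_div, b, mul_div_cancel_left₀ _ d]

end unp

section glue

variable {m m' : AM Λ R J ν (κ ⊕ κ₀)}

theorem sec_glue : m.glue.Sec W ↔ m.Sec W ∧ ∀ j e,
    m.y j (m.p (.inr (.inr e, false))) = m.y j (m.p (.inr (.inr e, true))) :=
  (forall_congr' fun _ => AC.mem_H0_glue).trans forall_and

theorem sol_glue : m.glue.Sol F ↔ m.Sol F ∧ ∀ j e,
    m.y j (m.p (.inr (.inr e, false))) = m.y j (m.p (.inr (.inr e, true))) :=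
  ⟨fun h => ⟨⟨h.1, (sec_glue.1 h.2.1).1, h.2.2⟩, (sec_glue.1 h.2.1).2⟩,
    fun h => ⟨h.1.1, sec_glue.2 ⟨h.1.2.1, h.2⟩, h.1.2.2⟩⟩

theorem stable_glue : m.glue.Stable θ ↔ m.Stable θ := by
  rw [Stable, Stable, AC.glue_ω]

theorem typ_glue : m.glue.Typ (g + Fintype.card κ₀) d ↔ m.Typ g d :=
  and_congr_left fun _ => by rw [AC.gen_glue, add_left_inj]

theorem main_glue {u : ν → J → ℕ} : m.Main F u ↔ m.glue.Main F u ∧ ∀ j ∉ F.mov, ∀ e,
    m.y j (m.p (.inr (.inr e, false))) = m.y j (m.p (.inr (.inr e, true))) :=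
  ⟨fun h => ⟨⟨fun j a => (AC.mt_glue.1 (h.1 j a)).1, h.2⟩, fun j a => (AC.mt_glue.1 (h.1 j a)).2⟩,
    fun h => ⟨fun j a => AC.mt_glue.2 ⟨h.1.1 j a, h.2 j a⟩, h.1.2⟩⟩

theorem IsoD.glue {e : m.X ≃ m'.X} {t : R → m.X → ℂ} (h : IsoD W A m m' e t τ) :
    IsoD W A m.glue m'.glue e t τ :=
  ⟨h.liso, h.unit, fun x y => by
      rw [AC.jn_glue, AC.jn_glue, h.node]
      simp only [← h.mark, e.apply_eq_iff_eq],
    fun _ => h.mark _, fun i => AC.mem_H0_glue.2 ⟨h.mem i, (AC.mt_glue.1 (h.mt i)).2⟩, h.ne,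
    fun i => (AC.mt_glue.1 (h.mt i)).1, h.l, h.y⟩

theorem IsoD.of_glue {e : m.X ≃ m'.X} {t : R → m.X → ℂ} (h : IsoD W A m.glue m'.glue e t τ)
    (hp : ∀ q b, e (m.p (.inr (.inr q, b))) = m'.p (.inr (.inr q, b))) : IsoD W A m m' e t τ := by
  refine ⟨h.liso, h.unit, fun x y => ?_, ?_, fun i => (AC.mem_H0_glue.1 (h.mem i)).1, h.ne,
    fun i => AC.mt_glue.2 ⟨h.mt i, (AC.mem_H0_glue.1 (h.mem i)).2⟩, h.l, h.y⟩
  · rw [AC.jn_iff_glue, AC.jn_iff_glue, h.node]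
    simp only [← hp, e.injective.ne_iff]
  · rintro (n | ⟨q | q, b⟩)
    exacts [h.mark (.inl n), h.mark (.inr (q, b)), hp q b]

theorem isoD_glue_cut (m : AM Λ R J ν (κ ⊕ κ₀)) :
    IsoD W A m (m.glue.cut AC.nds_glue) (Equiv.refl _) 1 1 :=
  ⟨LIso.id _, isUnit_one, fun x y => AC.jn_iff_glue.trans ((AC.jn_cut AC.nds_glue).trans
      (and_congr_right fun _ =>
        ⟨fun a e b k => a ⟨(e, b), k.symm⟩, fun a ⟨q, k⟩ => a q.1 q.2 k.symm⟩)).symm,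
    by rintro (_ | ⟨_ | _, _⟩) <;> rfl, fun i => (div_self' (m.L i)).symm ▸ H0.one_mem,
    fun _ _ => one_ne_zero, fun _ _ => rfl, (W.actL_one _).symm,
    fun j _ x => by simp [Wt.actT, vl]⟩

end glue

section cut

variable {m m' : AM Λ R J ν κ} {n : κ₀ × Bool → m.X} (h : m.Nds n)

theorem isoD_cut_glue : IsoD W A m (m.cut h).glue (Equiv.refl _) 1 1 :=
  ⟨LIso.id _, isUnit_one, fun _ _ => (AC.jn_cut_glue h).symm, congrFun (AC.cut_glue_p h).symm,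
    fun i => (div_self' (m.L i)).symm ▸ H0.one_mem, fun _ _ => one_ne_zero, fun _ _ => rfl,
    (W.actL_one _).symm, fun j _ x => by simp [Wt.actT, vl]⟩

theorem IsoD.nds {e : m.X ≃ m'.X} {t : R → m.X → ℂ} (a : IsoD W A m m' e t τ) (h : m.Nds n) :
    m'.Nds fun b => e (n b) :=
  ⟨e.injective.comp h.inj, fun q => (a.node _ _).1 (h.jn q)⟩

theorem IsoD.cut {e : m.X ≃ m'.X} {t : R → m.X → ℂ} (a : IsoD W A m m' e t τ)
    {n' : κ₀ × Bool → m'.X} (h' : m'.Nds n') (hn : ∀ b, e (n b) = n' b) :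
    IsoD W A (m.cut h) (m'.cut h') e t τ := by
  refine ⟨a.liso, a.unit, fun x y => ?_, ?_, fun i => ((AC.mem_H0_cut h).1 (a.mem i)).1, a.ne,
    fun i => (AC.mt_cut h).2 ⟨a.mt i, ((AC.mem_H0_cut h).1 (a.mem i)).2⟩, a.l, a.y⟩
  · rw [AC.jn_cut h, AC.jn_cut h', a.node]
    simp only [mem_range, ← hn, e.apply_eq_iff_eq]
  · rintro (b | ⟨q | q, b⟩)
    exacts [a.mark _, a.mark _, hn _]

theorem sec_cut :
    m.Sec W ↔ (m.cut h).Sec W ∧ ∀ j e, m.y j (n (e, false)) = m.y j (n (e, true)) :=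
  (forall_congr' fun _ => AC.mem_H0_cut h).trans forall_and

theorem Sec.cut (a : m.Sec W) :
    (m.cut h).Sec W ∧ ∀ j e, m.y j (n (e, false)) = m.y j (n (e, true)) := (sec_cut h).1 a

theorem sol_cut :
    m.Sol F ↔ (m.cut h).Sol F ∧ ∀ j e, m.y j (n (e, false)) = m.y j (n (e, true)) :=
  ⟨fun a => ⟨⟨a.1, (a.2.1.cut h).1, a.2.2⟩, (a.2.1.cut h).2⟩,
    fun a => ⟨a.1.1, (sec_cut h).2 ⟨a.1.2.1, a.2⟩, a.1.2.2⟩⟩

theorem stable_cut : (m.cut h).Stable θ ↔ m.Stable θ := by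
  obtain ⟨w, a, b, -⟩ := AC.cut_ω h
  have k : ∀ U, degOn (m.toAC.cut h).ω U = degOn m.ω U := fun U =>
    sub_eq_zero.1 ((degOn_div _ _ U).symm.trans (degOn_of_ne (fun x _ => a.1 x) fun x _ => b x))
  simp only [Stable, Ge, degOn_mul, k]

theorem typ_cut : (m.cut h).Typ g d ↔ m.Typ (g + Fintype.card κ₀) d :=
  and_congr_left fun _ => by rw [← AC.gen_cut h, add_left_inj]

theorem main_cut {u : ν → J → ℕ} (hs : m.Sec F.toWt) : (m.cut h).Main F u ↔ m.Main F u :=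
  and_congr_left fun _ => forall₂_congr fun j _ => (AC.mt_cut h).trans
    (and_iff_left ((hs.cut h).2 j))

end cut

end AM

end Vale.Agent.P269
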