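import Vale.Agent.P269.Pt.Ops

/-!
# Operations on abstract maps: isomorphism data, cutting nodes, unpairing
-/

set_option linter.unusedSectionVars false

namespace Vale.Agent.P269

open Set Function Topology Filter Cv

variable {S Λ R J ν κ κ₀ : Type} [Fintype S] [Fintype Λ] [Fintype R] [Fintype J]
  [Fintype ν] [Fintype κ] [Fintype κ₀]

/-- The persistent pairs `κ₀` are regarded as ordinary marked points. -/
def Ch.unp (ν κ κ₀ : Type) : Ch.Mk (ν ⊕ κ₀ × Bool) κ ≃ Ch.Mk ν (κ ⊕ κ₀) where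
  toFun := Sum.elim (Sum.elim .inl fun a => .inr (.inr a.1, a.2)) fun a => .inr (.inl a.1, a.2)
  invFun := Sum.elim (fun n => .inl (.inl n)) fun a =>
    a.1.elim (fun q => .inr (q, a.2)) fun e => .inl (.inr (e, a.2))
  left_inv := by rintro ((_ | _) | _) <;> rfl
  right_inv := by rintro (_ | ⟨_ | _, _⟩) <;> rfl

namespace AC

/-- A choice of distinct oriented nodes. -/
structure Nds (c : AC ν κ) (n : κ₀ × Bool → c.X) : Prop where
  inj : Injective n
  jn : ∀ e, Jn c.N (n (e, false)) (n (e, true))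

theorem Nds.not_sm {c : AC ν κ} {n : κ₀ × Bool → c.X} (h : c.Nds n) (a : κ₀ × Bool) :
    ¬Sm c.N (n a) := by
  obtain ⟨e, _ | _⟩ := a
  · exact fun s => sm_iff.1 s _ (h.jn e)
  · exact fun s => sm_iff.1 s _ (h.jn e).symm

open Classical in
/-- The chosen nodes become persistent pairs. -/
@[reducible] noncomputable def cut (c : AC ν κ) {n : κ₀ × Bool → c.X} (h : c.Nds n) :
    AC ν (κ ⊕ κ₀) :=
  { c with
    N := c.N.filter fun a => a.1 ∉ range n
    p := fun a => Sum.elim (Sum.elim (fun a => c.p (.inl a)) n) (fun a => c.p (.inr a))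
      ((Ch.unp ν κ κ₀).symm a)
    nd := c.nd.mono (Finset.filter_subset _ _)
    inj := by
      refine Injective.comp ?_ (Ch.unp ν κ κ₀).symm.injective
      rintro ((a | a) | a) ((b | b) | b) e <;> simp only [Sum.elim_inl, Sum.elim_inr] at e
      exacts [by simpa using c.inj e, (h.not_sm b (e ▸ c.sm _)).elim, by simpa using c.inj e,
        (h.not_sm a (e ▸ c.sm _)).elim, by rw [h.inj e], (h.not_sm a (e ▸ c.sm _)).elim,
        by simpa using c.inj e, (h.not_sm b (e ▸ c.sm _)).elim, by simpa using c.inj e]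
    sm := fun a b hb => by
      obtain ⟨hb, hn⟩ := Finset.mem_filter.1 hb
      generalize (Ch.unp ν κ κ₀).symm a = a
      rcases a with (a | a) | a
      · exact c.sm _ b hb
      · refine ⟨fun e => hn ⟨a, e.symm⟩, fun e => hn ?_⟩
        have j : Jn c.N (n a) b.1 := Or.inr (by simpa [← show b.2 = n a from e] using hb)
        obtain ⟨q, _ | _⟩ := a
        · exact ⟨_, (h.jn q).unique c.nd j⟩
        · exact ⟨_, (h.jn q).symm.unique c.nd j⟩
      · exact c.sm _ b hb }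

end AC

namespace AM

/-- The chosen nodes become persistent pairs. -/
@[reducible] noncomputable def cut (m : AM Λ R J ν κ) {n : κ₀ × Bool → m.X} (h : m.Nds n) :
    AM Λ R J ν (κ ⊕ κ₀) := ⟨m.toAC.cut h, m.L, m.l, m.y⟩

/-- The data of an isomorphism. -/
structure IsoD (F : Wt S Λ R J) (A : Set J) (m m' : AM Λ R J ν κ) (e : m.X ≃ m'.X)
    (t : R → m.X → ℂ) (τ : S → ℂ) : Prop where
  liso : LIso m.R m'.R e
  unit : IsUnit τ
  node : ∀ x y, Jn m.N x y ↔ Jn m'.N (e x) (e y)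
  mark : ∀ n, e (m.p n) = m'.p n
  mem : ∀ i, t i ∈ H0 m.N (liso.pb (m'.L i) / m.L i)
  ne : ∀ i x, t i x ≠ 0
  mt : ∀ i, m.Mt (t i)
  l : m'.l = F.actL τ m.l
  y : ∀ j ∈ A, ∀ x, m'.y j (e x) = (F.actT (τ, fun i => t i x) (m.vl x)).2 j

theorem iso_iff {F : Wt S Λ R J} {A : Set J} {m m' : AM Λ R J ν κ} :
    Iso F A m m' ↔ ∃ e t τ, IsoD F A m m' e t τ :=
  ⟨fun ⟨e, h, t, τ, a, b, c, d, f, g⟩ => ⟨e, t, τ, h, a, b, c, fun i => (d i).1, fun i => (d i).2.1,
    fun i => (d i).2.2, f, g⟩, fun ⟨e, t, τ, h⟩ => ⟨e, h.liso, t, τ, h.unit, h.node, h.mark,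
      fun i => ⟨h.mem i, h.ne i, h.mt i⟩, h.l, h.y⟩⟩

theorem IsoD.iso {F : Wt S Λ R J} {A : Set J} {m m' : AM Λ R J ν κ} {e : m.X ≃ m'.X}
    {t : R → m.X → ℂ} {τ : S → ℂ} (h : IsoD F A m m' e t τ) : Iso F A m m' :=
  iso_iff.2 ⟨e, t, τ, h⟩

end AM

end Vale.Agent.P269
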