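import Vale.Agent.P269.Pt.Emb

/-!
# Disjoint sums of abstract maps
-/

set_option linter.unusedSectionVars false

namespace Vale.Agent.P269

open Set Function Topology Filter Cv

namespace Cv

variable {X X' X'' : Type} [TopologicalSpace X] [TopologicalSpace X'] [TopologicalSpace X'']
  {R : RS X} {R' : RS X'} {R'' : RS X''} {f : X' → X} {g : X'' → X}

/-- gluing of two bundles -/
theorem exists_lb_sum (h : LIso R' R f) (h' : LIso R'' R g) (hb : Bijective (Sum.elim f g))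
    (B : LB R') (B' : LB R'') : ∃ L : LB R, h.pb L = B ∧ h'.pb L = B' := by
  let e := Equiv.ofBijective _ hb
  let ψ : X' ⊕ X'' → X → ℂ := Sum.elim (fun x => extend f (B.φ x) 1) fun x => extend g (B'.φ x) 1
  have i : Injective f := hb.1.comp Sum.inl_injective
  have i' : Injective g := hb.1.comp Sum.inr_injective
  have v : ∀ x y, ψ (e.symm (f x)) (f y) = B.φ x y := fun x y =>
    (congrFun (congrArg ψ (e.symm_apply_apply (.inl x))) _).trans (i.extend_apply ..)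
  have v' : ∀ x y, ψ (e.symm (g x)) (g y) = B'.φ x y := fun x y =>
    (congrFun (congrArg ψ (e.symm_apply_apply (.inr x))) _).trans (i'.extend_apply ..)
  refine ⟨⟨fun x => ψ (e.symm x), hb.2.forall.2 ?_, fun x y => ?_, hb.2.forall.2 ?_⟩,
    LB.ext (funext₂ v), LB.ext (funext₂ v')⟩
  · rintro (z | z)
    exacts [(v ..).trans (B.self _), (v' ..).trans (B'.self _)]
  · generalize e.symm x = z
    rcases z with z | z
    · by_cases a : ∃ w, f w = y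
      · obtain ⟨w, rfl⟩ := a
        exact (i.extend_apply ..).trans_ne (B.ne _ _)
      · exact (extend_apply' _ _ _ a).trans_ne one_ne_zero
    · by_cases a : ∃ w, g w = y
      · obtain ⟨w, rfl⟩ := a
        exact (i'.extend_apply ..).trans_ne (B'.ne _ _)
      · exact (extend_apply' _ _ _ a).trans_ne one_ne_zero
  · rintro (z | z)
    · rw [Sum.elim_inl, ← h.map_nhds, eventually_map]
      exact (B.hol z).mono fun y a => h.hol_iff.1 (by simpa only [v] using a)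
    · rw [Sum.elim_inr, ← h'.map_nhds, eventually_map]
      exact (B'.hol z).mono fun y a => h'.hol_iff.1 (by simpa only [v'] using a)

theorem LIso.pb_res (h : LIso R' R f) (L : LB R) {U : Set X} (hU : IsClopen U) :
    h.pb (L.res hU) = (h.pb L).res (hU.preimage h.cont) := LB.ext (funext₂ fun x y => by
  by_cases a : f x ∈ U
  · rw [LIso.pb_φ, LB.res_φ hU a, LB.res_φ (hU.preimage h.cont) a, LIso.pb_φ]
  · rw [LIso.pb_φ, LB.res_φ' hU a, LB.res_φ' (hU.preimage h.cont) a])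

end Cv

variable {S Λ R J K ν κ ν₁ κ₁ ν₂ κ₂ : Type} [Fintype S] [Fintype Λ] [Fintype R] [Fintype J]
  [Fintype K] [Fintype ν] [Fintype κ] [Fintype ν₁] [Fintype κ₁] [Fintype ν₂] [Fintype κ₂]

theorem mk_cases (φ : ν₁ ⊕ ν₂ ≃ ν) (ψ : κ₁ ⊕ κ₂ ≃ κ) (n : Ch.Mk ν κ) :
    (∃ n' : Ch.Mk ν₁ κ₁, n = n'.map (fun a => φ (.inl a)) (Prod.map (fun q => ψ (.inl q)) id)) ∨
      ∃ n' : Ch.Mk ν₂ κ₂, n = n'.map (fun a => φ (.inr a)) (Prod.map (fun q => ψ (.inr q)) id) := by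
  rcases n with n | ⟨q, b⟩
  · obtain ⟨n | n, rfl⟩ := φ.surjective n
    exacts [.inl ⟨.inl n, rfl⟩, .inr ⟨.inl n, rfl⟩]
  · obtain ⟨q | q, rfl⟩ := ψ.surjective q
    exacts [.inl ⟨.inr (q, b), rfl⟩, .inr ⟨.inr (q, b), rfl⟩]

namespace AM

variable {F : Fam S Λ R J K} {W : Wt S Λ R J} {A : Set J} {θ : R → ℤ} {τ : S → ℂ}
  {m m' : AM Λ R J ν κ} {m₁ m₁' : AM Λ R J ν₁ κ₁} {m₂ m₂' : AM Λ R J ν₂ κ₂}

namespace Split

variable {φ : ν₁ ⊕ ν₂ ≃ ν} {ψ : κ₁ ⊕ κ₂ ≃ κ} {j₁ : m₁.X → m.X} {j₂ : m₂.X → m.X}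
  (h : Split m m₁ m₂ φ ψ j₁ j₂)
include h

theorem symm : Split m m₂ m₁ ((Equiv.sumComm _ _).trans φ) ((Equiv.sumComm _ _).trans ψ) j₂ j₁ :=
  ⟨h.two, h.one, h.compl.symm⟩

theorem cases (z : m.X) : (∃ x, z = j₁ x) ∨ ∃ x, z = j₂ x := by
  have : z ∈ range j₁ ∪ range j₂ := h.compl.sup_eq_top.ge (mem_univ z)
  exact this.imp (fun ⟨x, e⟩ => ⟨x, e.symm⟩) fun ⟨x, e⟩ => ⟨x, e.symm⟩

theorem ne (x : m₁.X) (y : m₂.X) : j₁ x ≠ j₂ y := fun e =>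
  Set.disjoint_left.1 h.compl.disjoint (mem_range_self x) ⟨y, e.symm⟩

theorem bij : Bijective (Sum.elim j₁ j₂) :=
  ⟨h.one.inj.sumElim h.two.inj h.ne, fun z =>
    (h.cases z).elim (fun ⟨x, e⟩ => ⟨.inl x, e.symm⟩) fun ⟨x, e⟩ => ⟨.inr x, e.symm⟩⟩

theorem forall_iff {p : m.X → Prop} : (∀ z, p z) ↔ (∀ x, p (j₁ x)) ∧ ∀ x, p (j₂ x) :=
  h.bij.2.forall.trans Sum.forall

theorem mem_H0 {L : LB m.R} {s : m.X → ℂ} : s ∈ H0 m.N L ↔
    (fun x => s (j₁ x)) ∈ H0 m₁.N (h.one.liso.pb L) ∧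
      (fun x => s (j₂ x)) ∈ H0 m₂.N (h.two.liso.pb L) := by
  refine ⟨fun a => ⟨h.one.pb_mem a, h.two.pb_mem a⟩, fun ⟨a, b⟩ => mem_H0_iff.2
    ⟨h.forall_iff.2 ⟨fun x => h.one.liso.sec_pb.1 (a.1 x), fun x => h.two.liso.sec_pb.1 (b.1 x)⟩,
      h.forall_iff.2 ⟨fun x z c => ?_, fun x z c => ?_⟩⟩⟩
  · obtain ⟨y, d, rfl⟩ := (h.one.node x z).1 c
    exact (mem_H0_iff.1 a).2 x y d
  · obtain ⟨y, d, rfl⟩ := (h.two.node x z).1 c
    exact (mem_H0_iff.1 b).2 x y d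

theorem exists_fun {α : Type} (s₁ : m₁.X → α) (s₂ : m₂.X → α) :
    ∃ s : m.X → α, (∀ x, s (j₁ x) = s₁ x) ∧ ∀ x, s (j₂ x) = s₂ x :=
  ⟨Sum.elim s₁ s₂ ∘ (Equiv.ofBijective _ h.bij).symm,
    fun x => congrArg (Sum.elim s₁ s₂) ((Equiv.ofBijective _ h.bij).symm_apply_apply (.inl x)),
    fun x => congrArg (Sum.elim s₁ s₂) ((Equiv.ofBijective _ h.bij).symm_apply_apply (.inr x))⟩

theorem mt {α : Type} {t : m.X → α} :
    m.Mt t ↔ (m₁.Mt fun x => t (j₁ x)) ∧ m₂.Mt fun x => t (j₂ x) := by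
  refine ⟨fun a => ⟨h.one.mt a, h.two.mt a⟩, fun ⟨a, b⟩ q => ?_⟩
  obtain ⟨q | q, rfl⟩ := ψ.surjective q
  · simpa only [h.one.mark_inr] using a q
  · simpa only [h.two.mark_inr] using b q

theorem deg_add (L : LB m.R) : deg L = deg (h.one.liso.pb L) + deg (h.two.liso.pb L) := by
  rw [h.one.deg_pb, h.two.deg_pb, ← h.compl.compl_eq, degOn_add_compl h.one.liso.isClopen_range]

theorem degOn_add (L : LB m.R) {U : Set m.X} (hU : IsClopen U) : degOn L U =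
    degOn (h.one.liso.pb L) (j₁ ⁻¹' U) + degOn (h.two.liso.pb L) (j₂ ⁻¹' U) := by
  rw [degOn_eq hU, h.deg_add, LIso.pb_res, LIso.pb_res, ← degOn_eq, ← degOn_eq]

theorem ge {L : LB m.R} {n : ℤ} (hn : 0 ≤ n) :
    Ge L n ↔ Ge (h.one.liso.pb L) n ∧ Ge (h.two.liso.pb L) n := by
  refine ⟨fun a => ⟨h.one.liso.ge_pb h.one.inj a, h.two.liso.ge_pb h.two.inj a⟩,
    fun ⟨a, b⟩ U hU ⟨z, hz⟩ => ?_⟩
  have c := a _ (hU.preimage h.one.liso.cont)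
  have d := b _ (hU.preimage h.two.liso.cont)
  have c' : 0 ≤ degOn (h.one.liso.pb L) (j₁ ⁻¹' U) := (j₁ ⁻¹' U).eq_empty_or_nonempty.elim
    (fun e => e ▸ (degOn_of_ne (s := 1) (by simp) (by simp)).ge) fun e => hn.trans (c e)
  have d' : 0 ≤ degOn (h.two.liso.pb L) (j₂ ⁻¹' U) := (j₂ ⁻¹' U).eq_empty_or_nonempty.elim
    (fun e => e ▸ (degOn_of_ne (s := 1) (by simp) (by simp)).ge) fun e => hn.trans (d e)
  rw [h.degOn_add L hU]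
  rcases h.cases z with ⟨x, rfl⟩ | ⟨x, rfl⟩
  · have := c ⟨x, hz⟩
    omega
  · have := d ⟨x, hz⟩
    omega

theorem gen_add : gen m.R m.N = gen m₁.R m₁.N + gen m₂.R m₂.N - 1 := by
  have a := h.one.gen_eq
  have b := h.two.gen_eq
  have c := degOn_add_compl (L := omega m.R m.N ∅) h.one.liso.isClopen_range
  rw [h.compl.compl_eq, deg_omega, Finset.card_empty] at c
  omega

theorem card_N : m.N.card = m₁.N.card + m₂.N.card := by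
  have a := h.gen_add
  have b := h.one.liso.chi_add (L := 1) h.one.inj h.two.liso h.two.inj h.compl
  rw [map_one, map_one] at b
  rw [gen, gen, gen] at a
  omega

theorem deg_L (r : R) : deg (m.L r) = deg (m₁.L r) + deg (m₂.L r) := by
  rw [h.deg_add, h.one.L, h.two.L]

theorem finrank_add (L : LB m.R) : Module.finrank ℂ (H0 m.N L) =
    Module.finrank ℂ (H0 m₁.N (h.one.liso.pb L)) + Module.finrank ℂ (H0 m₂.N (h.two.liso.pb L)) := by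
  let f : H0 m.N L →ₗ[ℂ] H0 m₁.N (h.one.liso.pb L) × H0 m₂.N (h.two.liso.pb L) :=
    { toFun := fun s => (⟨_, h.one.pb_mem s.2⟩, ⟨_, h.two.pb_mem s.2⟩)
      map_add' := fun _ _ => rfl
      map_smul' := fun _ _ => rfl }
  rw [← Module.finrank_prod]
  refine (LinearEquiv.ofBijective f ⟨fun s t e => Subtype.ext (funext (h.forall_iff.2
    ⟨congrFun (congrArg (·.1.1) e), congrFun (congrArg (·.2.1) e)⟩)), fun s => ?_⟩).finrank_eq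
  obtain ⟨t, a, b⟩ := h.exists_fun s.1.1 s.2.1
  exact ⟨⟨t, h.mem_H0.2 ⟨(funext a).symm ▸ s.1.2, (funext b).symm ▸ s.2.2⟩⟩,
    Prod.ext (Subtype.ext (funext a)) (Subtype.ext (funext b))⟩

theorem typ {g₁ g₂ : ℤ} {d₁ d₂ : R → ℤ} (a : m₁.Typ g₁ d₁) (b : m₂.Typ g₂ d₂) :
    m.Typ (g₁ + g₂ - 1) (d₁ + d₂) :=
  ⟨by rw [h.gen_add, a.1, b.1], fun r => by rw [h.deg_L, a.2, b.2, Pi.add_apply]⟩

theorem sec : m.Sec W ↔ m₁.Sec W ∧ m₂.Sec W := by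
  refine ⟨fun a => ⟨h.one.sec a, h.two.sec a⟩, fun ⟨a, b⟩ i => h.mem_H0.2 ⟨?_, ?_⟩⟩
  · rw [h.one.pb_bz, ← h.one.y_eq]
    exact a i
  · rw [h.two.pb_bz, ← h.two.y_eq]
    exact b i

theorem sol : m.Sol F ↔ m₁.Sol F ∧ m₂.Sol F :=
  ⟨fun a => ⟨h.one.sol a, h.two.sol a⟩, fun ⟨a, b⟩ => ⟨h.one.l ▸ a.1, h.sec.2 ⟨a.2.1, b.2.1⟩,
    h.forall_iff.2 ⟨fun x => h.one.vl x ▸ a.2.2 x, fun x => h.two.vl x ▸ b.2.2 x⟩⟩⟩

theorem stable : m.Stable θ ↔ m₁.Stable θ ∧ m₂.Stable θ := by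
  refine ⟨fun a => ⟨h.one.stable a, h.two.stable a⟩, fun ⟨a, b⟩ =>
    (h.ge zero_le_one).2 ⟨fun U c d => ?_, fun U c d => ?_⟩⟩
  · rw [h.one.liso.degOn_pb h.one.inj c, ← h.one.degOn_st θ c]
    exact a U c d
  · rw [h.two.liso.degOn_pb h.two.inj c, ← h.two.degOn_st θ c]
    exact b U c d

theorem main {u : ν → J → ℕ} : m.Main F u ↔
    (m₁.Main F fun n => u (φ (.inl n))) ∧ m₂.Main F fun n => u (φ (.inr n)) := by
  refine ⟨fun a => ⟨h.one.main a, h.two.main a⟩, fun ⟨a, b⟩ =>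
    ⟨fun i hi => h.mt.2 ⟨h.one.y_eq i ▸ a.1 i hi, h.two.y_eq i ▸ b.1 i hi⟩, fun i hi hz =>
      ⟨fun n => ?_, h.forall_iff.2 ⟨fun x c => ?_, fun x c => ?_⟩⟩⟩⟩
  · obtain ⟨n | n, rfl⟩ := φ.surjective n
    · rw [← h.one.mark_inl, ← h.one.ord, (a.2 i hi hz).1]
    · rw [← h.two.mark_inl, ← h.two.ord, (b.2 i hi hz).1]
  · rw [← h.one.y]
    exact (a.2 i hi hz).2 x fun n e => c _ (e ▸ h.one.mark_inl n)
  · rw [← h.two.y]
    exact (b.2 i hi hz).2 x fun n e => c _ (e ▸ h.two.mark_inl n)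

/-- sum of two isomorphisms with the same `τ` -/
theorem isoD {j₁' : m₁'.X → m'.X} {j₂' : m₂'.X → m'.X} (h' : Split m' m₁' m₂' φ ψ j₁' j₂')
    {e₁ : m₁.X ≃ m₁'.X} {e₂ : m₂.X ≃ m₂'.X} {t₁ : R → m₁.X → ℂ} {t₂ : R → m₂.X → ℂ}
    (a : IsoD W A m₁ m₁' e₁ t₁ τ) (b : IsoD W A m₂ m₂' e₂ t₂ τ) :
    ∃ (e : m.X ≃ m'.X) (t : R → m.X → ℂ), IsoD W A m m' e t τ ∧ (∀ x, e (j₁ x) = j₁' (e₁ x)) ∧
      (∀ x, e (j₂ x) = j₂' (e₂ x)) ∧ (∀ r x, t r (j₁ x) = t₁ r x) ∧ ∀ r x, t r (j₂ x) = t₂ r x := by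
  obtain ⟨e, c, d⟩ : ∃ e : m.X ≃ m'.X, (∀ x, e (j₁ x) = j₁' (e₁ x)) ∧ ∀ x, e (j₂ x) = j₂' (e₂ x) :=
    ⟨(Equiv.ofBijective _ h.bij).symm.trans ((e₁.sumCongr e₂).trans (Equiv.ofBijective _ h'.bij)),
      fun x => congrArg ((e₁.sumCongr e₂).trans (Equiv.ofBijective _ h'.bij))
        ((Equiv.ofBijective _ h.bij).symm_apply_apply (.inl x)),
      fun x => congrArg ((e₁.sumCongr e₂).trans (Equiv.ofBijective _ h'.bij))
        ((Equiv.ofBijective _ h.bij).symm_apply_apply (.inr x))⟩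
  choose t c' d' using fun r => h.exists_fun (t₁ r) (t₂ r)
  have l : LIso m.R m'.R e := h.one.liso.of_cover h.two.liso
    (fun z => (h.cases z).imp (fun ⟨x, k⟩ => ⟨x, k.symm⟩) fun ⟨x, k⟩ => ⟨x, k.symm⟩)
    ((funext c : e ∘ j₁ = j₁' ∘ e₁).symm ▸ h'.one.liso.comp a.liso)
    ((funext d : e ∘ j₂ = j₂' ∘ e₂).symm ▸ h'.two.liso.comp b.liso)
  have n1 : ∀ x y, ¬Jn m.N (j₁ x) (j₂ y) := fun x y k =>
    let ⟨z, _, k'⟩ := (h.one.node _ _).1 k; h.ne z y k'.symm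
  have n2 : ∀ x y, ¬Jn m'.N (j₁' x) (j₂' y) := fun x y k =>
    let ⟨z, _, k'⟩ := (h'.one.node _ _).1 k; h'.ne z y k'.symm
  refine ⟨e, t, ⟨l, a.unit, h.forall_iff.2 ⟨fun x => h.forall_iff.2 ⟨fun y => ?_, fun y => ?_⟩,
    fun x => h.forall_iff.2 ⟨fun y => ?_, fun y => ?_⟩⟩, fun n => ?_,
    fun r => h.mem_H0.2 ⟨?_, ?_⟩,
    fun r => h.forall_iff.2 ⟨fun x => c' r x ▸ a.ne r x, fun x => d' r x ▸ b.ne r x⟩,
    fun r => h.mt.2 ⟨(funext (c' r)).symm ▸ a.mt r, (funext (d' r)).symm ▸ b.mt r⟩,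
    by rw [← h'.one.l, ← h.one.l, a.l],
    fun i hi => h.forall_iff.2 ⟨fun x => ?_, fun x => ?_⟩⟩, c, d, c', d'⟩
  · rw [c, c, h.one.jn, h'.one.jn, a.node]
  · rw [c, d]
    exact iff_of_false (n1 _ _) (n2 _ _)
  · rw [c, d]
    exact iff_of_false (fun k => n1 _ _ k.symm) fun k => n2 _ _ k.symm
  · rw [d, d, h.two.jn, h'.two.jn, b.node]
  · rcases mk_cases φ ψ n with ⟨n, rfl⟩ | ⟨n, rfl⟩
    · rw [← h.one.mark, c, a.mark, h'.one.mark]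
    · rw [← h.two.mark, d, b.mark, h'.two.mark]
  · rw [funext (c' r), map_div, h.one.L, show h.one.liso.pb (l.pb (m'.L r)) = a.liso.pb (m₁'.L r)
      from h'.one.L r ▸ LB.ext (funext₂ fun x y => by simp only [LIso.pb_φ, c])]
    exact a.mem r
  · rw [funext (d' r), map_div, h.two.L, show h.two.liso.pb (l.pb (m'.L r)) = b.liso.pb (m₂'.L r)
      from h'.two.L r ▸ LB.ext (funext₂ fun x y => by simp only [LIso.pb_φ, d])]
    exact b.mem r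
  · simp only [c, c', ← h'.one.y, ← h.one.vl, a.y i hi]
  · simp only [d, d', ← h'.two.y, ← h.two.vl, b.y i hi]

end Split

theorem exists_split {U : Set m.X} (hU : m.Sat U) (φ : ν₁ ⊕ ν₂ ≃ ν) (ψ : κ₁ ⊕ κ₂ ≃ κ)
    (h₁ : ∀ n : Ch.Mk ν₁ κ₁, m.p (n.map (fun a => φ (.inl a)) (Prod.map (fun q => ψ (.inl q)) id)) ∈ U)
    (h₂ : ∀ n : Ch.Mk ν₂ κ₂, m.p (n.map (fun a => φ (.inr a)) (Prod.map (fun q => ψ (.inr q)) id)) ∉ U) :
    ∃ (m₁ : AM Λ R J ν₁ κ₁) (m₂ : AM Λ R J ν₂ κ₂) (j₁ : m₁.X → m.X) (j₂ : m₂.X → m.X),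
      Split m m₁ m₂ φ ψ j₁ j₂ ∧ range j₁ = U := by
  obtain ⟨m₁, j₁, a, b⟩ := exists_emb hU (φ.injective.comp Sum.inl_injective)
    (ψ.injective.comp Sum.inl_injective) fun n => ⟨fun k => (mk_cases φ ψ n).resolve_right
      fun ⟨n', e⟩ => h₂ n' (e ▸ k), fun ⟨n', e⟩ => e ▸ h₁ n'⟩
  obtain ⟨m₂, j₂, c, d⟩ := exists_emb (U := Uᶜ)
    ⟨hU.1.compl, fun x hx y k hy => hx (hU.2 y hy x k.symm)⟩ (φ.injective.comp Sum.inr_injective)
    (ψ.injective.comp Sum.inr_injective) fun n => ⟨fun k => (mk_cases φ ψ n).resolve_left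
      fun ⟨n', e⟩ => k (e ▸ h₁ n'), fun ⟨n', e⟩ => e ▸ h₂ n'⟩
  exact ⟨m₁, m₂, j₁, j₂, ⟨a, c, b ▸ d ▸ isCompl_compl⟩, b⟩

theorem exists_sum (m₁ : AM Λ R J ν₁ κ₁) (m₂ : AM Λ R J ν₂ κ₂) (h : m₁.l = m₂.l) (φ : ν₁ ⊕ ν₂ ≃ ν)
    (ψ : κ₁ ⊕ κ₂ ≃ κ) : ∃ (m : AM Λ R J ν κ) (j₁ : m₁.X → m.X) (j₂ : m₂.X → m.X),
      Split m m₁ m₂ φ ψ j₁ j₂ := by
  classical
  obtain ⟨Q, h₁, h₂⟩ := m₁.R.exists_sum m₂.R
  choose L a b using fun r => exists_lb_sum h₁ h₂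
    (Sum.elim_inl_inr ▸ bijective_id) (m₁.L r) (m₂.L r)
  let N : Finset ((m₁.X ⊕ m₂.X) × (m₁.X ⊕ m₂.X)) :=
    m₁.N.image (Prod.map .inl .inl) ∪ m₂.N.image (Prod.map .inr .inr)
  have hN : ∀ n, n ∈ N ↔ (∃ k ∈ m₁.N, (.inl k.1, .inl k.2) = n) ∨
      ∃ k ∈ m₂.N, (.inr k.1, .inr k.2) = n := fun n => by
    simp only [N, Finset.mem_union, Finset.mem_image]
    rfl
  let p : Ch.Mk ν κ → m₁.X ⊕ m₂.X := Sum.elim
    (fun n => (φ.symm n).map (fun n => m₁.p (.inl n)) fun n => m₂.p (.inl n))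
    fun q => (ψ.symm q.1).map (fun n => m₁.p (.inr (n, q.2))) fun n => m₂.p (.inr (n, q.2))
  have p₁ : ∀ n : Ch.Mk ν₁ κ₁, p (n.map (fun a => φ (.inl a)) (Prod.map (fun q => ψ (.inl q)) id)) =
      .inl (m₁.p n) := by rintro (n | ⟨q, b⟩) <;> simp [p]
  have p₂ : ∀ n : Ch.Mk ν₂ κ₂, p (n.map (fun a => φ (.inr a)) (Prod.map (fun q => ψ (.inr q)) id)) =
      .inr (m₂.p n) := by rintro (n | ⟨q, b⟩) <;> simp [p]
  let c : AC ν κ :=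
    { X := m₁.X ⊕ m₂.X, R := Q, N := N, p := p
      nd := by
        refine ⟨fun x hx y hy e => ?_, fun x hx y hy e => ?_, fun x hx y hy e => ?_⟩
        all_goals
          replace hx := (hN x).1 hx
          replace hy := (hN y).1 hy
          rcases hx with ⟨x, hx, rfl⟩ | ⟨x, hx, rfl⟩ <;>
            rcases hy with ⟨y, hy, rfl⟩ | ⟨y, hy, rfl⟩ <;>
            simp only [Sum.inl.injEq, Sum.inr.injEq, reduceCtorEq] at e
        exacts [m₁.nd.ne x hx y hy e, m₂.nd.ne x hx y hy e, by rw [m₁.nd.inj1 hx hy e],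
          by rw [m₂.nd.inj1 hx hy e], by rw [m₁.nd.inj2 hx hy e], by rw [m₂.nd.inj2 hx hy e]]
      inj := fun x y e => by
        rcases mk_cases φ ψ x with ⟨x, rfl⟩ | ⟨x, rfl⟩ <;>
          rcases mk_cases φ ψ y with ⟨y, rfl⟩ | ⟨y, rfl⟩ <;>
          simp only [p₁, p₂, Sum.inl.injEq, Sum.inr.injEq, reduceCtorEq] at e
        exacts [by rw [m₁.inj e], by rw [m₂.inj e]]
      sm := fun n x hx => by
        replace hx := (hN x).1 hx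
        rcases mk_cases φ ψ n with ⟨n, rfl⟩ | ⟨n, rfl⟩ <;>
          rcases hx with ⟨x, hx, rfl⟩ | ⟨x, hx, rfl⟩ <;>
          simp only [p₁, p₂, ne_eq, Sum.inl.injEq, Sum.inr.injEq, reduceCtorEq, not_false_eq_true,
            and_self]
        exacts [m₁.sm n x hx, m₂.sm n x hx] }
  refine ⟨⟨c, L, m₁.l, fun i => Sum.elim (m₁.y i) (m₂.y i)⟩, .inl, .inr,
    ⟨h₁, Sum.inl_injective, fun x z => ?_, fun n => (p₁ n).symm, fun n ⟨x, e⟩ =>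
      (mk_cases φ ψ n).resolve_right fun ⟨n', k⟩ => Sum.inl_ne_inr (e.trans (k ▸ p₂ n')), a, rfl,
      fun _ _ => rfl⟩,
    ⟨h₂, Sum.inr_injective, fun x z => ?_, fun n => (p₂ n).symm, fun n ⟨x, e⟩ =>
      (mk_cases φ ψ n).resolve_left fun ⟨n', k⟩ => Sum.inr_ne_inl (e.trans (k ▸ p₁ n')), b, h.symm,
      fun _ _ => rfl⟩, isCompl_range_inl_range_inr⟩
  · have : ∀ z : m₁.X ⊕ m₂.X, Jn N (.inl x) z ↔ ∃ y, Jn m₁.N x y ∧ z = .inl y := by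
      rintro (z | z) <;> simp [Jn, hN]
    exact this z
  · have : ∀ z : m₁.X ⊕ m₂.X, Jn N (.inr x) z ↔ ∃ y, Jn m₂.N x y ∧ z = .inr y := by
      rintro (z | z) <;> simp [Jn, hN]
    exact this z

end AM

end Vale.Agent.P269
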