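import Vale.Agent.P269.Pt.Ops2
import Vale.Agent.P269.Pt.Iso
import Vale.Agent.P269.Map.Defs

/-!
# Points of charts and abstract maps
-/

set_option linter.unusedSectionVars false

namespace Vale.Agent.P269

open Set Function Topology Filter Cv Base

namespace Cv

variable {X X' : Type} [TopologicalSpace X] [TopologicalSpace X'] {R : RS X} {R' : RS X'}
  {L L' L'' B B' : LB R} {N : Finset (X × X)} {s : X → ℂ} {ι α : Type} [Fintype ι] [Fintype α]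

variable (L L') in
/-- The two bundles have the same holomorphic sections. -/
def Eqv : Prop := (1 : X → ℂ) ∈ (L / L').Γ

theorem Eqv.refl (L : LB R) : Eqv L L := by
  rw [Eqv, div_self']; exact LB.one_mem

theorem Eqv.mul (h : Eqv L L') (h' : Eqv B B') : Eqv (L * B) (L' * B') := by
  simpa [Eqv, mul_div_mul_comm] using LB.mul_mem h h'

theorem Eqv.zpow (h : Eqv L L') (n : ℤ) : Eqv (L ^ n) (L' ^ n) := by
  simpa [Eqv, div_zpow] using LB.zpow_mem h (fun _ => one_ne_zero) n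

theorem Eqv.symm (h : Eqv L L') : Eqv L' L := by
  simpa [Eqv] using LB.inv_mem h fun _ => one_ne_zero

theorem Eqv.trans (h : Eqv L L') (h' : Eqv L' L'') : Eqv L L'' := by
  simpa [Eqv] using LB.mul_mem h h'

theorem Eqv.bz {A A' : ι → LB R} (h : ∀ i, Eqv (A i) (A' i)) (a : ι → ℤ) :
    Eqv (bz A a) (bz A' a) := by
  simpa [Eqv, Cv.bz, Finset.prod_div_distrib, div_zpow] using
    LB.prod_mem (T := Finset.univ) fun i _ => LB.zpow_mem (h i) (fun _ => one_ne_zero) (a i)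

theorem Eqv.mem0 (h : Eqv L L') : (1 : X → ℂ) ∈ H0 N (L / L') := ⟨h, fun _ _ => rfl⟩

theorem Eqv.H0 (h : Eqv L L') : s ∈ H0 N L ↔ s ∈ H0 N L' := by
  simpa using mem_mul_iff (s := s) (L := L') h.mem0 fun _ => one_ne_zero

theorem Eqv.ord (h : Eqv L L') (x : X) : L.ord s x = L'.ord s x := by
  simpa using LB.ord_mul_unit (s := s) (L := L') (h x) one_ne_zero

theorem Eqv.pb (h : Eqv L L') {f : X' → X} (hf : LIso R' R f) : Eqv (hf.pb L) (hf.pb L') := by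
  rw [Eqv, ← map_div]; exact hf.pb_mem h

theorem bz_mul (A A' : ι → LB R) (a : ι → ℤ) : bz (fun i => A i * A' i) a = bz A a * bz A' a := by
  simp only [bz, mul_zpow, Finset.prod_mul_distrib]

theorem prod_prod_zpow {t : ι → ℂ} (ht : ∀ i, t i ≠ 0) (ℓ : α → ι → ℤ) (w : α → ℤ) :
    ∏ r, (∏ i, t i ^ ℓ r i) ^ w r = ∏ i, t i ^ ∑ r, w r * ℓ r i := by
  simp only [← Finset.prod_zpow, ← zpow_mul, zpow_sum_ne (ht _), mul_comm]
  exact Finset.prod_comm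

variable [T2Space X] [CompactSpace X]

theorem bz_bz (A : ι → LB R) (ℓ : α → ι → ℤ) (w : α → ℤ) :
    bz (fun r => bz A (ℓ r)) w = bz A fun i => ∑ r, w r * ℓ r i := by
  rw [show (fun i => ∑ r, w r * ℓ r i) = ∑ r, w r • ℓ r from funext fun i => by simp, bz_sum]
  simp only [bz_smul]
  rfl

theorem Eqv.degOn (h : Eqv L L') (U : Set X) : degOn L U = degOn L' U :=
  sub_eq_zero.1 ((degOn_div _ _ U).symm.trans (degOn_of_ne (fun z _ => h z) fun _ _ => one_ne_zero))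

theorem Eqv.deg (h : Eqv L L') : deg L = deg L' := by
  rw [← degOn_univ, h.degOn, degOn_univ]

theorem Eqv.ge (h : Eqv L L') {n : ℤ} : Ge L n ↔ Ge L' n := by simp only [Ge, h.degOn]

variable {J ν : Type} [DecidableEq ι] [Fintype J] [Fintype ν] {ch : Ch ι J} {x : ch.W ν}
  {A : ι → LB R} {π : X → V ch.M} {u : X → ∀ l, ch.E l →L[ℂ] ℂ} {p : ν → X} {ξ : X → ℂ}

theorem Cr.eqv (h : Cr N A x π u p ξ) {B : ι → LB R} (e : ∀ i, Eqv (B i) (A i)) :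
    Cr N B x π u p ξ := by
  simpa [chr] using h.of_iso (c := 1) (fun i => (e i).mem0) fun _ _ => one_ne_zero

/-- rescaling by arbitrary functions -/
theorem Cr.rescale (h : Cr N A x π u p ξ) {c : X → ι → ℂ} (h0 : ∀ y i, c y i ≠ 0)
    (hc : ∀ n ∈ N, c n.1 = c n.2) : ∃ B u', Cr (R := R) N B x (fun y => c y • π y) u' p
      fun y => ξ y * ∏ i, c y i ^ ch.χ i :=
  ⟨fun i => A i * LB.cst R (fun y => c y i) fun y => h0 y i, _, h.of_iso (fun i => by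
    rw [mul_div_cancel_left]; exact cst_mem0 _ fun n hn => congrFun (hc n hn) i) h0⟩

theorem Cr.u_eq (h : Cr N A x π u p ξ) {y : X} {v : ∀ l, ch.E l →L[ℂ] ℂ}
    (e : (π y, v) ∈ Ch.gr x) : v = u y := funext fun l => ContinuousLinearMap.ext fun w => by
  obtain ⟨μ, rfl⟩ := h.mem.1 l w
  rw [e.2, h.u_Q]

end Cv

variable {S Λ R J K ν κ ι : Type} [Fintype S] [Fintype Λ] [Fintype R] [Fintype J] [Fintype K]
  [Fintype ν] [Fintype κ] [Fintype ι] [DecidableEq ι]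

theorem AC.mem_triv {c : AC ν κ} {L : LB c.R} {k : ℕ} : Eqv L (c.ω ^ k) ↔
    c.sg ^ k ∈ H0 c.N ((omega c.R c.N c.P ^ k)⁻¹ * L) := by
  have := mem_mul_iff (s := 1) (L := L / c.ω ^ k) (H0.pow_mem c.sg_mem k)
    fun z => pow_ne_zero k (c.sg_ne z)
  rw [one_mul, div_pow, div_mul_div_cancel, div_eq_inv_mul] at this
  exact ⟨fun h => this.2 h.mem0, fun h => (this.1 h).1⟩

namespace Ch

variable {ch : Ch ι J}

section crep

variable {x x' : ch.W (Mk ν κ)} {c c' : AC ν κ} {A : ι → LB c.R} {π : c.X → V ch.M}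
  {u : c.X → ∀ l, ch.E l →L[ℂ] ℂ}

theorem CRep.eqv (h : CRep x c A π) : Eqv (bz A ch.χ) (c.ω ^ ch.k) := by
  rw [Eqv, div_eq_inv_mul]; exact h.triv

theorem CRep.orb (h : CRep x c A π) (n : Mk ν κ) : Orb (π (c.p n)) (x.p n) :=
  let ⟨_, a, b⟩ := h.mark; ⟨_, a _, b n⟩

theorem CRep.cr (h : CRep x c A π) (hx : x ∈ ch.base _) :
    ∃ u, Cr c.N A x π u c.p (c.sg ^ ch.k) := by
  obtain ⟨u, p, ξ, r⟩ := h.par.exists_cr hx
  exact ⟨u, hx, h.par, r.gr, c.sm, c.inj, h.orb, AC.mem_triv.1 h.eqv,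
    fun z => pow_ne_zero _ (c.sg_ne z), fun y => h.xi y _ (r.gr y)⟩

theorem CRep.of (h : Cr c.N A x π u c.p (c.sg ^ ch.k)) {s : ν ⊕ κ → ι → ℂ}
    (hs : ∀ n, x.p n = s (n.map id Prod.fst) • π (c.p n)) : CRep x c A π := by
  refine ⟨h.par, ⟨s, fun n => ?_, hs⟩, ?_, fun z v e μ => by rw [h.u_eq e]; exact h.Xi z μ⟩
  · obtain ⟨n, rfl⟩ : ∃ n' : Mk ν κ, n'.map id Prod.fst = n :=
      ⟨n.map id fun q => (q, false), by cases n <;> rfl⟩
    exact Dict.unit_of_ne (hs n ▸ h.cur.nod.ne_zero _ (h.mem.2.2.2.1 n).1)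
  · rw [← div_eq_inv_mul]; exact AC.mem_triv.2 h.xi

theorem CRep.mem_baseF (h : CRep x c A π) (hx : x ∈ ch.base _) {B : Set (Λ → ℂ)} {l : Λ → ℂ}
    (hl : l ∈ B) : (l, x) ∈ ch.baseF ν κ B := by
  obtain ⟨u, r⟩ := h.cr hx
  obtain ⟨s, -, e⟩ := h.mark
  refine ⟨hl, hx, fun q => (r.lead_iff (e _) (e _) _).2 ?_⟩
  simp only [Pi.pow_apply, AC.sg_true, AC.sg_false, Sum.map_inr]
  rw [mul_left_comm, ← mul_pow, neg_mul_neg, one_mul]

/-- **every point of `baseF` represents a curve** -/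
theorem exists_crep {v : ι → ℤ} (hv : ∑ i, ch.χ i * v i = 1) {B : Set (Λ → ℂ)} {x : ch.WF ν κ Λ}
    (hx : x ∈ ch.baseF ν κ B) : ∃ c A π, CRep x.2 c A π := by
  classical
  obtain ⟨X, _, _, _, Q, N, A, π, u, p, ξ, r⟩ := exists_cr hx.2.1
  choose t t0 ht using r.mark
  let c : AC ν κ := ⟨X, Q, N, p, r.par.nd, r.inj, r.sm⟩
  have nm : ∀ y, ¬Sm N y → ¬∃ n, p n = y := fun y h ⟨n, e⟩ => h (e ▸ r.sm n)
  obtain ⟨A₁, u₁, r₁⟩ := r.rescale (c := extend p t 1) (fun y i => by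
    by_cases e : ∃ n, p n = y
    · obtain ⟨n, rfl⟩ := e
      rw [r.inj.extend_apply]; exact t0 n i
    · rw [extend_apply' _ _ _ e]; exact one_ne_zero) fun n hn => by
      rw [extend_apply' _ _ _ (nm _ (Xi.not_sm_fst hn)),
        extend_apply' _ _ _ (nm _ (Xi.not_sm_snd hn))]; rfl
  generalize (fun y => ξ y * ∏ i, extend p t 1 y i ^ ch.χ i) = ξ₁ at r₁
  have e₁ : ∀ n, x.2.p n = (1 : ι → ℂ) • extend p t 1 (p n) • π (p n) := fun n => by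
    rw [r.inj.extend_apply, one_smul, ht]
  have e₂ := fun q => (r₁.lead_iff (e₁ _) (e₁ _) _).1 (hx.2.2 q)
  have w0 : ∀ y i, (c.sg y ^ ch.k / ξ₁ y) ^ v i ≠ 0 := fun y i =>
    zpow_ne_zero _ (div_ne_zero (pow_ne_zero _ (c.sg_ne y)) (r₁.ne y))
  obtain ⟨A₂, u₂, r₂⟩ := r₁.rescale (c := fun y i => (c.sg y ^ ch.k / ξ₁ y) ^ v i) w0
    fun n hn => by rw [r₁.xi.2 n hn, c.sg_mem.2 n hn]
  have e₃ : (fun y => ξ₁ y * ∏ i, ((c.sg y ^ ch.k / ξ₁ y) ^ v i) ^ ch.χ i) = c.sg ^ ch.k :=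
    funext fun y => by
      simp only [← zpow_mul, mul_comm (v _)]
      rw [← zpow_sum_ne (div_ne_zero (pow_ne_zero _ (c.sg_ne y)) (r₁.ne y)), hv, zpow_one,
        mul_div_cancel₀ _ (r₁.ne y), Pi.pow_apply]
  refine ⟨c, A₂, _, .of (e₃ ▸ r₂) (s := fun n i => ((c.sg (p (n.map id fun q => (q, false))) ^ ch.k /
    ξ₁ (p (n.map id fun q => (q, false)))) ^ v i)⁻¹) fun n => ?_⟩
  rw [e₁, one_smul]
  refine (Dict.inv_smul (w0 (p n)) _).symm.trans (congrArg (· • _) (funext fun i => ?_))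
  rcases n with n | ⟨q, _ | _⟩
  · rfl
  · rfl
  · have := e₂ q
    simp only [Pi.one_apply, one_zpow, Finset.prod_const_one, one_mul] at this
    have a : c.sg (p _) = _ := c.sg_true q
    have b : c.sg (p _) = _ := c.sg_false q
    simp only [Pi.inv_apply, Sum.map_inr, a, b, this, one_pow]
    rw [one_div, mul_inv, ← inv_pow, inv_neg, inv_one, div_eq_mul_inv]

end crep

variable (ch) in
/-- The characters `χ` and `ℓ r` are a basis of the character lattice, and the fields have the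
weights of `F`. -/
structure Lat (F : Wt S Λ R J) (ℓ : R → ι → ℤ) : Prop where
  wd : ∀ j i, ch.wd j i = ∑ r, F.w j r * ℓ r i
  dual : ∃ v : Option R → ι → ℤ, (∀ o, ∑ i, o.elim ch.χ ℓ i * v o i = 1) ∧
    (∀ o o', o' ≠ o → ∑ i, o.elim ch.χ ℓ i * v o' i = 0) ∧
    ∀ i, (fun i' => ∑ o, v o i * o.elim ch.χ ℓ i') = Pi.single i 1

/-- The data behind `Rep`. -/
structure RepD (ℓ : R → ι → ℤ) (A : Set J) (x : ch.WF ν κ Λ) (m : AM Λ R J ν κ) (B : ι → LB m.R)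
    (π : m.X → V ch.M) (u : m.X → ∀ l, ch.E l →L[ℂ] ℂ) (s : ν ⊕ κ → ι → ℂ) : Prop where
  l : x.1 = m.l
  cr : Cr m.N B x.2 π u m.p (m.sg ^ ch.k)
  mark : ∀ n, x.2.p n = s (n.map id Prod.fst) • π (m.p n)
  L : ∀ r, Eqv (bz B (ℓ r)) (m.L r)
  ind : ∀ j ∈ A, Ind x.2 π u j (m.y j)

variable {W : Wt S Λ R J} {F : Fam S Λ R J K} {ℓ : R → ι → ℤ} {A A' : Set J}
  {x x' : ch.WF ν κ Λ} {m m' : AM Λ R J ν κ} {B : ι → LB m.R} {π : m.X → V ch.M}
  {u : m.X → ∀ l, ch.E l →L[ℂ] ℂ} {s : ν ⊕ κ → ι → ℂ} {B' : ι → LB m'.R} {π' : m'.X → V ch.M}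
  {u' : m'.X → ∀ l, ch.E l →L[ℂ] ℂ} {s' : ν ⊕ κ → ι → ℂ}

theorem Rep.exists_data (h : Rep ℓ A x m) (hx : x.2 ∈ ch.base _) :
    ∃ B π u s, RepD ℓ A x m B π u s := by
  obtain ⟨a, B, π, b, c, d⟩ := h
  obtain ⟨u, r⟩ := b.cr hx
  obtain ⟨s, -, e⟩ := b.mark
  exact ⟨B, π, u, s, a, r, e, c, fun j hj y => (r.val_iff' y).1 (d j hj y)⟩

theorem Rep.mono (h : Rep ℓ A x m) (e : A' ⊆ A) : Rep ℓ A' x m :=
  let ⟨a, B, π, b, c, d⟩ := h; ⟨a, B, π, b, c, fun j hj => d j (e hj)⟩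

namespace RepD

variable (h : RepD ℓ A x m B π u s)
include h

theorem crep : CRep x.2 m.toAC B π := .of h.cr h.mark

theorem val {j : J} (hj : j ∈ A) (z : m.X) : Val x.2 j (π z) (m.y j z) :=
  (h.cr.val_iff' z).2 (h.ind j hj z)

theorem rep : Rep ℓ A x m := ⟨h.l, B, π, h.crep, h.L, fun _ => h.val⟩

theorem ne (n : ν ⊕ κ) (i : ι) : s n i ≠ 0 := by
  obtain ⟨n, rfl⟩ : ∃ n' : Mk ν κ, n'.map id Prod.fst = n :=
    ⟨n.map id fun q => (q, false), by cases n <;> rfl⟩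
  exact Dict.unit_of_ne (h.mark n ▸ h.cr.cur.nod.ne_zero _ (h.cr.mem.2.2.2.1 n).1) i

theorem eqv_wd (hw : ∀ j i, ch.wd j i = ∑ r, W.w j r * ℓ r i) (j : J) :
    Eqv (bz B (ch.wd j)) (bz m.L (W.w j)) := by
  rw [show ch.wd j = _ from funext (hw j), ← bz_bz]
  exact .bz h.L _

theorem fld_smul (hw : ∀ j i, ch.wd j i = ∑ r, W.w j r * ℓ r i) {j : J} (hj : j ∈ A) (z : m.X)
    {t : ι → ℂ} (ht : ∀ i, t i ≠ 0) : fld x.2 (t • π z) j =
      (W.actT (1, fun r => ∏ i, t i ^ ℓ r i) (m.vl z)).2 j := by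
  rw [h.cr.fld_smul (h.ind j hj) z ht]
  simp [Wt.actT, AM.vl, prod_prod_zpow ht, hw]

theorem unit {t : ι → ℂ} (ht : ∀ i, t i ≠ 0) :
    IsUnit ((1, fun r => ∏ i, t i ^ ℓ r i) : (S → ℂ) × (R → ℂ)) :=
  Prod.isUnit_iff.2 ⟨isUnit_one, isUnit_pi_iff.2 fun _ => prod_zpow_ne ht _⟩

theorem actF {a : ch.AF ν κ S} (ha : IsUnit a) : RepD ℓ A (actF W a x) (m.scl W a.1) B
    (fun y i => a.2.1 i (π y i)) (fun y l => u y l ∘L Ring.inverse (a.2.2.1 l))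
    (a.2.2.2 * s) := by
  refine ⟨congrArg (W.actL a.1) h.l, (h.cr.setX _).act (isUnit_dupF ha), fun n => ?_, h.L,
    fun j hj => Ind.act (isUnit_dupF ha) fun y μ => ?_⟩
  · rw [actF_p, h.mark]
    funext i
    simp [dup, AM.scl, mul_smul]
  · exact (map_smul (u y _) _ _).trans ((congrArg _ (h.ind j hj y μ)).trans (mul_assoc _ _ _).symm)

/-- two maps represented by the same point are isomorphic -/
theorem isoD (hw : ∀ j i, ch.wd j i = ∑ r, W.w j r * ℓ r i) (h' : RepD ℓ A x m' B' π' u' s') :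
    ∃ (e : m.X ≃ m'.X) (c : m.X → ι → ℂ), (∀ y, π' (e y) = c y • π y) ∧ (∀ y i, c y i ≠ 0) ∧
      AM.IsoD W A m m' e (fun r y => ∏ i, c y i ^ ℓ r i) 1 := by
  obtain ⟨e, c, he, a, b, c0, d⟩ := h.cr.par.exists_iso h'.cr.par
  have hp : ∀ n, e (m.p n) = m'.p n := fun n => h'.cr.orb_mark.1
    ⟨c (m.p n) * (s (n.map id Prod.fst))⁻¹, by
      rw [b, h.mark, mul_smul, Dict.inv_smul (h.ne _)]⟩
  have hc : ∀ n, s' (n.map id Prod.fst) * c (m.p n) = s (n.map id Prod.fst) := fun n =>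
    Dict.smul_cancel (h.cr.par.ne _) (by rw [mul_smul, ← b, hp, ← h'.mark, h.mark])
  refine ⟨e, c, b, c0, he, isUnit_one, a, hp, fun r => ?_, fun r y => prod_zpow_ne (c0 y) _,
    fun r q => ?_, by rw [W.actL_one, ← h.l, h'.l], fun j hj y => ?_⟩
  · have := bz_mem d c0 (ℓ r)
    rw [bz_div, ← he.pb_bz, div_eq_mul_inv] at this
    rw [div_eq_mul_inv, ← zpow_neg_one]
    rw [← zpow_neg_one] at this
    exact ((((h'.L r).pb he).mul ((h.L r).zpow _)).H0).1 this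
  · exact congrArg (fun t : ι → ℂ => ∏ i, t i ^ ℓ r i) (funext fun i => mul_left_cancel₀
      (h'.ne (.inr q) i) ((congrFun (hc (.inr (q, false))) i).trans
        (congrFun (hc (.inr (q, true))) i).symm))
  · rw [← h.fld_smul hw hj y (c0 y), ← b, h'.cr.fld_π (h'.ind j hj)]

omit h in
/-- transport along an isomorphism -/
theorem of_isoD (hl : ch.Lat W ℓ) (h : RepD ℓ A x m' B' π' u' s') {e : m.X ≃ m'.X}
    {t : R → m.X → ℂ} (a : AM.IsoD W A m m' e t 1) : ∃ (B : _) (c : m.X → ι → ℂ) (u s : _),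
      (∀ y i, c y i ≠ 0) ∧ (∀ y r, ∏ i, c y i ^ ℓ r i = (t r y)⁻¹) ∧
      RepD ℓ A x m B (fun y => c y • π' (e y)) u s := by
  classical
  obtain ⟨v, v1, v2, -⟩ := hl.dual
  obtain ⟨w, w1, w2, w0, w3, w4⟩ := AC.exists_omega a.liso a.node a.mark
  let g : m.X → Option R → ℂ := fun y o => o.elim (w y ^ ch.k) fun r => (t r y)⁻¹
  let G : Option R → LB m.R := fun o =>
    o.elim ((m.ω / a.liso.pb m'.ω) ^ ch.k) fun r => (a.liso.pb (m'.L r) / m.L r)⁻¹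
  have g0 : ∀ y o, g y o ≠ 0 := fun y o =>
    o.rec (pow_ne_zero _ (w0 y)) fun r => inv_ne_zero (a.ne r y)
  have hg : ∀ o, (fun y => g y o) ∈ H0 m.N (G o) := fun o =>
    o.rec (H0.pow_mem w2 _) fun r => H0.inv_mem (a.mem r) (a.ne r)
  have v3 : ∀ o : Option R, (fun o' => ∑ i, o.elim ch.χ ℓ i * v o' i) = Pi.single o 1 := fun o =>
    funext fun o' => by
      by_cases e : o' = o
      · rw [e, v1, Pi.single_eq_same]
      · rw [v2 _ _ e, Pi.single_eq_of_ne e]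
  let c : m.X → ι → ℂ := fun y i => ∏ o, g y o ^ v o i
  have c0 : ∀ y i, c y i ≠ 0 := fun y i => prod_zpow_ne (g0 y) _
  have cp : ∀ y (o : Option R), ∏ i, c y i ^ o.elim ch.χ ℓ i = g y o := fun y o => by
    simp only [c, prod_prod_zpow (g0 y), congrFun (v3 o)]
    rw [Finset.prod_eq_single o (fun o' _ e => by simp [e]) (by simp), Pi.single_eq_same, zpow_one]
  have r := h.cr.comp a.liso m.nd a.node a.mark (c := c)
    (A := fun i => a.liso.pb (B' i) * bz G fun o => v o i)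
    (fun i => by rw [mul_div_cancel_left]; exact bz_mem hg g0 _) c0 w1 w0 w4
  have e₁ : (fun y => (m'.sg ^ ch.k) (e y) * (∏ i, c y i ^ ch.χ i) / w y ^ ch.k) = m.sg ^ ch.k :=
    funext fun y => by
      rw [show ∏ i, c y i ^ ch.χ i = w y ^ ch.k from cp y none,
        mul_div_cancel_right₀ _ (pow_ne_zero _ (w0 y)), Pi.pow_apply, AC.sg_comp a.mark, Pi.pow_apply]
  have cl : ∀ y r, ∏ i, c y i ^ ℓ r i = (t r y)⁻¹ := fun y r => cp y (some r)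
  refine ⟨_, c, _, fun n => s' n / c (m.p (n.map id fun q => (q, false))), c0, cl,
    h.l.trans (a.l.trans (W.actL_one _)), e₁ ▸ r, fun n => ?_, fun r => ?_, fun j hj y μ => ?_⟩
  · have : c (m.p ((n.map id Prod.fst).map id fun q => (q, false))) = c (m.p n) := by
      rcases n with n | ⟨q, _ | _⟩
      · rfl
      · rfl
      · simp only [c, g, Sum.map_inr, w3, a.mt _ q]
    rw [this, div_eq_mul_inv, mul_smul, Dict.inv_smul (c0 _), a.mark, h.mark]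
  · rw [bz_mul, ← a.liso.pb_bz, bz_bz, show (fun o => ∑ i, ℓ r i * v o i) = _ from v3 (some r),
      bz_single, zpow_one]
    simpa [G] using ((h.L r).pb a.liso).mul (.refl (G (some r)))
  · refine ((h.ind j hj).comp e c0 y μ).trans (congrArg (· * _) ?_)
    simp only [a.y j hj, Wt.actT, AM.vl, hl.wd, ← prod_prod_zpow (c0 y), cl, Pi.one_apply, one_zpow,
      Finset.prod_const_one, one_mul, inv_zpow, Finset.prod_inv_distrib]
    exact inv_mul_cancel_left₀ (prod_zpow_ne (fun r => a.ne r y) _) _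

/-- two points representing the same map differ by a change of frames -/
theorem exists_unit (hl : ch.Lat W ℓ) (hc : ∀ l, ch.a l ≠ 0) (ht : ch.Tight) {B₂ π₂ u₂ s₂}
    (h' : RepD ℓ A x' m B₂ π₂ u₂ s₂) : ∃ a : ch.A (ν ⊕ κ), IsUnit a ∧
      (∀ y i, a.1 i (π y i) = π₂ y i) ∧ (∀ y l v, u₂ y l (a.2.1 l v) = u y l v) ∧
      a.2.2 = s₂ / s ∧ x'.2.Q = (act (dup a) x.2).Q ∧ x'.2.p = (act (dup a) x.2).p ∧
      x'.2.Ξ = (act (dup a) x.2).Ξ ∧ ∀ j ∈ A, x'.2.X j = (act (dup a) x.2).X j := by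
  obtain ⟨v, -, -, v5⟩ := hl.dual
  have e : ∀ i, Eqv (B i) (B₂ i) := fun i => by
    have q : ∀ C : ι → LB m.R, C i = bz (fun o : Option R => bz C (o.elim ch.χ ℓ)) fun o => v o i :=
      fun C => by rw [bz_bz, v5, bz_single, zpow_one]
    rw [q B, q B₂]
    exact .bz (fun o => o.rec (h.crep.eqv.trans h'.crep.eqv.symm)
      fun r => (h.L r).trans (h'.L r).symm) _
  obtain ⟨a, a0, a1, a2, a3, a4, a5⟩ := h.cr.exists_unit (h'.cr.eqv e) hc (ht.eq h.cr.mem)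
  have b : dup (a.1, a.2.1, s₂ / s) = a := Prod.ext rfl (Prod.ext rfl (funext fun n => by
    refine Dict.smul_cancel (c := s (n.map id Prod.fst) • π₂ (m.p n))
      (smul_ne (h.ne _) (h'.cr.par.ne _)) ?_
    have := congrFun a4 n
    rw [act_p, h.mark, h'.mark] at this
    change (s₂ _ / s _) • _ = _
    rw [div_eq_mul_inv, mul_smul, Dict.inv_smul (h.ne _), this]
    funext i
    simp [← a1]))
  have a0' := isUnit_iff.1 a0
  refine ⟨(a.1, a.2.1, s₂ / s), isUnit_iff.2 ⟨a0'.1, a0'.2.1, fun n i =>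
    div_ne_zero (h'.ne n i) (h.ne n i)⟩, a1, a2, rfl, b.symm ▸ a3, b.symm ▸ a4, b.symm ▸ a5,
    fun j hj => h'.cr.X_ext (h'.ind j hj) ?_⟩
  rw [b]
  convert (h.ind j hj).act a0 using 2 with y y
  · exact funext fun i => (a1 y i).symm
  · refine funext fun l => ContinuousLinearMap.ext fun w => ?_
    rw [ContinuousLinearMap.comp_apply, ← a2, ap_inv (a0'.2.1 l)]

theorem mem_crv {c : V ch.M} :
    c ∈ crv x.2 ↔ ∃ z, ∃ t : ι → ℂ, (∀ i, t i ≠ 0) ∧ c = t • π z := h.cr.par.img c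

theorem sec (hw : ∀ j i, ch.wd j i = ∑ r, W.w j r * ℓ r i) {j : J} (hj : j ∈ A) :
    m.y j ∈ H0 m.N (bz m.L (W.w j)) := (h.eqv_wd hw j).H0.1 (h.cr.ind_mem (h.ind j hj))

theorem mem_baseF {Z : Set (Λ → ℂ)} : x ∈ ch.baseF ν κ Z ↔ m.l ∈ Z :=
  ⟨fun a => h.l ▸ a.1, fun a => h.crep.mem_baseF h.cr.mem (h.l ▸ a)⟩

theorem exists_val {j : J} (hj : j ∈ A) {c : V ch.M} (hc : c ∈ crv x.2) : ∃ y, Val x.2 j c y :=
  h.cr.exists_ind_iff.1 ⟨_, h.ind j hj⟩ c hc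

theorem fld_p {j : J} (hj : j ∈ A) (n : Mk ν κ) : fld x.2 (x.2.p n) j =
    (∏ i, s (n.map id Prod.fst) i ^ ch.wd j i) * m.y j (m.p n) := by
  rw [h.mark, h.cr.fld_smul (h.ind j hj) _ (h.ne _)]

theorem mt_iff {j : J} (hj : j ∈ A) : (∀ q : κ, fld x.2 (x.2.p (.inr (q, false))) j =
    fld x.2 (x.2.p (.inr (q, true))) j) ↔ m.Mt (m.y j) :=
  forall_congr' fun q => by
    rw [h.fld_p hj, h.fld_p hj]
    exact mul_right_inj' (prod_zpow_ne (h.ne _) _)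

theorem mem_adm (hF : F.Inv) (hw : ∀ j i, ch.wd j i = ∑ r, F.w j r * ℓ r i) (hA : F.movᶜ ⊆ A) :
    x ∈ ch.adm ν κ F ↔ m.l ∈ F.B ∧ (∀ z, m.vl z ∈ F.E) ∧ (∀ j ∈ F.zer, m.y j = 0) ∧
      ∀ j ∉ F.mov, m.Mt (m.y j) := by
  have z : ∀ j ∈ F.zer, x.2.X j = 0 ↔ m.y j = 0 := fun j hj => by
    have a := h.ind j (hA (disjoint_left.1 hF.zer_base hj))
    exact ⟨fun e => h.cr.ind_unique a (h.cr.ind_zero.2 e), fun e => h.cr.ind_zero.1 (e ▸ a)⟩
  refine ⟨fun ⟨a, _, b, c, d⟩ => ⟨h.mem_baseF.1 a, fun y => hF.baseE _ _ _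
    (fun j hj => h.cr.fld_π (h.ind j (hA hj)) y) (h.l ▸ b _ (h.cr.par.mem y)),
    fun j hj => (z j hj).1 (c j hj), fun j hj => (h.mt_iff (hA hj)).1 (d j hj)⟩,
    fun ⟨a, b, c, d⟩ => ⟨h.mem_baseF.2 a, fun j hj _ => h.exists_val (hA hj), fun y hy => ?_,
      fun j hj => (z j hj).2 (c j hj), fun j hj => (h.mt_iff (hA hj)).2 (d j hj)⟩⟩
  obtain ⟨y, t, ht, rfl⟩ := h.mem_crv.1 hy
  refine hF.baseE _ _ _ (fun j hj => (h.fld_smul hw (hA hj) y ht).symm) ?_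
  simpa [Wt.actT, Wt.actL_one, AM.vl, h.l] using hF.invE _ (h.unit ht) _ (b y)

theorem mem_main (hw : ∀ j i, ch.wd j i = ∑ r, F.w j r * ℓ r i) (hA : F.movᶜ ⊆ A)
    (hx : x ∈ ch.adm ν κ F) {a : ν → J → ℕ} : x ∈ ch.main κ F a ↔ m.Main F a := by
  classical
  have e : ∀ {j y} {t : ι → ℂ}, (∀ i, t i ≠ 0) → (∑ n, if ∃ r : ι → ℂ, t • π y = r • x.2.p (.inl n)
      then a n j else 0) = ∑ n, if y = m.p (.inl n) then a n j else 0 := fun {j y t} ht =>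
    Finset.sum_congr rfl fun n _ => if_congr (.trans ⟨fun ⟨r, e⟩ => ⟨t⁻¹ * r, by
      rw [mul_smul, ← e, Dict.inv_smul ht]⟩, fun ⟨r, e⟩ => ⟨t * r, by rw [e, mul_smul]⟩⟩
        h.cr.orb_mark) rfl rfl
  have f : ∀ j n, (∑ n', if m.p (.inl n) = m.p (.inl n') then a n' j else 0) = a n j := fun j n => by
    simp [m.inj.eq_iff]
  refine ⟨fun b => ⟨fun j hj => (h.mt_iff (hA hj)).1 (hx.2.2.2.2 j hj), fun j hj hz => ?_⟩,
    fun b => ⟨hx, fun j hj hz γ hγ => ?_⟩⟩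
  · have k : ∀ y, (bz m.L (F.w j)).ord (m.y j) y =
        (∑ n, if y = m.p (.inl n) then a n j else 0 : ℕ) := fun y => by
      have := b.2 j hj hz _ (h.cr.par.isBranch y)
      rwa [h.cr.order_br (h.ind j (hA hj)), (h.eqv_wd (W := F.toWt) hw j).ord, br_zero,
        ← one_smul (ι → ℂ) (π y), e (t := 1) fun _ => one_ne_zero] at this
    exact ⟨fun n => by rw [k, f], fun z hz => (LB.ord_eq_zero ((h.sec (W := F.toWt) hw
      (hA hj)).1 z)).1 (by rw [k]; simp [hz])⟩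
  · obtain ⟨y, ⟨t, ht, c⟩, d⟩ := h.cr.order_eq (h.ind j (hA hj)) hγ
    rw [d, c, (h.eqv_wd (W := F.toWt) hw j).ord]
    refine .trans ?_ (congrArg _ (e ht).symm)
    by_cases k : ∃ n, y = m.p (.inl n)
    · obtain ⟨n, rfl⟩ := k
      rw [(b.2 j hj hz).1, f]
    · push Not at k
      rw [(LB.ord_eq_zero ((h.sec (W := F.toWt) hw (hA hj)).1 y)).2 ((b.2 j hj hz).2 y k)]
      simp [k]

theorem conn : m.Conn ↔ IsConnected (crv x.2) := h.cr.par.isConnected_iff.symm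

theorem typ : m.Typ ch.g fun r => ∑ i, ℓ r i * ch.m i :=
  ⟨h.cr.gen_eq, fun r => by simp only [← (h.L r).deg, deg_bz, h.cr.deg_eq]⟩

omit h

theorem vl_smul (h : RepD ℓ univ x m B π u s) (hw : ∀ j i, ch.wd j i = ∑ r, W.w j r * ℓ r i)
    (z : m.X) {t : ι → ℂ} (ht : ∀ i, t i ≠ 0) :
    (x.1, fld x.2 (t • π z)) = W.actT (1, fun r => ∏ i, t i ^ ℓ r i) (m.vl z) :=
  Prod.ext (h.l.trans (W.actL_one _).symm) (funext fun j => h.fld_smul hw (mem_univ j) z ht)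

theorem vl_π (h : RepD ℓ univ x m B π u s) (z : m.X) : (x.1, fld x.2 (π z)) = m.vl z :=
  Prod.ext h.l (funext fun j => h.cr.fld_π (h.ind j trivial) z)

theorem vl (h : RepD ℓ univ x m B π u s) (hw : ∀ j i, ch.wd j i = ∑ r, W.w j r * ℓ r i)
    (n : Mk ν κ) : vl x n =
      W.actT (1, fun r => ∏ i, s (n.map id Prod.fst) i ^ ℓ r i) (m.vl (m.p n)) := by
  rw [← h.vl_smul hw _ (h.ne _), ← h.mark, Ch.vl]

theorem mem_solF (h : RepD ℓ univ x m B π u s) (hF : F.Inv)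
    (hw : ∀ j i, ch.wd j i = ∑ r, F.w j r * ℓ r i) : x ∈ ch.solF ν κ F ↔ m.Sol F := by
  refine Ch.mem_solF.trans ⟨fun ⟨a, b⟩ => ⟨h.mem_baseF.1 a, fun j => h.sec hw trivial,
    fun z => h.vl_π z ▸ (b _ (h.cr.par.mem z)).2⟩, fun ⟨a, _, b⟩ => ⟨h.mem_baseF.2 a,
      fun c hc => ⟨fun j => h.exists_val trivial hc, ?_⟩⟩⟩
  obtain ⟨y, t, ht, rfl⟩ := h.mem_crv.1 hc
  exact h.vl_smul (W := F.toWt) hw y ht ▸ hF.cone_act (h.unit ht) (b y)

end RepD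

/-- **every point represents an abstract map** -/
theorem exists_am {v : ι → ℤ} (hv : ∑ i, ch.χ i * v i = 1) (ℓ : R → ι → ℤ) {Z : Set (Λ → ℂ)}
    (hx : x ∈ ch.baseF ν κ Z) (hA : ∀ j ∈ A, ∀ c ∈ crv x.2, ∃ y, Val x.2 j c y) :
    ∃ m, Rep ℓ A x m := by
  obtain ⟨c, B, π, h⟩ := exists_crep hv hx
  exact ⟨⟨c, fun r => bz B (ℓ r), x.1, fun j z => fld x.2 (π z) j⟩, rfl, B, π, h,
    fun r => Eqv.refl _, fun j hj z => val_fld (hA j hj _ (h.par.mem z))⟩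

theorem Lat.exists_rep (hl : ch.Lat W ℓ) {Z : Set (Λ → ℂ)} (hx : x ∈ ch.baseF ν κ Z)
    (hA : ∀ j ∈ A, ∀ c ∈ crv x.2, ∃ y, Val x.2 j c y) : ∃ m, Rep ℓ A x m :=
  let ⟨_, a, _⟩ := hl.dual; exists_am (a none) ℓ hx hA

theorem Lat.exists_rep_sol {ℓ : R → ι → ℤ} (hl : ch.Lat W ℓ) (hx : x ∈ ch.solF ν κ F) :
    ∃ m, Rep ℓ univ x m :=
  hl.exists_rep hx.1 fun j _ c hc => ((Ch.mem_solF.1 hx).2 c hc).1 j

theorem Lat.exists_rep_adm {ℓ : R → ι → ℤ} (hl : ch.Lat W ℓ) (hx : x ∈ ch.adm ν κ F) :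
    ∃ m, Rep ℓ F.movᶜ x m := hl.exists_rep hx.1 hx.2.1

namespace Rep

variable (h : Rep ℓ A x m) (hx : x.2 ∈ ch.base _)
include h hx

theorem actF {a : ch.AF ν κ S} (ha : IsUnit a) : Rep ℓ A (actF W a x) (m.scl W a.1) :=
  let ⟨_, _, _, _, d⟩ := h.exists_data hx; (d.actF ha).rep

/-- **same point, isomorphic maps** -/
theorem iso (hw : ∀ j i, ch.wd j i = ∑ r, W.w j r * ℓ r i) (h' : Rep ℓ A x m') :
    AM.Iso W A m m' :=
  let ⟨_, _, _, _, d⟩ := h.exists_data hx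
  let ⟨_, _, _, _, d'⟩ := h'.exists_data hx
  let ⟨_, _, _, _, a⟩ := d.isoD hw d'
  a.iso

theorem of_isoD (hl : ch.Lat W ℓ) {e : m'.X ≃ m.X} {t : R → m'.X → ℂ}
    (a : AM.IsoD W A m' m e t 1) : Rep ℓ A x m' :=
  let ⟨_, _, _, _, d⟩ := h.exists_data hx
  let ⟨_, _, _, _, _, _, b⟩ := d.of_isoD hl a
  b.rep

/-- **isomorphic maps, same orbit** -/
theorem exists_unit (hl : ch.Lat W ℓ) (hc : ∀ l, ch.a l ≠ 0) (ht : ch.Tight) (h' : Rep ℓ A x' m')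
    (hx' : x'.2 ∈ ch.base _) (e : AM.Iso W A m m') : ∃ a, IsUnit a ∧ x'.1 = (Ch.actF W a x).1 ∧
      x'.2.Q = (Ch.actF W a x).2.Q ∧ x'.2.p = (Ch.actF W a x).2.p ∧
      x'.2.Ξ = (Ch.actF W a x).2.Ξ ∧ ∀ j ∈ A, x'.2.X j = (Ch.actF W a x).2.X j := by
  obtain ⟨e, t, τ, b⟩ := AM.iso_iff.1 e
  have u1 : IsUnit ((τ, 1) : ch.AF ν κ S) := Prod.isUnit_iff.2 ⟨b.unit, isUnit_one⟩
  obtain ⟨_, _, _, _, d⟩ := h.exists_data hx
  obtain ⟨_, _, _, _, d'⟩ := h'.exists_data hx'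
  obtain ⟨_, _, _, _, -, -, d₂⟩ := d'.of_isoD (m := m.scl W τ) (e := e) (t := t) hl
    ⟨b.liso, isUnit_one, b.node, b.mark, b.mem, b.ne, b.mt, b.l.trans (W.actL_one _).symm,
      fun j hj y => (b.y j hj y).trans (by simp [Wt.actT, AM.vl, AM.scl, mul_left_comm, mul_assoc])⟩
  obtain ⟨a, a0, -, -, -, a1⟩ := (d.actF (W := W) u1).exists_unit hl hc ht d₂
  refine ⟨(τ, a), Prod.isUnit_iff.2 ⟨b.unit, a0⟩, d₂.l.trans (congrArg (W.actL τ) d.l.symm), ?_⟩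
  rwa [actF_snd, dup_one, act_one] at a1

theorem sec (hw : ∀ j i, ch.wd j i = ∑ r, W.w j r * ℓ r i) {j : J} (hj : j ∈ A) :
    m.y j ∈ H0 m.N (bz m.L (W.w j)) := let ⟨_, _, _, _, d⟩ := h.exists_data hx; d.sec hw hj

theorem mem_baseF {Z : Set (Λ → ℂ)} : x ∈ ch.baseF ν κ Z ↔ m.l ∈ Z :=
  let ⟨_, _, _, _, d⟩ := h.exists_data hx; d.mem_baseF

theorem mem_adm (hF : F.Inv) (hw : ∀ j i, ch.wd j i = ∑ r, F.w j r * ℓ r i) (hA : F.movᶜ ⊆ A) :
    x ∈ ch.adm ν κ F ↔ m.l ∈ F.B ∧ (∀ z, m.vl z ∈ F.E) ∧ (∀ j ∈ F.zer, m.y j = 0) ∧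
      ∀ j ∉ F.mov, m.Mt (m.y j) := let ⟨_, _, _, _, d⟩ := h.exists_data hx; d.mem_adm hF hw hA

theorem conn : m.Conn ↔ IsConnected (crv x.2) := let ⟨_, _, _, _, d⟩ := h.exists_data hx; d.conn

theorem typ : m.Typ ch.g fun r => ∑ i, ℓ r i * ch.m i :=
  let ⟨_, _, _, _, d⟩ := h.exists_data hx; d.typ

omit h hx

theorem mem_main (h : Rep ℓ A x m) (hw : ∀ j i, ch.wd j i = ∑ r, F.w j r * ℓ r i) (hA : F.movᶜ ⊆ A)
    (hx : x ∈ ch.adm ν κ F) {a : ν → J → ℕ} : x ∈ ch.main κ F a ↔ m.Main F a :=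
  let ⟨_, _, _, _, d⟩ := h.exists_data hx.1.2.1; d.mem_main hw hA hx

theorem mem_solF (h : Rep ℓ univ x m) (hx : x.2 ∈ ch.base _) (hF : F.Inv)
    (hw : ∀ j i, ch.wd j i = ∑ r, F.w j r * ℓ r i) : x ∈ ch.solF ν κ F ↔ m.Sol F :=
  let ⟨_, _, _, _, d⟩ := h.exists_data hx; d.mem_solF hF hw

theorem vl (h : Rep ℓ univ x m) (hx : x.2 ∈ ch.base _)
    (hw : ∀ j i, ch.wd j i = ∑ r, W.w j r * ℓ r i) : ∃ t : ν ⊕ κ → R → ℂ, (∀ n, IsUnit (t n)) ∧
      ∀ n, Ch.vl x n = W.actT (1, t (n.map id Prod.fst)) (m.vl (m.p n)) :=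
  let ⟨_, _, _, s, d⟩ := h.exists_data hx
  ⟨fun n r => ∏ i, s n i ^ ℓ r i, fun n => isUnit_pi_iff.2 fun _ => prod_zpow_ne (d.ne n) _, d.vl hw⟩

/-- **orbits are isomorphism classes** -/
theorem iso_iff (h : Rep ℓ univ x m) (hx : x.2 ∈ ch.base _) (hl : ch.Lat W ℓ)
    (hc : ∀ l, ch.a l ≠ 0) (ht : ch.Tight) (h' : Rep ℓ univ x' m') (hx' : x'.2 ∈ ch.base _) :
    AM.Iso W univ m m' ↔ ∃ a, IsUnit a ∧ x' = Ch.actF W a x := by
  refine ⟨fun e => ?_, fun ⟨a, ha, e⟩ => (AM.iso_scl (isUnit_S ha)).trans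
    (iso (by rw [e]; exact h.actF hx ha) hx' hl.wd h')⟩
  obtain ⟨a, a0, a1, a2, a3, a4, a5⟩ := h.exists_unit hx hl hc ht h' hx' e
  exact ⟨a, a0, Prod.ext a1 (Ch.W.ext (congrFun a2) (congrFun a3) a4 fun j => a5 j trivial)⟩

end Rep

/-- **construction of points** from embedded curves, with prescribed fields in `A` and arbitrary
other fields -/
theorem exists_repD (hc : ch.Cuts) (hh : ∀ l, (ch.h l : ℤ) = ∑ i, ch.a l i * ch.m i + 1 - ch.g)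
    {C : Set (V ch.M)} (h : Par ch.o C m.N B π) (hC : IsCurve ch.o ch.g ch.m C)
    (hω : Eqv (bz B ch.χ) (m.ω ^ ch.k)) (hL : ∀ r, Eqv (bz B (ℓ r)) (m.L r))
    (hy : ∀ j ∈ A, m.y j ∈ H0 m.N (bz B (ch.wd j))) (hs : ∀ n i, s n i ≠ 0) :
    ∃ (x : ch.WF ν κ Λ) (u : _), crv x.2 = C ∧ RepD ℓ A x m B π u s := by
  classical
  obtain ⟨l, hl⟩ := hc.cut
  obtain ⟨Q, Ξ, u, r⟩ := h.exists_base hC hc.ne hh (l := l) (fun i => le_trans (by norm_num) (hl i))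
    (le_trans (by norm_num) (hl _)) m.sm m.inj (AC.mem_triv.1 hω) fun z => pow_ne_zero _ (m.sg_ne z)
  have c := fun G => r (fun n => s (n.map id Prod.fst) • π (m.p n)) G fun n => ⟨_, hs _, rfl⟩
  choose G hG using fun j (hj : j ∈ A) => (c 0).2.exists_field (hc.ne _) (hy j hj)
  exact ⟨(m.l, _), u, (c fun j => if hj : j ∈ A then G j hj else 0).1, rfl, (c _).2, fun _ => rfl,
    hL, fun j hj y μ => (congrArg (fun T : _ →L[ℂ] _ => u y _ (T μ)) (dif_pos hj)).trans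
      (hG j hj y μ)⟩

end Ch

/-! ### The standard chart -/

namespace Fam

variable {F : Fam S Λ R J K} [DecidableEq R] {k D n : ℕ} {g : ℤ} {d : R → ℤ}

theorem sum_ℓs (w : R → ℤ) (o : Option R) : ∑ r, w r * ℓs r o = Tgt.hat w o := by
  cases o <;> simp [ℓs, Tgt.hat, Pi.single_apply]

theorem chart_wd' (j : J) (o : Option R) :
    (F.chart g n d k D).wd j o = ∑ r, F.w j r * ℓs r o := by rw [chart_wd, sum_ℓs]

theorem chart_lat (h : F.BigD k D) : (F.chart g n d k D).Lat F.toWt ℓs := by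
  refine ⟨chart_wd', fun o i => o.elim 1 fun r => k * F.θ r + if i = some r then 1 else 0,
    ?_, ?_, ?_⟩
  all_goals rw [chart_χ g n d h]
  · rintro (_ | r) <;> simp [ℓs, mul_add, Finset.sum_add_distrib, ← Finset.sum_mul,
      Finset.sum_sub_distrib, ← Finset.mul_sum] <;> simp [Tgt.hat]
  · rintro (_ | r) (_ | r') e <;> simp [ℓs, mul_add, Finset.sum_add_distrib, ← Finset.sum_mul,
      Finset.sum_sub_distrib, ← Finset.mul_sum] at e ⊢ <;> simp [Tgt.hat, e]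
  · intro i
    funext i'
    simp only [Fintype.sum_option, Option.elim_none, Option.elim_some, add_mul, mul_assoc,
      Finset.sum_add_distrib, ← Finset.mul_sum, sum_ℓs]
    rcases i with _ | r <;> rcases i' with _ | r' <;> simp [Tgt.hat, Pi.single_apply, eq_comm]

theorem chart_cuts (h : F.BigD k D) : (F.chart g n d k D).Cuts :=
  ⟨chart_a_ne g n d (by have := h.le; omega), none, fun _ => h.le⟩

theorem chart_tight : (F.chart g n d k D).Tight := fun _ => rfl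

variable {A : Set J} {x : (F.chart g n d k D).WF ν κ Λ} {m : AM Λ R J ν κ}

theorem rep_typ (h : Ch.Rep ℓs A x m) (hx : x.2 ∈ Ch.base _ _) : m.Typ g d := by
  have := h.typ hx
  refine ⟨this.1, fun r => (this.2 r).trans ?_⟩
  simp [chart, Tgt.chart, mul_add, Finset.sum_add_distrib, ← Finset.sum_mul, ℓs]
  simp [Tgt.hat, Pi.single_apply]

theorem repD_eqv (hD : F.BigD k D) {B π u s} (h : Ch.RepD ℓs A x m B π u s) (o : Option R) :
    Eqv (B o) (stdA ((m.ω * bz m.L F.θ) ^ k) m.L o) := by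
  have a : Eqv (bz B (Tgt.hat F.θ)) (bz m.L F.θ) := by
    rw [← funext (sum_ℓs F.θ), ← bz_bz]
    exact .bz h.L _
  have b := h.crep.eqv.mul (a.zpow k)
  rw [chart_χ g n d hD, bz_sub, bz_single, ← natCast_zsmul, bz_smul, div_mul_cancel, zpow_one,
    zpow_natCast, ← show k = (F.chart g n d k D).k from rfl, ← mul_pow] at b
  rcases o with _ | r
  · simpa [stdA] using b
  · have c := b.mul (h.L r)
    rwa [ℓs, bz_hat, bz_single, zpow_one, mul_div_cancel] at c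

theorem rep_stable (hD : F.BigD k D) (h : Ch.Rep ℓs A x m) (hx : x.2 ∈ Ch.base _ _) :
    m.Stable F.θ := by
  obtain ⟨B, π, u, s, a⟩ := h.exists_data hx
  have := (repD_eqv hD a none).ge.1 a.cr.par.ge_one
  exact Ge.of_pow (k := k) (by simpa [stdA] using this)

/-- **every stable solution has a point in the standard chart** -/
theorem exists_repD (hk : F.Big k) (hD : F.BigD k D) (hs : m.Sol F) (hb : m.Stable F.θ)
    (ht : m.Typ g d) {s : ν ⊕ κ → Option R → ℂ} (s0 : ∀ n o, s n o ≠ 0) :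
    ∃ (x : (F.sch ν κ k D g d).WF ν κ Λ) (π u : _),
      Ch.RepD ℓs univ x m (stdA ((m.ω * bz m.L F.θ) ^ k) m.L) π u s := by
  obtain ⟨x, π, u, a, b, c⟩ := exists_std hk hD m.nd m.sm m.inj hs.2.1 hs.2.2 m.sg_mem m.sg_ne hb
    ht.1 rfl ht.2 (fun n => s (n.map id Prod.fst)) fun _ => s0 _
  exact ⟨(m.l, x), π, u, rfl, a, c, fun r => by
    rw [ℓs, bz_stdA, bz_single, zpow_one]; exact .refl _, fun j _ => b j⟩

theorem exists_rep (hF : F.Inv) (hk : F.Big k) (hD : F.BigD k D) (hs : m.Sol F)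
    (hb : m.Stable F.θ) (ht : m.Typ g d) :
    ∃ x ∈ (F.sch ν κ k D g d).solF ν κ F, Ch.Rep ℓs univ x m :=
  let ⟨x, _, _, a⟩ := exists_repD hk hD hs hb ht (s := 1) fun _ _ => one_ne_zero
  ⟨x, (a.mem_solF hF chart_wd').2 hs, a.rep⟩

end Fam

end Vale.Agent.P269
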