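import Vale.Agent.P269.Pt.Core

/-!
# Change of the abstract data and of the frames
-/

set_option linter.unusedSectionVars false

namespace Vale.Agent.P269.Cv

open Set Function Topology Filter Module Base Ch

variable {X X' : Type} [TopologicalSpace X] [TopologicalSpace X'] [T2Space X] [CompactSpace X]
  [T2Space X'] [CompactSpace X'] {R : RS X} {R' : RS X'} {N : Finset (X × X)}
  {N' : Finset (X' × X')} {ι J ν : Type} [Fintype ι] [DecidableEq ι] [Fintype J] [Fintype ν]
  {A : ι → LB R} {A' : ι → LB R'}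

section

variable {M M' : ι → ℕ} {o : ι} {π : X → V M} {C : Set (V M)} {g : ℤ} {m : ι → ℤ} {a : ι → ℕ}

theorem Par.congr (h : Par o C N A π) {N₂ : Finset (X × X)} (hN : Nd N₂)
    (e : ∀ x y, Jn N x y ↔ Jn N₂ x y) : Par o C N₂ A π := by
  refine ⟨hN, fun i j => H0_congr (L := A i) e ▸ h.sec i j, h.ne, h.img, fun x y t a =>
    (h.inj x y t a).imp_right (e x y).1, h.imm, fun n hn => ?_⟩
  rcases (e _ _).2 (.inl hn) with a | a
  · exact h.cross _ a
  · obtain ⟨b, d⟩ := li_triple_iff.1 (h.cross _ a)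
    rw [show π (n.2, n.1).1 = π n.1 from node_eq h.sec a] at b d
    exact li_triple_iff.2 ⟨b, fun e e' s k => (d e' e s ((add_comm _ _).trans k)).symm⟩

theorem Par.comp {π : X' → V M} (h : Par o C N' A' π) {f : X ≃ X'} (hf : LIso R R' f) (hN : Nd N)
    (e : ∀ x y, Jn N x y ↔ Jn N' (f x) (f y)) :
    Par o C N (fun i => hf.pb (A' i)) fun y => π (f y) := by
  classical
  refine (h.transport f hf).congr hN fun x y => Iff.trans ?_ (e x y).symm
  have : ∀ x y, (x, y) ∈ N'.image (Prod.map f.symm f.symm) ↔ (f x, f y) ∈ N' := fun x y => by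
    simp only [Finset.mem_image, Prod.exists, Prod.map, Prod.mk.injEq, Equiv.symm_apply_eq]
    exact ⟨fun ⟨_, _, a, b, c⟩ => b ▸ c ▸ a, fun a => ⟨_, _, a, rfl, rfl⟩⟩
  exact or_congr (this _ _) (this _ _)

theorem bz_mem {B : ι → LB R} {c : X → ι → ℂ} (hc : ∀ i, (fun y => c y i) ∈ H0 N (B i))
    (h0 : ∀ y i, c y i ≠ 0) (a : ι → ℤ) : (fun y => ∏ i, c y i ^ a i) ∈ H0 N (bz B a) := by
  have := H0.prod_mem (T := Finset.univ) fun i _ => H0.zpow_mem (hc i) (h0 · i) (a i)
  rwa [show (∏ i, _ : X → ℂ) = fun y => ∏ i, c y i ^ a i from funext fun y => by simp] at this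

theorem bz_div (A B : ι → LB R) (a : ι → ℤ) : bz (fun i => A i / B i) a = bz A a / bz B a := by
  simp only [bz, div_zpow, Finset.prod_div_distrib]

theorem LIso.pb_bz {f : X → X'} (hf : LIso R R' f) (a : ι → ℤ) :
    hf.pb (bz A' a) = bz (fun i => hf.pb (A' i)) a := by
  simp only [bz, map_prod, map_zpow]

variable {T : ∀ i, (Fin (M i) → ℂ) →L[ℂ] Fin (M' i) → ℂ}

theorem br_lin (x : X) (t : ℂ) :
    br A (fun y i => T i (π y i)) x t = fun i => T i (br A π x t i) := by
  simp only [br_eq, funext_iff, Dict.smul_ap, map_smul, implies_true]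

theorem deriv_br_lin (h : ∀ i j, (fun x => π x i j) ∈ H0 N (A i)) (x : X) (i : ι) :
    deriv (br A (fun y i => T i (π y i)) x) 0 i = T i (deriv (br A π x) 0 i) := by
  have a := (an_br h x).differentiableAt.hasDerivAt
  have b := (ContinuousLinearMap.pi fun i => T i ∘L .proj i).hasFDerivAt.comp_hasDerivAt 0 a
  rw [show br A (fun y i => T i (π y i)) x = _ from funext (br_lin x)]
  exact congrFun b.deriv i

theorem Par.lin (h : Par o C N A π) (hT : ∀ i, Injective (T i)) :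
    Par o ((fun c i => T i (c i)) '' C) N A fun y i => T i (π y i) := by
  refine ⟨h.nd, fun i j => lin_mem h.sec i ((.proj j : (_ → ℂ) →L[ℂ] ℂ) ∘L T i), fun x i e => h.ne x i (hT i
    (e.trans (map_zero _).symm)), fun c => ?_, fun x y t e => h.inj x y t (funext fun i => hT i
      ((congrFun e i).trans (map_smul (T i) (t i) _).symm)), fun x => ?_, fun n hn => ?_⟩
  · simp only [mem_image, h.img]
    refine ⟨?_, fun ⟨y, t, a, e⟩ => ⟨_, ⟨y, t, a, rfl⟩, ?_⟩⟩
    · rintro ⟨_, ⟨y, t, a, rfl⟩, rfl⟩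
      exact ⟨y, t, a, funext fun i => map_smul (T i) (t i) _⟩
    · exact e ▸ funext fun i => map_smul (T i) (t i) _
  · exact Dict.li_smul one_ne_zero ((h.imm x).map' (T o).toLinearMap (LinearMap.ker_eq_bot.2 (hT o)))
      fun k => by fin_cases k <;> simp [deriv_br_lin h.sec]
  · exact Dict.li_smul one_ne_zero ((h.cross n hn).map' (T o).toLinearMap
      (LinearMap.ker_eq_bot.2 (hT o))) fun k => by fin_cases k <;> simp [deriv_br_lin h.sec]

theorem IsCurve.lin (hC : IsCurve o g m C) (hT : ∀ i, Injective (T i)) :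
    IsCurve o g m ((fun c i => T i (c i)) '' C) := by
  obtain ⟨X, _, _, _, R, N, A, π, h⟩ := hC.isNodal.exists_par
  choose S hS using fun i => (T i).toLinearMap.exists_leftInverse_of_injective
    (LinearMap.ker_eq_bot.2 (hT i))
  refine (h.lin hT).isCurve_iff.2 fun a ha => ⟨fun s hs => ?_, h.finrank hC ha⟩
  obtain ⟨μ, e⟩ := mem_PP.1 (h.le_PP hC ha hs)
  refine ⟨μ.compContinuousLinearMap fun s => (S s.1).toContinuousLinearMap, fun x => (e x).trans ?_⟩
  exact congrArg μ (funext fun s => (LinearMap.congr_fun (hS s.1) _).symm)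

end

variable {ch : Ch ι J} {x x' : ch.W ν} {π π₂ : X → V ch.M} {π' : X' → V ch.M}
  {u u₂ : X → ∀ l, ch.E l →L[ℂ] ℂ} {u' : X' → ∀ l, ch.E l →L[ℂ] ℂ} {p : ν → X} {p' : ν → X'}
  {ξ : X → ℂ} {ξ' : X' → ℂ} {s : ch.A ν}

theorem isUnit_iff : IsUnit s ↔ (∀ i, IsUnit (s.1 i)) ∧ (∀ l, IsUnit (s.2.1 l)) ∧
    ∀ n i, s.2.2 n i ≠ 0 := by
  simp only [Prod.isUnit_iff, Pi.isUnit_iff, isUnit_iff_ne_zero]

theorem inv_ap {E : Type} [NormedAddCommGroup E] [NormedSpace ℂ E] {T : E →L[ℂ] E} (h : IsUnit T)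
    (v : E) : Ring.inverse T (T v) = v := congrArg (· v) (Ring.inverse_mul_cancel T h)

theorem ap_inv {E : Type} [NormedAddCommGroup E] [NormedSpace ℂ E] {T : E →L[ℂ] E} (h : IsUnit T)
    (v : E) : T (Ring.inverse T v) = v := congrArg (· v) (Ring.mul_inverse_cancel T h)

theorem sub_surj (hs : IsUnit s) {σ : Type} [Fintype σ] (τ : σ → ι) : Surjective (sub s τ) :=
  fun μ => ⟨μ.compContinuousLinearMap fun k => Ring.inverse (s.1 (τ k)),
    ContinuousMultilinearMap.ext fun _ =>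
      congrArg μ (funext fun _ => inv_ap ((isUnit_iff.1 hs).1 _) _)⟩

theorem gr_act (hs : IsUnit s) {c : V ch.M} {u : ∀ l, ch.E l →L[ℂ] ℂ} :
    (fun i => s.1 i (c i), u) ∈ gr (act s x) ↔ (c, fun l => u l ∘L s.2.1 l) ∈ gr x := by
  refine and_congr (forall_congr' fun i => not_congr (map_eq_zero_iff _
    (LeftInverse.injective (inv_ap ((isUnit_iff.1 hs).1 i))))) (forall_congr' fun l => ?_)
  rw [(sub_surj hs _).forall (p := fun μ => (u l ∘L s.2.1 l) (x.Q l μ) = val μ c)]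
  exact forall_congr' fun μ => by rw [Ch.val_sub]; rfl

theorem crv_act (hs : IsUnit s) : crv (act s x) = (fun c i => s.1 i (c i)) '' crv x := by
  obtain ⟨a, b, -⟩ := isUnit_iff.1 hs
  ext c
  refine ⟨fun h => ?_, ?_⟩
  · obtain ⟨u, h⟩ := mem_crv.1 h
    have e : c = fun i => s.1 i (Ring.inverse (s.1 i) (c i)) := funext fun i => (ap_inv (a i) _).symm
    exact ⟨_, mem_crv.2 ⟨_, (gr_act hs).1 (e ▸ h)⟩, e.symm⟩
  · rintro ⟨c, h, rfl⟩
    obtain ⟨u, h⟩ := mem_crv.1 h
    refine mem_crv.2 ⟨fun l => u l ∘L Ring.inverse (s.2.1 l), (gr_act hs).2 ?_⟩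
    convert h using 3
    exact ContinuousLinearMap.ext fun v => congrArg _ (inv_ap (b _) v)

theorem wsec_lin (h : ∀ i j, (fun x => π x i j) ∈ H0 N (A i)) (P : Finset X) (μ : Tn ch.M ch.slot)
    (y : X) : wsec A (fun y i => s.1 i (π y i)) N P μ y = wsec A π N P (sub s _ μ) y := by
  rw [wsec, wsec, wedge_sub, funext (deriv_br_lin h y)]

/-- **change of frames** -/
theorem Cr.act (h : Cr N A x π u p ξ) (hs : IsUnit s) : Cr N A (act s x) (fun y i => s.1 i (π y i))
    (fun y l => u y l ∘L Ring.inverse (s.2.1 l)) p ξ := by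
  obtain ⟨a, b, c⟩ := isUnit_iff.1 hs
  have i : ∀ i, Injective (s.1 i) := fun i => LeftInverse.injective (inv_ap (a i))
  refine .of (crv_act hs ▸ h.par.lin i) (fun l => (RightInverse.surjective (ap_inv (b l))).comp
    ((h.mem.1 l).comp (sub_surj hs _))) (fun l μ e => ?_) (crv_act hs ▸ IsCurve.lin h.cur i)
    (fun y => (gr_act hs).2 ?_) h.sm h.inj (fun n => ?_) h.xi h.ne fun y μ => ?_
  · exact (congrArg (s.2.1 l) (h.u_inj fun y => (h.u_Q _ _ _).trans
      ((Ch.val_sub s μ _).trans (e y)))).trans (map_zero _)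
  · convert h.gr y using 3
    exact ContinuousLinearMap.ext fun v => congrArg _ (inv_ap (b _) v)
  · obtain ⟨t, d, e⟩ := h.mark n
    refine ⟨s.2.2 n * t, fun i => mul_ne_zero (c n i) (d i), funext fun i => ?_⟩
    change s.2.2 n i • s.1 i (x.p n i) = _
    rw [e, Dict.smul_ap, map_smul, smul_smul]
    rfl
  · rw [wsec_lin h.par.sec, ← h.Xi]
    exact congrArg _ (inv_ap (b _) _)

theorem act_mem_base (hx : x ∈ ch.base ν) (hs : IsUnit s) : act s x ∈ ch.base ν :=
  let ⟨_, _, _, _, _, _, _, _, _, _, _, h⟩ := exists_cr hx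
  (h.act hs).mem

theorem chr_χ (t : ι → ℂ) (ht : ∀ i, t i ≠ 0) : chr (ch.a none) t =
    (∏ i, t i ^ ch.χ i) * (chr ch.bω t * (t ch.o * t ch.o) ^ ch.k) := by
  rw [← Xi.prod_bo, ← Finset.prod_mul_distrib]
  exact Finset.prod_congr rfl fun i _ => by
    rw [← zpow_add₀ (ht i), ← zpow_natCast]
    congr 1
    simp [Ch.χ]

open Classical in
/-- **change of the abstract data**: `f` is an isomorphism of pointed curves, `w` the induced
isomorphism of the dualising bundles and `c` are isomorphisms of the bundles -/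
theorem Cr.comp (h : Cr N' A' x π' u' p' ξ') {f : X ≃ X'} (hf : LIso R R' f) (hN : Nd N)
    (e : ∀ x y, Jn N x y ↔ Jn N' (f x) (f y)) (hp : ∀ n, f (p n) = p' n) {c : X → ι → ℂ}
    (hc : ∀ i, (fun y => c y i) ∈ H0 N (A i / hf.pb (A' i))) (h0 : ∀ y i, c y i ≠ 0) {w : X → ℂ}
    (hw : w ∈ H0 N (omega R N (Finset.univ.image p) / hf.pb (omega R' N' (Finset.univ.image p'))))
    (w0 : ∀ y, w y ≠ 0)
    (w1 : ∀ y, Sm N y ∧ y ∉ Finset.univ.image p → w y = R.d (fun z => R'.e (f y) (f z)) y) :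
    Cr N A x (fun y => c y • π' (f y)) (fun y l => chr (ch.a l) (c y) • u' (f y) l) p
      fun y => ξ' (f y) * (∏ i, c y i ^ ch.χ i) / w y ^ ch.k := by
  have sm : ∀ y, Sm N y ↔ Sm N' (f y) := fun y => by
    simp only [sm_iff, e]
    exact (f.surjective.forall (p := fun z => ¬Jn N' (f y) z)).symm
  have par := (h.par.comp hf hN e).of_iso hc h0
  refine ⟨h.mem, par, fun y => gr_smul (h.gr _) (h0 y), fun n => (sm _).2 (hp n ▸ h.sm n),
    fun n n' a => h.inj (by rw [← hp, a, hp]), fun n => Orb.trans (.symm ⟨_, h0 _, rfl⟩)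
      (hp n ▸ h.mark n), ?_, fun y => div_ne_zero (mul_ne_zero (h.ne _)
        (Finset.prod_ne_zero_iff.2 fun i _ => zpow_ne_zero _ (h0 y i))) (pow_ne_zero _ (w0 y)),
    fun y μ => ?_⟩
  · have := H0.mul_mem (H0.mul_mem (hf.pb_mem0 (fun x y a => .inr ((e x y).1 a)) h.xi)
      (bz_mem hc h0 ch.χ)) (H0.inv_mem (H0.pow_mem hw ch.k) fun y => pow_ne_zero _ (w0 y))
    rwa [map_mul, map_inv, map_pow, hf.pb_bz, bz_div, div_pow, mul_assoc _⁻¹, mul_div_cancel,
      inv_div, mul_right_comm, div_eq_mul_inv, inv_mul_cancel_left] at this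
  · have := hf.wsec_eq par.sec h.par.sec (c := fun y => (c y)⁻¹)
      (fun y => (Dict.inv_smul (h0 y) _).symm) (fun i => inv_div (A i) _ ▸ LB.inv_mem (hc i).1 (h0 · i))
      (P := Finset.univ.image p) (P' := Finset.univ.image p') (fun y => and_congr (sm y) (by
        simp [← hp])) w1 μ y
    have a : chr ch.bω (c y)⁻¹ * chr ch.bω (c y) = 1 := by
      rw [← chr_mul, show (c y)⁻¹ * c y = 1 from funext fun i => inv_mul_cancel₀ (h0 y i), chr_one]
    have b := h0 y ch.o
    have d := w0 y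
    rw [eq_inv_of_mul_eq_one_left a, Pi.inv_apply, ← mul_inv, inv_pow, ← mul_inv,
      eq_inv_mul_iff_mul_eq₀ (mul_ne_zero (chr_ne_zero (h0 y)) (by positivity))] at this
    rw [_root_.smul_apply, h.Xi, chr_χ _ (h0 y), ← this, smul_eq_mul]
    field_simp

/-- change of the bundles -/
theorem Cr.of_iso (h : Cr N A x π u p ξ) {B : ι → LB R} {c : X → ι → ℂ}
    (hc : ∀ i, (fun y => c y i) ∈ H0 N (B i / A i)) (h0 : ∀ y i, c y i ≠ 0) :
    Cr N B x (fun y => c y • π y) (fun y l => chr (ch.a l) (c y) • u y l) p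
      fun y => ξ y * ∏ i, c y i ^ ch.χ i := by
  have := h.comp (f := .refl X) (LIso.id R) h.par.nd (fun _ _ => Iff.rfl) (fun _ => rfl) hc h0
    (w := 1) (div_self' (omega R N _) ▸ H0.one_mem) (fun _ => one_ne_zero)
    fun y _ => (R.d_e_self y).symm
  simpa using this

/-- **two points with the same abstract data differ by a change of frames** -/
theorem Cr.exists_unit (h : Cr N A x π u p ξ) (h' : Cr N A x' π₂ u₂ p ξ) (ha : ∀ l, ch.a l ≠ 0)
    (hM : ∀ i, (ch.M i : ℤ) = ch.m i + 1 - ch.g) : ∃ s : ch.A ν, IsUnit s ∧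
      (∀ y i, s.1 i (π y i) = π₂ y i) ∧ (∀ y l v, u₂ y l (s.2.1 l v) = u y l v) ∧
      x'.Q = (Ch.act s x).Q ∧ x'.p = (Ch.act s x).p ∧ x'.Ξ = (Ch.act s x).Ξ := by
  choose S hS using fun i => exists_lift_vec fun j => h.full.span i _ (h'.par.sec i j)
  choose T hT using fun l => exists_lift (u := fun y => u₂ y l) (v := fun y => u y l)
    fun v => h'.u_surj (ha l) (h.u_mem l v)
  choose t a b using h.mark
  choose t' a' b' using h'.mark
  have e : (fun y i => S i (π y i)) = π₂ := funext₂ fun y i => hS i y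
  refine ⟨(S, T, t' / t), isUnit_iff.2 ⟨fun i => isUnit_of_dual fun l d => h'.full.eq_zero
    (by exact_mod_cast (h'.par.finrank_one h'.cur i).trans (hM i).symm)
      fun y => (congrArg l (hS i y)).symm.trans (congrArg (· (π y i)) d),
    fun l => isUnit_of_inj fun v d => h.u_inj fun y => by rw [← hT, d, map_zero],
    fun n i => div_ne_zero (a' n i) (a n i)⟩, fun y i => hS i y, fun y l => hT l y,
    funext fun l => ContinuousLinearMap.ext fun μ => h'.u_ext fun y => ?_, funext₂ fun n i => ?_,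
    ContinuousLinearMap.ext fun μ => h'.u_ext fun y => ?_⟩
  · rw [h'.u_Q, ← congrFun e y]
    exact ((hT l y _).trans ((h.u_Q _ _ _).trans (Ch.val_sub (S, T, t' / t) _ _))).symm
  · change _ = (t' n i / t n i) • S i (x.p n i)
    rw [b, b', Dict.smul_ap, Dict.smul_ap, map_smul, hS, smul_smul, div_mul_cancel₀ _ (a n i)]
  · rw [h'.Xi, ← e, wsec_lin (s := (S, T, t' / t)) h.par.sec, ← h.Xi]
    exact (hT _ y _).symm

end Vale.Agent.P269.Cv
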