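import Vale.Agent.P269.Cv.Cut
import Vale.Agent.P269.Cv.Map
import Vale.Agent.P269.Cv.Xi

/-!
# Isomorphisms of nodal curves; uniqueness of the normalisation
-/

set_option linter.unusedSectionVars false

namespace Vale.Agent.P269.Cv

open Set Function Topology Filter Module Base

variable {X X' : Type} [TopologicalSpace X] [TopologicalSpace X'] {R : RS X} {R' : RS X'}
  {N : Finset (X × X)} {N' : Finset (X' × X')} {ι : Type} [Fintype ι] {M : ι → ℕ} {o : ι}
  {A : ι → LB R} {A' : ι → LB R'} {π : X → V M} {π' : X' → V M} {C : Set (V M)} {f : X → X'}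
  {L : LB R} {L' : LB R'} {s : X → ℂ} {x y : X}

/-- the two branches of a node -/
def Jn (N : Finset (X × X)) (x y : X) : Prop := (x, y) ∈ N ∨ (y, x) ∈ N

theorem Jn.symm (h : Jn N x y) : Jn N y x := Or.symm h

theorem sm_iff : Sm N x ↔ ∀ y, ¬Jn N x y :=
  ⟨fun h _ a => a.elim (fun b => (h _ b).1 rfl) fun b => (h _ b).2 rfl, fun h n hn =>
    ⟨fun e => h n.2 (.inl (e ▸ hn)), fun e => h n.1 (.inr (e ▸ hn))⟩⟩

theorem mem_H0_iff : s ∈ H0 N L ↔ s ∈ L.Γ ∧ ∀ x y, Jn N x y → s x = s y :=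
  and_congr_right fun _ => ⟨fun h _ _ a => a.elim (h _) fun b => (h _ b).symm,
    fun h _ a => h _ _ (.inl a)⟩

theorem Jn.ne (hN : Nd N) (h : Jn N x y) : x ≠ y := fun e =>
  h.elim (fun a => hN.ne _ a _ a e) fun a => hN.ne _ a _ a e.symm

theorem Jn.unique (hN : Nd N) {z : X} (h : Jn N x y) (h' : Jn N x z) : y = z := by
  rcases h with a | a <;> rcases h' with b | b
  · exact congrArg Prod.snd (hN.inj1 a b rfl)
  · exact (hN.ne _ a _ b rfl).elim
  · exact (hN.ne _ b _ a rfl).elim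
  · exact congrArg Prod.fst (hN.inj2 a b rfl)

theorem H0_congr {N₂ : Finset (X × X)} (h : ∀ x y, Jn N x y ↔ Jn N₂ x y) : H0 N L = H0 N₂ L :=
  Submodule.ext fun _ => by simp only [mem_H0_iff, h]

theorem LIso.pb_mem0 (h : LIso R R' f) (hN : ∀ x y, Jn N x y → f x = f y ∨ Jn N' (f x) (f y))
    {s : X' → ℂ} (hs : s ∈ H0 N' L') : (fun y => s (f y)) ∈ H0 N (h.pb L') :=
  mem_H0_iff.2 ⟨h.pb_mem hs.1, fun x y a => (hN x y a).elim (congrArg s) ((mem_H0_iff.1 hs).2 _ _)⟩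

theorem cst_mem0 {c : X → ℂ} (hc : ∀ x, c x ≠ 0) (h : ∀ n ∈ N, c n.1 = c n.2) :
    c ∈ H0 N (LB.cst R c hc) := ⟨LB.cst_mem hc, h⟩

theorem mem_mul_iff {u : X → ℂ} {L₂ : LB R} (hu : u ∈ H0 N L₂) (h0 : ∀ x, u x ≠ 0) :
    s * u ∈ H0 N (L * L₂) ↔ s ∈ H0 N L := by
  refine ⟨fun a => ?_, fun a => H0.mul_mem a hu⟩
  have := H0.mul_mem a (H0.inv_mem hu h0)
  rwa [mul_inv_cancel_right, mul_assoc, show u * u⁻¹ = 1 from funext fun x => mul_inv_cancel₀ (h0 x),
    mul_one] at this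

/-- the branches of two presentations that differ by isomorphisms of the bundles -/
theorem br_of_eq (h : LIso R R' f) {c : X → ι → ℂ} (e : ∀ y, π' (f y) = c y • π y) (x : X) :
    ∀ᶠ t in 𝓝 0, br A' π' (f x) (R'.e (f x) (f (R.i x t))) =
      (fun i => (h.pb (A' i) / A i).loc (fun y => c y i) x t) • br A π x t :=
  ((R.tends_i x).eventually (h.ev_src x)).mono fun t ht => funext₂ fun i j => by
    have := (A i).ne x (R.i x t)
    simp only [br, LB.loc, R'.i_e ht, e, Pi.smul_apply', Pi.smul_apply, smul_eq_mul, LB.div_φ,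
      LIso.pb_φ]
    field_simp

variable [T2Space X] [CompactSpace X] [T2Space X'] [CompactSpace X']

theorem Par.of_iso {B : ι → LB R} (h : Par o C N A π) {c : X → ι → ℂ}
    (hc : ∀ i, (fun y => c y i) ∈ H0 N (B i / A i)) (h0 : ∀ y i, c y i ≠ 0) :
    Par o C N B fun y => c y • π y := by
  have k : ∀ x, deriv (br B (fun y => c y • π y) x) 0 o = c x o • deriv (br A π x) 0 o +
      deriv (fun t i => (B i / A i).loc (fun y => c y i) x t) 0 o • π x o := fun x => by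
    have e := br_of_eq (A := A) (A' := B) (LIso.id R) (π := π) (π' := fun y => c y • π y)
      (fun _ => rfl) x
    have e' : br B (fun y => c y • π y) x =ᶠ[𝓝 0] fun t =>
        (fun i => (B i / A i).loc (fun y => c y i) x t) • br A π x t :=
      (e.and (R.tgt_nhds x)).mono fun t a => by
        have := a.1
        rwa [id, id, R.e_i a.2] at this
    rw [e'.deriv_eq, Dict.deriv_smul (analyticAt_pi_iff.2 fun i => (hc i).1 x) (an_br h.sec x),
      br_zero, LB.loc_zero]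
  refine ⟨h.nd, fun i j => div_mul_cancel (B i) (A i) ▸ H0.mul_mem (hc i) (h.sec i j),
    fun x i => smul_ne_zero (h0 x i) (h.ne x i), fun y => (h.img y).trans ?_, fun x y t e => ?_,
    fun x => ?_, fun n hn => ?_⟩
  · refine exists_congr fun x => ⟨fun ⟨t, a, b⟩ => ⟨t / c x, fun i => div_ne_zero (a i) (h0 x i), ?_⟩,
      fun ⟨t, a, b⟩ => ⟨t * c x, fun i => mul_ne_zero (a i) (h0 x i), by rw [b, mul_smul]⟩⟩
    rw [b, ← mul_smul]
    congr 1
    exact funext fun i => (div_mul_cancel₀ _ (h0 x i)).symm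
  · exact h.inj x y ((c y)⁻¹ * (t * c x)) (by
      rw [mul_smul, mul_smul, ← e, Dict.inv_smul (h0 y)])
  · obtain ⟨a, b⟩ := li_pair_iff.1 (h.imm x)
    refine li_pair_iff.2 ⟨smul_ne_zero (h0 x o) a, fun e s he => ?_⟩
    rw [k, smul_add, ← eq_sub_iff_add_eq, Dict.smul_ap, smul_smul, smul_smul, smul_smul,
      ← sub_smul] at he
    exact (mul_eq_zero.1 (b _ _ he)).resolve_right (h0 x o)
  · obtain ⟨a, b⟩ := li_triple_iff.1 (h.cross n hn)
    refine li_triple_iff.2 ⟨smul_ne_zero (h0 _ o) a, fun e e' s he => ?_⟩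
    rw [k, k, ← node_eq h.sec hn] at he
    have := b (e * c n.1 o) (e' * c n.2 o) (s * c n.1 o -
      e * deriv (fun t i => (B i / A i).loc (fun y => c y i) n.1 t) 0 o -
      e' * deriv (fun t i => (B i / A i).loc (fun y => c y i) n.2 t) 0 o) (by
        rw [Dict.smul_ap] at he
        linear_combination (norm := module) he)
    exact ⟨(mul_eq_zero.1 this.1).resolve_right (h0 _ o), (mul_eq_zero.1 this.2).resolve_right (h0 _ o)⟩

theorem Par.exists_map (h : Par o C N A π) (h' : Par o C N' A' π') : ∃ (f : X → X') (c : X → ι → ℂ)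
    (hf : LIso R R' f), (∀ y, π' (f y) = c y • π y) ∧ (∀ y i, c y i ≠ 0) ∧
      ∀ i, (fun y => c y i) ∈ (hf.pb (A' i) / A i).Γ := by
  choose f s φ a1 a2 a3 a4 a5 a6 using fun x => h'.factor_branch (h.isBranch x)
  have e0 : ∀ y, π' (f y) = (s y 0)⁻¹ • π y := fun y => by
    have := (a6 y).self_of_nhds
    rw [br_zero, a4, br_zero] at this
    rw [this, Dict.inv_smul (a2 y)]
  have tφ : ∀ y, Tendsto (φ y) (𝓝 0) (𝓝 0) := fun y => by
    simpa [ContinuousAt, a4] using (a3 y).continuousAt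
  have tφ' : ∀ y, Tendsto (φ y) (𝓝[≠] 0) (𝓝[≠] 0) := fun y =>
    tendsto_nhdsWithin_iff.2 ⟨(tφ y).mono_left nhdsWithin_le_nhds, by
      simpa [a4] using ((a3 y).differentiableAt.hasDerivAt.eventually_ne (a5 y))⟩
  have key : ∀ y, ∀ᶠ t in 𝓝 0, f (R.i y t) = R'.i (f y) (φ y t) := fun y => by
    rw [← nhdsNE_sup_pure, eventually_sup, eventually_pure]
    refine ⟨?_, by rw [R.i_zero, a4, R'.i_zero]⟩
    filter_upwards [tφ' y (R'.ev_ne_iff.1 (Xi.ev_sm N' ∅ (f y))),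
      (a6 y).filter_mono nhdsWithin_le_nhds] with t b d
    rw [br_eq, br_eq, ← Dict.smul_inv (a2 (R.i y t)) (π _), ← e0, ← mul_smul, ← mul_smul] at d
    rcases h'.fibre (fun i => mul_ne_zero (inv_ne_zero ((A i).ne _ _)) (a2 _ i)) d with e | e | e
    exacts [e, (sm_iff.1 b.1 _ (.inr e)).elim, (sm_iff.1 b.1 _ (.inl e)).elim]
  have k2 : ∀ y, (fun t => R'.e (f y) (f (R.i y t))) =ᶠ[𝓝 0] φ y := fun y =>
    ((key y).and (tφ y (R'.tgt_nhds (f y)))).mono fun t a => by simp only [a.1, R'.e_i a.2]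
  have hf : LIso R R' f := ⟨continuous_iff_continuousAt.2 fun y => by
      rw [ContinuousAt, ← R.map_i y, tendsto_map'_iff]
      exact ((R'.tends_i (f y)).comp (tφ y)).congr' ((key y).mono fun _ a => a.symm),
    fun y => (a3 y).congr (k2 y).symm, fun y => (k2 y).deriv_eq.trans_ne (a5 y)⟩
  refine ⟨f, fun y => (s y 0)⁻¹, hf, e0, fun y i => inv_ne_zero (a2 y i), fun i y => ?_⟩
  refine ((analyticAt_pi_iff.1 (a1 y) i).inv (a2 y i)).congr ?_
  filter_upwards [br_of_eq (A := A) (A' := A') hf e0 y, a6 y, k2 y] with t b d e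
  rw [e] at b
  rw [b, ← mul_smul] at d
  have := congrFun (Dict.smul_cancel (h.ne_zero _ (h.br_mem y t)) ((one_smul _ _).trans d)) i
  exact (eq_inv_of_mul_eq_one_right this.symm).symm

/-- **the normalisation is unique** -/
theorem Par.exists_iso (h : Par o C N A π) (h' : Par o C N' A' π') : ∃ (f : X ≃ X') (c : X → ι → ℂ)
    (hf : LIso R R' f), (∀ x y, Jn N x y ↔ Jn N' (f x) (f y)) ∧ (∀ y, π' (f y) = c y • π y) ∧
      (∀ y i, c y i ≠ 0) ∧ ∀ i, (fun y => c y i) ∈ H0 N (hf.pb (A' i) / A i) := by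
  have inv : ∀ {X X' : Type} [TopologicalSpace X] [TopologicalSpace X'] [T2Space X] [CompactSpace X]
      {R : RS X} {N A π} {π' : X' → V M} (_ : Par (R := R) o C N A π) {f : X → X'} {g : X' → X}
      {c : X → ι → ℂ} {c' : X' → ι → ℂ}, Continuous f → Continuous g → (∀ y, π' (f y) = c y • π y) →
        (∀ y, π (g y) = c' y • π' y) → LeftInverse g f := by
    intro X X' _ _ _ _ R N A π π' h f g c c' a b d e y
    have := R.neBot y
    refine tendsto_nhds_unique_of_eventuallyEq (l := 𝓝[≠] y) (f := g ∘ f) (g := id)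
      ((b.comp a).continuousAt.mono_left nhdsWithin_le_nhds) nhdsWithin_le_nhds
      ((Xi.ev_sm N ∅ y).mono fun z hz => ?_)
    rcases h.inj z (g (f z)) (c' (f z) * c z) (by rw [e, d, mul_smul]) with e | e | e
    exacts [e.symm, (sm_iff.1 hz.1 _ (.inl e)).elim, (sm_iff.1 hz.1 _ (.inr e)).elim]
  obtain ⟨f, c, hf, a1, a2, a3⟩ := h.exists_map h'
  obtain ⟨g, c', hg, b1, -⟩ := h'.exists_map h
  let e : X ≃ X' := ⟨f, g, inv h hf.cont hg.cont a1 b1, inv h' hg.cont hf.cont b1 a1⟩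
  have k : ∀ x y, Jn N x y → Jn N' (f x) (f y) := fun x y a =>
    (h'.inj _ _ (c y * (c x)⁻¹) (by
      rw [a1, a1, mul_smul, Dict.inv_smul (a2 x), h.π_eq (.inr a)])).resolve_left
        fun b => a.ne h.nd (e.injective b)
  refine ⟨e, c, hf, fun x y => ⟨k x y, fun a => (h.inj x y ((c y)⁻¹ * c x) ?_).resolve_left
    fun b => a.ne h'.nd (congrArg f b)⟩, a1, a2, fun i => mem_H0_iff.2 ⟨a3 i, fun x y a => ?_⟩⟩
  · rw [mul_smul, ← a1, show π' (f x) = π' (f y) from h'.π_eq (.inr a), a1, Dict.inv_smul (a2 y)]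
  · refine congrFun (Dict.smul_cancel (h.ne x) ?_) i
    rw [← a1, h'.π_eq (.inr (k x y a)), a1, h.π_eq (.inr a)]

/-- the dualising bundles of isomorphic pointed curves -/
theorem LIso.exists_omega (h : LIso R R' f) (hf : Injective f) (hN : Nd N) (hN' : Nd N')
    {P : Finset X} {P' : Finset X'} (hP : ∀ p ∈ P, Sm N p) (hP' : ∀ p ∈ P', Sm N' p)
    (hJ : ∀ x y, Jn N x y → Jn N' (f x) (f y))
    (hS : ∀ y, (Sm N y ∧ y ∉ P) ↔ Sm N' (f y) ∧ f y ∉ P') :
    ∃ u ∈ H0 N (omega R N P / h.pb (omega R' N' P')), (∀ y, u y ≠ 0) ∧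
      (∀ y, Sm N y ∧ y ∉ P → u y = R.d (fun z => R'.e (f y) (f z)) y) ∧
      ∀ y, ¬(Sm N y ∧ y ∉ P) → u y = Xi.sg N y * Xi.sg N' (f y) := by
  classical
  have m : ∀ {X : Type} [DecidableEq X] (N : Finset (X × X)) (P : Finset X) (y : X),
      y ∈ N.image Prod.fst ∪ N.image Prod.snd ∪ P ↔ ¬(Sm N y ∧ y ∉ P) := fun N P y => by
    simp only [not_and_or, not_not, Sm, not_forall, Finset.mem_union, Finset.mem_image, exists_prop,
      and_or_left, exists_or]
  obtain ⟨u, a, b, d, e⟩ := h.exists_lg hf (S := N'.image Prod.fst ∪ N'.image Prod.snd ∪ P')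
    (S' := N.image Prod.fst ∪ N.image Prod.snd ∪ P) fun y => by rw [m, m, hS]
  have s1 : ∀ y, Sm N y ∧ y ∉ P → Xi.sg N y * Xi.sg N' (f y) = 1 := fun y hy => by
    rw [Xi.sg_sm hy.1, Xi.sg_sm ((hS y).1 hy).1, mul_one]
  refine ⟨u * fun y => Xi.sg N y * Xi.sg N' (f y), ⟨?_, fun n hn => ?_⟩,
    fun y => mul_ne_zero (b y) (mul_ne_zero (Xi.sg_ne _) (Xi.sg_ne _)),
    fun y hy => by simp [s1 y hy, e y (by rw [m]; exact not_not.2 hy)],
    fun y hy => by simp [d y ((m _ _ _).2 hy)]⟩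
  · rw [omega_eq hN hP, omega_eq hN' hP', map_mul, mul_div_mul_comm]
    refine LB.mul_mem a fun y => ?_
    refine ((LB.cst_mem _ y).div (h.pb_mem (LB.cst_mem _) y) (Xi.sg_ne _)).congr (.of_forall fun z => ?_)
    exact (div_eq_iff (Xi.sg_ne _)).2 (by rw [mul_assoc]; exact ((congrArg _ (Xi.sg_sq _)).trans (mul_one _)).symm)
  · simp only [Pi.mul_apply, d _ ((m _ _ _).2 fun a => Xi.not_sm_fst hn a.1),
      d _ ((m _ _ _).2 fun a => Xi.not_sm_snd hn a.1), Xi.sg_fst hN hn, Xi.sg_snd hn]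
    rcases hJ _ _ (.inl hn) with a | a
    · rw [Xi.sg_fst hN' a, Xi.sg_snd a]; simp
    · rw [Xi.sg_fst hN' a, Xi.sg_snd a]; simp

theorem LIso.wsec_eq [DecidableEq ι] {J : Type} [Fintype J] {ch : Ch ι J} {π : X → V ch.M}
    {π' : X' → V ch.M} (h : LIso R R' f) (hs : ∀ i j, (fun x => π x i j) ∈ H0 N (A i))
    (hs' : ∀ i j, (fun x => π' x i j) ∈ H0 N' (A' i)) {c : X → ι → ℂ}
    (e : ∀ y, π' (f y) = c y • π y) (hc : ∀ i, (fun y => c y i) ∈ (h.pb (A' i) / A i).Γ)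
    {P : Finset X} {P' : Finset X'} (hS : ∀ y, (Sm N y ∧ y ∉ P) ↔ Sm N' (f y) ∧ f y ∉ P')
    {u : X → ℂ} (hu : ∀ y, Sm N y ∧ y ∉ P → u y = R.d (fun z => R'.e (f y) (f z)) y)
    (μ : Tn ch.M ch.slot) (y : X) : u y ^ ch.k * wsec A' π' N' P' μ (f y) =
      chr ch.bω (c y) * (c y ch.o * c y ch.o) ^ ch.k * wsec A π N P μ y := by
  have a := Xi.wedge_fac μ (γ := fun t => br A' π' (f y) (R'.e (f y) (f (R.i y t))))
    (β := br A' π' (f y)) (s := fun _ => 1) (t := 0) (.of_forall fun _ => (one_smul _ _).symm)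
    analyticAt_const (h.an y) (by rw [tr_zero]; exact an_br hs' _)
  replace a := (Xi.wedge_fac μ (φ := _root_.id) (br_of_eq (A := A) h e y)
    (analyticAt_pi_iff.2 fun i => hc i y) analyticAt_id (an_br hs y)).symm.trans a
  simp only [LB.loc_zero, deriv_id, mul_one, id_eq, br_zero, tr_zero, chr_one, Pi.one_apply,
    one_mul] at a
  unfold wsec
  by_cases b : Sm N y ∧ y ∉ P
  · rw [if_pos b, if_pos ((hS y).1 b), hu y b, one_pow, one_mul, one_mul]
    exact a.symm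
  · rw [if_neg b, if_neg (mt (hS y).2 b)]
    rcases Nat.eq_zero_or_pos ch.k with d | d
    · simpa [d] using a.symm
    · simp [d.ne']

end Vale.Agent.P269.Cv
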