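import Vale.Agent.P269.Pt.Glue

/-!
# Numerical correspondence of the components of two curves
-/

set_option linter.unusedSectionVars false

namespace Vale.Agent.P269

open Set Function Topology Filter Cv

variable {S Λ R J K ν κ ν' κ' κ₀ α : Type} [Fintype S] [Fintype Λ] [Fintype R] [Fintype J]
  [Fintype K] [Fintype ν] [Fintype κ] [Fintype ν'] [Fintype κ'] [Fintype κ₀] [Fintype α]

/-- The components of the two curves correspond to each other, with the same genus, degrees and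
marked points. -/
def AC.Same (c : AC ν κ) (L : α → LB c.R) (c' : AC ν κ) (L' : α → LB c'.R) : Prop :=
  ∃ σ : {U // c.Sat U} ≃o {U // c'.Sat U}, ∀ U,
    degOn (omega c.R c.N ∅) U.1 = degOn (omega c'.R c'.N ∅) (σ U).1 ∧
      (∀ r, degOn (L r) U.1 = degOn (L' r) (σ U).1) ∧ ∀ n, c.p n ∈ U.1 ↔ c'.p n ∈ (σ U).1

/-- The two maps have the same components numerically. -/
def AM.Same (m m' : AM Λ R J ν κ) : Prop := AC.Same m.toAC m.L m'.toAC m'.L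

namespace LC

variable {c c' : AC ν κ} {U : Set c.X} {z z' : c.X}

theorem jn (h : c.Sat U) (a : Jn c.N z z') : z ∈ U ↔ z' ∈ U := ⟨(h.2 _ · _ a), (h.2 _ · _ a.symm)⟩

theorem sat_iff : c.Sat U ↔ IsClopen U ∧ ∀ n ∈ c.N, n.1 ∈ U ↔ n.2 ∈ U :=
  ⟨fun h => ⟨h.1, fun _ a => jn h (.inl a)⟩,
    fun h => ⟨h.1, fun _ a _ b => b.elim (fun b => (h.2 _ b).1 a) fun b => (h.2 _ b).2 a⟩⟩

theorem compl (h : c.Sat U) : c.Sat Uᶜ := ⟨h.1.compl, fun _ a _ b => mt (jn h b).2 a⟩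

instance : BoundedOrder {U // c.Sat U} :=
  Subtype.boundedOrder ⟨isClopen_empty, fun _ a => a.elim⟩ ⟨isClopen_univ, fun _ _ _ _ => trivial⟩

instance : Finite {U // c.Sat U} := by
  obtain ⟨T, a, b⟩ := exists_finite_meets c.R
  refine (a.finite_subsets.of_injOn (f := fun U => U ∩ T) (s := {U | c.Sat U})
    (fun _ _ => inter_subset_right) ?_).to_subtype
  have k : ∀ U V, c.Sat U → c.Sat V → U ∩ T = V ∩ T → U ⊆ V := fun U V h h' e x hx =>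
    by_contra fun d =>
      let ⟨y, f, k⟩ := b _ (h.1.diff h'.1) ⟨x, hx, d⟩
      k.2 (e.subset ⟨k.1, f⟩).1
  exact fun U h V h' e => (k U V h h' e).antisymm (k V U h' h e.symm)

theorem sat_cmp (z : c.X) : c.Sat (c.cmp z) :=
  ⟨by
    rw [AC.cmp, sInter_eq_biInter]
    exact (Finite.subset (s := {U | c.Sat U}) (inferInstanceAs (Finite {U // c.Sat U}))
      fun _ a => a.1).isClopen_biInter fun _ a => a.1.1,
    fun x a y b U d => d.1.2 x (a U d) y b⟩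

theorem mem_cmp (z : c.X) : z ∈ c.cmp z := fun _ a => a.2

theorem cmp_subset (h : c.Sat U) (hz : z ∈ U) : c.cmp z ⊆ U := sInter_subset_of_mem ⟨h, hz⟩

theorem mem_of_cmp (h : c.Sat U) (a : z' ∈ c.cmp z) (b : z' ∈ U) : z ∈ U :=
  by_contra fun d => cmp_subset (compl h) d a b

theorem cmp_eq (h : z' ∈ c.cmp z) : c.cmp z' = c.cmp z :=
  (cmp_subset (sat_cmp z) h).antisymm
    (cmp_subset (sat_cmp z') (mem_of_cmp (sat_cmp z') h (mem_cmp z')))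

theorem isAtom_iff {U : {U // c.Sat U}} : IsAtom U ↔ ∃ z, U.1 = c.cmp z := by
  rw [isAtom_iff_le_of_ge]
  refine ⟨fun ⟨a, b⟩ => ?_, fun ⟨z, e⟩ => ⟨fun a => ?_, fun V a b => ?_⟩⟩
  · obtain ⟨z, hz⟩ := nonempty_iff_ne_empty.2 fun e => a (Subtype.ext e)
    exact ⟨z, Subset.antisymm (b ⟨_, sat_cmp z⟩ (fun e => (congrArg Subtype.val e).subset
      (mem_cmp z)) (cmp_subset U.2 hz)) (cmp_subset U.2 hz)⟩
  · exact ((e.symm.trans (congrArg Subtype.val a)).subset (mem_cmp z) :)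
  · obtain ⟨w, hw⟩ := nonempty_iff_ne_empty.2 fun e => a (Subtype.ext e)
    exact e.subset.trans (cmp_subset V.2 (mem_of_cmp V.2 (e.subset (b hw)) hw))

theorem conn_iff : c.Conn ↔ ∃ z, univ = c.cmp z :=
  ⟨fun ⟨⟨z⟩, h⟩ => ⟨z, ((h _ (sat_cmp z).1 (sat_iff.1 (sat_cmp z)).2).resolve_left
    fun e => e.subset (mem_cmp z)).symm⟩, fun ⟨z, e⟩ => ⟨⟨z⟩, fun U a b =>
      (em (z ∈ U)).symm.imp (fun d => eq_empty_of_forall_notMem fun _ =>
        cmp_subset (compl (sat_iff.2 ⟨a, b⟩)) d (e.subset trivial))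
        fun d => univ_subset_iff.1 (e.subset.trans (cmp_subset (sat_iff.2 ⟨a, b⟩) d))⟩⟩

open Classical in
theorem degOn_ω (h : IsClopen U) :
    degOn c.ω U = degOn (omega c.R c.N ∅) U + ∑ n, if c.p n ∈ U then 1 else 0 := by
  rw [AC.degOn_ω, degOn_omega, degOn_omega, Finset.sum_empty, add_zero, AC.P,
    Finset.sum_image c.inj.injOn]
  simp only [degOn_pt h]

theorem sat_image {e : c.X ≃ c'.X} (h : LIso c.R c'.R e)
    (hN : ∀ x y, Jn c.N x y ↔ Jn c'.N (e x) (e y)) (a : c.Sat U) : c'.Sat (e '' U) :=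
  ⟨h.isClopen_image a.1, forall_mem_image.2 fun x b => e.surjective.forall.2 fun y d =>
    ⟨y, a.2 x b y ((hN x y).2 d), rfl⟩⟩

end LC

namespace AM

open LC

variable {W : Wt S Λ R J} {A : Set J} {d : R → ℤ} {g : ℤ} {m m' m'' : AM Λ R J ν κ}

theorem Same.refl (m : AM Λ R J ν κ) : m.Same m :=
  ⟨.refl _, fun _ => ⟨rfl, fun _ => rfl, fun _ => Iff.rfl⟩⟩

theorem Same.symm (h : m.Same m') : m'.Same m := by
  obtain ⟨σ, h⟩ := h
  refine ⟨σ.symm, σ.surjective.forall.2 fun U => ?_⟩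
  rw [σ.symm_apply_apply]
  exact ⟨(h U).1.symm, fun r => ((h U).2.1 r).symm, fun n => ((h U).2.2 n).symm⟩

theorem Same.trans (h : m.Same m') (h' : m'.Same m'') : m.Same m'' :=
  let ⟨σ, h⟩ := h
  let ⟨τ, h'⟩ := h'
  ⟨σ.trans τ, fun U => ⟨(h U).1.trans (h' _).1, fun r => ((h U).2.1 r).trans ((h' _).2.1 r),
    fun n => ((h U).2.2 n).trans ((h' _).2.2 n)⟩⟩

theorem Iso.same (h : Iso W A m m') : m.Same m' := by
  obtain ⟨e, h, t, τ, -, hN, hp, ht, -⟩ := h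
  refine ⟨⟨(Equiv.Set.congr e).subtypeEquiv fun U => ⟨sat_image h hN, fun a => ?_⟩,
    image_subset_image_iff e.injective⟩, fun U => ⟨?_, fun r => ?_, fun n => ?_⟩⟩
  · exact e.symm_image_image U ▸ sat_image (h.symm e) (jn_symm hN) a
  · obtain ⟨w, a, b, -⟩ := h.exists_omega (P := ∅) (P' := ∅) e.injective m.nd m'.nd (by simp)
      (by simp) (fun x y => (hN x y).1) fun y => by simp [sm_equiv hN]
    have := degOn_of_ne (U := U.1) (fun x _ => a.1 x) fun x _ => b x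
    rw [degOn_div, h.degOn_pb e.injective U.2.1] at this
    exact sub_eq_zero.1 this
  · have := degOn_of_ne (U := U.1) (fun x _ => (ht r).1.1 x) fun x _ => (ht r).2.1 x
    rw [degOn_div, h.degOn_pb e.injective U.2.1] at this
    exact (sub_eq_zero.1 this).symm
  · exact hp n ▸ (e.injective.mem_set_image).symm

/-- parts of the same type -/
theorem Same.exists_sat (h : m.Same m') {U : Set m.X} (hU : m.Sat U) : ∃ U', m'.Sat U' ∧
    degOn (omega m.R m.N ∅) U = degOn (omega m'.R m'.N ∅) U' ∧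
    (∀ r, degOn (m.L r) U = degOn (m'.L r) U') ∧ (∀ n, m.p n ∈ U ↔ m'.p n ∈ U') ∧
    (U = ∅ ↔ U' = ∅) ∧ (U = univ ↔ U' = univ) ∧
    ((∃ z, U = m.cmp z) ↔ ∃ z, U' = m'.cmp z) :=
  let ⟨σ, h⟩ := h
  ⟨_, (σ ⟨U, hU⟩).2, (h ⟨U, hU⟩).1, (h ⟨U, hU⟩).2.1, (h ⟨U, hU⟩).2.2,
    (Subtype.ext_iff.symm.trans ((map_eq_bot_iff σ (a := ⟨U, hU⟩)).trans Subtype.ext_iff)).symm,
    (Subtype.ext_iff.symm.trans ((map_eq_top_iff σ (a := ⟨U, hU⟩)).trans Subtype.ext_iff)).symm,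
    (isAtom_iff.symm.trans ((σ.isAtom_iff ⟨U, hU⟩).trans isAtom_iff)).symm⟩

theorem Same.conn (h : m.Same m') (a : m.Conn) : m'.Conn :=
  let ⟨_, _, _, _, _, _, e, f⟩ := h.exists_sat (⊤ : {U // m.Sat U}).2
  conn_iff.2 (e.1 rfl ▸ f.1 (conn_iff.1 a))

theorem Same.typ (h : m.Same m') (a : m.Typ g d) : m'.Typ g d := by
  obtain ⟨_, -, b, f, -, -, e, -⟩ := h.exists_sat (⊤ : {U // m.Sat U}).2
  obtain rfl := e.1 rfl
  change degOn _ univ = _ at b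
  refine ⟨?_, fun r => degOn_univ.symm.trans ((f r).symm.trans (degOn_univ.trans (a.2 r)))⟩
  rw [degOn_univ, degOn_univ, deg_omega, deg_omega, a.1, Finset.card_empty, Finset.card_empty] at b
  omega

theorem Same.exists_cmp (h : m.Same m') (z : m.X) : ∃ z',
    degOn (omega m.R m.N ∅) (m.cmp z) = degOn (omega m'.R m'.N ∅) (m'.cmp z') ∧
    (∀ r, degOn (m.L r) (m.cmp z) = degOn (m'.L r) (m'.cmp z')) ∧
      ∀ n, m.p n ∈ m.cmp z ↔ m'.p n ∈ m'.cmp z' :=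
  let ⟨_, _, a, b, c, _, _, f⟩ := h.exists_sat (sat_cmp z)
  let ⟨z', e⟩ := f.1 ⟨z, rfl⟩
  ⟨z', e ▸ ⟨a, b, c⟩⟩

theorem Same.exists_ctyp (h : m.Same m') {z : m.X} {T : Set (Ch.Mk ν κ)} (a : m.CTyp z g d T) :
    ∃ z', m'.CTyp z' g d T :=
  (h.exists_cmp z).imp fun _ b => ⟨b.1.symm.trans a.1, fun r => (b.2.1 r).symm.trans (a.2.1 r),
    fun n => (b.2.2 n).symm.trans (a.2.2 n)⟩

theorem Same.ctyp (h : m.Same m') {n : Ch.Mk ν κ} {T : Set (Ch.Mk ν κ)}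
    (a : m.CTyp (m.p n) g d T) : m'.CTyp (m'.p n) g d T := by
  obtain ⟨z, b⟩ := h.exists_ctyp a
  rwa [CTyp, cmp_eq ((b.2.2 n).2 ((a.2.2 n).1 (mem_cmp _)))]

theorem Same.mem_cmp (h : m.Same m') {n n' : Ch.Mk ν κ} (a : m.p n ∈ m.cmp (m.p n')) :
    m'.p n ∈ m'.cmp (m'.p n') :=
  let ⟨_, _, _, b⟩ := h.exists_cmp (m.p n')
  (cmp_eq ((b n').1 (LC.mem_cmp _))).symm ▸ (b n).1 a

theorem Same.marked (h : m.Same m') (a : ∀ z, ∃ n, m.p n ∈ m.cmp z) :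
    ∀ z, ∃ n, m'.p n ∈ m'.cmp z := fun z =>
  let ⟨z', _, _, b⟩ := h.symm.exists_cmp z
  (a z').imp fun n => (b n).2

theorem Same.re {m m' : AM Λ R J ν' κ'} (h : m.Same m') (φ : Ch.Mk ν κ ↪ Ch.Mk ν' κ') :
    (m.re φ).Same (m'.re φ) :=
  let ⟨σ, h⟩ := h
  ⟨σ, fun U => ⟨(h U).1, (h U).2.1, fun n => (h U).2.2 (φ n)⟩⟩

theorem Same.glue {m m' : AM Λ R J ν (κ ⊕ κ₀)} (h : m.Same m') : m.glue.Same m'.glue := by
  classical
  obtain ⟨σ, h⟩ := h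
  have k : ∀ U, m.toAC.glue.Sat U.1 ↔ m'.toAC.glue.Sat (σ U).1 := fun U => by
    simp only [AC.sat_glue, U.2, (σ U).2, (h U).2.2]
  refine ⟨.ofSurjective (.ofMapLEIff (fun U => ⟨_, (k ⟨U.1, (AC.sat_glue.1 U.2).1⟩).1 U.2⟩)
    fun _ _ => σ.le_iff_le) fun U => ?_, fun U => ⟨?_, (h ⟨U.1, (AC.sat_glue.1 U.2).1⟩).2.1,
      fun n => (h ⟨U.1, (AC.sat_glue.1 U.2).1⟩).2.2 _⟩⟩
  · obtain ⟨V, e⟩ := σ.surjective ⟨U.1, (AC.sat_glue.1 U.2).1⟩
    exact ⟨⟨V.1, (k V).2 (e ▸ U.2)⟩, Subtype.ext (congrArg Subtype.val e :)⟩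
  · obtain ⟨V, e⟩ : ∃ V : {U // m.Sat U}, V = ⟨U.1, (AC.sat_glue.1 U.2).1⟩ := ⟨_, rfl⟩
    have a := degOn_ω (c := m.toAC.glue) V.2.1
    have b := degOn_ω (c := m'.toAC.glue) (σ V).2.1
    rw [AC.glue_ω, degOn_ω V.2.1, (h V).1] at a
    rw [AC.glue_ω, degOn_ω (σ V).2.1] at b
    simp only [(h V).2.2] at a
    subst e
    exact add_right_cancel (a.symm.trans b)

end AM

end Vale.Agent.P269
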