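import Vale.Agent.P269.Pt.Ops2
import Vale.Agent.P269.Pt.Iso
import Vale.Agent.P269.Cv.CtrC

/-!
# Embeddings of unions of components of abstract maps
-/

set_option linter.unusedSectionVars false

namespace Vale.Agent.P269

open Set Function Topology Filter Cv

variable {S Λ R J K ν κ ν₁ κ₁ ν₂ κ₂ : Type} [Fintype S] [Fintype Λ] [Fintype R] [Fintype J]
  [Fintype K] [Fintype ν] [Fintype κ] [Fintype ν₁] [Fintype κ₁] [Fintype ν₂] [Fintype κ₂]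

namespace AM

variable {F : Fam S Λ R J K} {W : Wt S Λ R J} {A : Set J} {θ : R → ℤ} {τ : S → ℂ}
  {m m' : AM Λ R J ν κ} {m₁ m₁' : AM Λ R J ν₁ κ₁} {m₂ m₂' : AM Λ R J ν₂ κ₂}

namespace Emb

variable {φ : ν₁ → ν} {ψ : κ₁ → κ} {j : m₁.X → m.X} (h : Emb m₁ m φ ψ j)
include h

theorem mark_inl (n : ν₁) : j (m₁.p (.inl n)) = m.p (.inl (φ n)) := h.mark _

theorem mark_inr (q : κ₁) (b : Bool) : j (m₁.p (.inr (q, b))) = m.p (.inr (ψ q, b)) := h.mark _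

theorem inj_φ : Injective φ := fun a b e =>
  Sum.inl_injective (m₁.inj (h.inj ((h.mark_inl a).trans (e ▸ (h.mark_inl b).symm))))

theorem inj_ψ : Injective ψ := fun a b e => congrArg Prod.fst (Sum.inr_injective
  (m₁.inj (h.inj ((h.mark_inr a false).trans (e ▸ (h.mark_inr b false).symm)))))

theorem jn {x y : m₁.X} : Jn m.N (j x) (j y) ↔ Jn m₁.N x y :=
  (h.node x _).trans ⟨fun ⟨_, a, e⟩ => h.inj e ▸ a, fun a => ⟨y, a, rfl⟩⟩

theorem sm {x : m₁.X} : Sm m.N (j x) ↔ Sm m₁.N x := by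
  simp only [sm_iff]
  exact ⟨fun a y b => a _ (h.jn.2 b), fun a z b => let ⟨y, c, _⟩ := (h.node x z).1 b; a y c⟩

theorem mem_P {x : m₁.X} : j x ∈ m.P ↔ x ∈ m₁.P := by
  simp only [AC.mem_P]
  refine ⟨fun ⟨n, e⟩ => ?_, fun ⟨n, e⟩ => ⟨_, (h.mark n).symm.trans (congrArg j e)⟩⟩
  obtain ⟨n', rfl⟩ := h.all n ⟨x, e.symm⟩
  exact ⟨n', h.inj ((h.mark n').trans e)⟩

theorem eq_inl {x : m₁.X} {n : ν} (e : j x = m.p (.inl n)) : ∃ n', n = φ n' ∧ x = m₁.p (.inl n') := by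
  obtain ⟨n' | n', a⟩ := h.all _ ⟨x, e⟩
  · exact ⟨n', Sum.inl_injective a, h.inj (e.trans (a ▸ (h.mark _).symm))⟩
  · simp at a

theorem eq_inr {x : m₁.X} {q : κ} {b : Bool} (e : j x = m.p (.inr (q, b))) :
    ∃ q', q = ψ q' ∧ x = m₁.p (.inr (q', b)) := by
  obtain ⟨n' | ⟨q', b'⟩, a⟩ := h.all _ ⟨x, e⟩
  · simp at a
  · obtain ⟨rfl, rfl⟩ : q = ψ q' ∧ b = b' := by simpa using a
    exact ⟨q', rfl, h.inj (e.trans (h.mark_inr _ _).symm)⟩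

theorem sg (x : m₁.X) : m.sg (j x) = m₁.sg x := by
  classical
  exact if_congr ⟨fun ⟨_, e⟩ => let ⟨q, _, a⟩ := h.eq_inr e; ⟨q, a⟩,
    fun ⟨q, e⟩ => ⟨ψ q, e ▸ h.mark_inr q true⟩⟩ rfl rfl

theorem sat_image {U : Set m₁.X} (hU : m₁.Sat U) : m.Sat (j '' U) :=
  ⟨h.liso.isClopen_image hU.1, fun _ ⟨x, a, e⟩ z b =>
    let ⟨y, c, d⟩ := (h.node x z).1 (e ▸ b); ⟨y, hU.2 x a y c, d.symm⟩⟩

theorem sat_range : m.Sat (range j) :=
  image_univ ▸ h.sat_image ⟨isClopen_univ, fun _ _ _ _ => mem_univ _⟩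

theorem sat_preimage {U : Set m.X} (hU : m.Sat U) : m₁.Sat (j ⁻¹' U) :=
  ⟨hU.1.preimage h.liso.cont, fun _ a _ b => hU.2 _ a _ (h.jn.2 b)⟩

theorem pb_bz (a : R → ℤ) : h.liso.pb (bz m.L a) = bz m₁.L a := by
  classical
  rw [h.liso.pb_bz, funext h.L]

theorem pb_mem {L : LB m.R} {s : m.X → ℂ} (hs : s ∈ H0 m.N L) :
    (fun x => s (j x)) ∈ H0 m₁.N (h.liso.pb L) := h.liso.pb_mem0 (fun _ _ a => .inr (h.jn.2 a)) hs

theorem extend_mem {L : LB m.R} {s : m₁.X → ℂ} (hs : s ∈ H0 m₁.N (h.liso.pb L)) :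
    extend j s 0 ∈ H0 m.N L := by
  refine mem_H0_iff.2 ⟨h.liso.extend_mem h.inj hs.1, fun x z a => ?_⟩
  by_cases b : x ∈ range j
  · obtain ⟨x, rfl⟩ := b
    obtain ⟨y, c, rfl⟩ := (h.node x z).1 a
    rw [h.inj.extend_apply, h.inj.extend_apply, (mem_H0_iff.1 hs).2 x y c]
  · rw [extend_apply' _ _ _ b, extend_apply' _ _ _ fun c => b (h.sat_range.2 z c x a.symm)]
    rfl

theorem exists_omega : ∃ w ∈ H0 m₁.N (omega m₁.R m₁.N m₁.P / h.liso.pb (omega m.R m.N m.P)),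
    w ∈ H0 m₁.N (m₁.ω / h.liso.pb m.ω) ∧ (∀ y, w y ≠ 0) ∧ (∀ n, w (m₁.p n) = 1) ∧
      ∀ y, Sm m₁.N y ∧ y ∉ m₁.P → w y = m₁.R.d (fun z => m.R.e (j y) (j z)) y := by
  obtain ⟨w, a, b, d, f⟩ := h.liso.exists_omega h.inj m₁.nd m.nd AC.sm_P AC.sm_P
    (fun _ _ => h.jn.2) fun y => by rw [h.sm, h.mem_P]
  refine ⟨w, a, ?_, b, fun n => ?_, d⟩
  · rwa [AC.ω, AC.ω, map_mul, show h.liso.pb (LB.cst m.R m.sg m.sg_ne) = LB.cst m₁.R m₁.sg m₁.sg_ne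
      from LB.ext (funext₂ fun x y => by simp only [LIso.pb_φ, LB.cst, h.sg]),
      mul_div_mul_right_eq_div]
  · rw [f _ fun a => a.2 (AC.mem_P.2 ⟨n, rfl⟩), h.mark, Xi.sg_sm (m₁.sm n), Xi.sg_sm (m.sm _),
      mul_one]

theorem degOn_bz (a : R → ℤ) {U : Set m₁.X} (hU : IsClopen U) :
    degOn (bz m₁.L a) U = degOn (bz m.L a) (j '' U) := by
  rw [← h.pb_bz, h.liso.degOn_pb h.inj hU]

theorem degOn_L (r : R) {U : Set m₁.X} (hU : IsClopen U) :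
    degOn (m₁.L r) U = degOn (m.L r) (j '' U) := by
  rw [← h.L, h.liso.degOn_pb h.inj hU]

theorem degOn_ω {U : Set m₁.X} (hU : IsClopen U) : degOn m₁.ω U = degOn m.ω (j '' U) := by
  obtain ⟨w, -, a, b, -⟩ := h.exists_omega
  rw [← h.liso.degOn_pb h.inj hU, ← sub_eq_zero, ← degOn_div]
  exact degOn_of_ne (fun x _ => a.1 x) fun x _ => b x

theorem degOn_omega {U : Set m₁.X} (hU : IsClopen U) :
    degOn (omega m₁.R m₁.N ∅) U = degOn (omega m.R m.N ∅) (j '' U) := by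
  obtain ⟨w, a, b, -⟩ := h.liso.exists_omega (P := ∅) (P' := ∅) h.inj m₁.nd m.nd (by simp) (by simp)
    (fun _ _ => h.jn.2) fun y => by simp [h.sm]
  rw [← h.liso.degOn_pb h.inj hU, ← sub_eq_zero, ← degOn_div]
  exact degOn_of_ne (fun x _ => a.1 x) fun x _ => b x

theorem gen_eq : 2 * gen m₁.R m₁.N - 2 = degOn (omega m.R m.N ∅) (range j) := by
  rw [← image_univ, ← h.degOn_omega isClopen_univ, degOn_univ, deg_omega]
  simp

theorem deg_pb (L : LB m.R) : deg (h.liso.pb L) = degOn L (range j) := by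
  rw [← image_univ, ← h.liso.degOn_pb h.inj isClopen_univ, degOn_univ]

theorem deg_eq (r : R) : deg (m₁.L r) = degOn (m.L r) (range j) := by rw [← h.L, h.deg_pb]

theorem vl (x : m₁.X) : m₁.vl x = m.vl (j x) := Prod.ext h.l (funext fun i => h.y i x)

theorem mt {α : Type} {t : m.X → α} (a : m.Mt t) : m₁.Mt fun x => t (j x) := fun q => by
  simp only [h.mark_inr, a (ψ q)]

theorem y_eq (i : J) : m₁.y i = fun x => m.y i (j x) := funext (h.y i)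

theorem sec (a : m.Sec W) : m₁.Sec W := fun i => by
  rw [h.y_eq, ← h.pb_bz]
  exact h.pb_mem (a i)

theorem sol (a : m.Sol F) : m₁.Sol F := ⟨h.l ▸ a.1, h.sec a.2.1, fun z => h.vl z ▸ a.2.2 _⟩

theorem degOn_st (θ : R → ℤ) {U : Set m₁.X} (hU : IsClopen U) :
    degOn (m₁.ω * bz m₁.L θ) U = degOn (m.ω * bz m.L θ) (j '' U) := by
  rw [degOn_mul, degOn_mul, h.degOn_ω hU, h.degOn_bz θ hU]

theorem stable (a : m.Stable θ) : m₁.Stable θ := fun _ b c =>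
  h.degOn_st θ b ▸ a _ (h.liso.isClopen_image b) (c.image j)

theorem ord (a : R → ℤ) (i : J) (x : m₁.X) :
    (bz m₁.L a).ord (m₁.y i) x = (bz m.L a).ord (m.y i) (j x) := by
  rw [h.y_eq, ← h.pb_bz, h.liso.ord_pb]

theorem main {u : ν → J → ℕ} (a : m.Main F u) : m₁.Main F fun n => u (φ n) := by
  refine ⟨fun i hi => h.y_eq i ▸ h.mt (a.1 i hi), fun i hi hz => ⟨fun n => ?_, fun z b => ?_⟩⟩
  · rw [h.ord, h.mark_inl, (a.2 i hi hz).1]
  · rw [h.y]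
    exact (a.2 i hi hz).2 _ fun n e => let ⟨n', _, c⟩ := h.eq_inl e; b n' c

theorem comp {φ' : ν₂ → ν₁} {ψ' : κ₂ → κ₁} {j' : m₂.X → m₁.X} (h' : Emb m₂ m₁ φ' ψ' j') :
    Emb m₂ m (φ ∘ φ') (ψ ∘ ψ') (j ∘ j') := by
  have e : ∀ n : Ch.Mk ν₂ κ₂, (n.map φ' (Prod.map ψ' id)).map φ (Prod.map ψ id) =
      n.map (φ ∘ φ') (Prod.map (ψ ∘ ψ') id) := by rintro (_ | _) <;> rfl
  refine ⟨h.liso.comp h'.liso, h.inj.comp h'.inj, fun x z => (h.node _ z).trans ⟨?_, ?_⟩,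
    fun n => by rw [comp_apply, h'.mark, h.mark, e], fun n ⟨x, a⟩ => ?_,
    fun r => (congrArg h'.liso.pb (h.L r)).trans (h'.L r), h'.l.trans h.l,
    fun i x => (h'.y i x).trans (h.y i _)⟩
  · rintro ⟨y, a, rfl⟩
    obtain ⟨y, b, rfl⟩ := (h'.node x y).1 a
    exact ⟨y, b, rfl⟩
  · rintro ⟨y, a, rfl⟩
    exact ⟨_, h'.jn.2 a, rfl⟩
  · obtain ⟨n', rfl⟩ := h.all n ⟨_, a⟩
    obtain ⟨n'', rfl⟩ := h'.all n' ⟨x, h.inj (a.trans (h.mark n').symm)⟩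
    exact ⟨n'', e _⟩

/-- restriction of an isomorphism -/
theorem isoD {j' : m₁'.X → m'.X} (h' : Emb m₁' m' φ ψ j') {e : m.X ≃ m'.X} {t : R → m.X → ℂ}
    (a : IsoD W A m m' e t τ) (hr : e '' range j = range j') : ∃ e₁ : m₁.X ≃ m₁'.X,
      (∀ x, j' (e₁ x) = e (j x)) ∧ IsoD W A m₁ m₁' e₁ (fun r x => t r (j x)) τ := by
  have k : ∀ x, ∃ x', j' x' = e (j x) := fun x =>
    hr.subset (mem_image_of_mem e (mem_range_self x))
  choose f hf using k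
  have b : Bijective f := ⟨fun x y c => h.inj (e.injective (by rw [← hf, ← hf, c])), fun y => by
    obtain ⟨_, ⟨x, rfl⟩, c⟩ : j' y ∈ e '' range j := hr ▸ mem_range_self y
    exact ⟨x, h'.inj ((hf x).trans c)⟩⟩
  have l : LIso m₁.R m₁'.R f :=
    h'.liso.of_comp_left h'.inj ((funext hf : j' ∘ f = e ∘ j) ▸ a.liso.comp h.liso)
  refine ⟨Equiv.ofBijective f b, hf, l, a.unit, fun x y => ?_, fun n => h'.inj ?_, fun r => ?_,
    fun r x => a.ne r _, fun r => h.mt (a.mt r), by rw [h'.l, h.l, a.l], fun i hi x => ?_⟩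
  · rw [← h.jn, a.node, ← hf, ← hf, h'.jn]
    rfl
  · exact (hf _).trans (by rw [h.mark, h'.mark, a.mark])
  · have := h.pb_mem (a.mem r)
    rwa [map_div, h.L, show h.liso.pb (a.liso.pb (m'.L r)) = l.pb (m₁'.L r) from
      h'.L r ▸ LB.ext (funext₂ fun x y => by simp only [LIso.pb_φ, hf])] at this
  · rw [h'.y, h.vl]
    exact (congrArg _ (hf x)).trans (a.y i hi _)

end Emb

/-- a surjective embedding is an isomorphism -/
theorem Emb.isoD_of_bij {m₀ : AM Λ R J ν κ} {i : m₀.X → m.X} (a : Emb m₀ m id id i) (hi : Bijective i) :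
    IsoD W A m₀ m (Equiv.ofBijective i hi) 1 1 :=
  ⟨a.liso, isUnit_one, fun _ _ => a.jn.symm, fun n => (a.mark n).trans (by simp),
    fun r => ((congrArg (· / m₀.L r) (a.L r)).trans (div_self' _)).symm ▸ H0.one_mem,
    fun _ _ => one_ne_zero, fun _ _ => rfl, by rw [W.actL_one, a.l],
    fun r _ x => by simp [Wt.actT, AM.vl, a.y]⟩

theorem Emb.refl (m : AM Λ R J ν κ) : Emb m m id id id :=
  ⟨LIso.id _, injective_id, fun _ z => ⟨fun a => ⟨z, a, rfl⟩, fun ⟨_, a, e⟩ => e ▸ a⟩,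
    fun n => by simp, fun n _ => ⟨n, by simp⟩, fun _ => rfl, rfl, fun _ _ => rfl⟩

theorem exists_emb {U : Set m.X} (hU : m.Sat U) {φ : ν₁ → ν} {ψ : κ₁ → κ} (hφ : Injective φ)
    (hψ : Injective ψ)
    (h : ∀ n, m.p n ∈ U ↔ ∃ n' : Ch.Mk ν₁ κ₁, n = n'.map φ (Prod.map ψ id)) :
    ∃ (m₁ : AM Λ R J ν₁ κ₁) (j : m₁.X → m.X), Emb m₁ m φ ψ j ∧ range j = U := by
  obtain ⟨Q, hQ⟩ := m.R.exists_sub hU.1.isOpen
  have : CompactSpace U := isCompact_iff_compactSpace.1 hU.1.isClosed.isCompact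
  have iv : Injective (Prod.map Subtype.val Subtype.val : U × U → m.X × m.X) :=
    Subtype.val_injective.prodMap Subtype.val_injective
  let N : Finset (U × U) := m.N.preimage _ iv.injOn
  have hN : ∀ n : U × U, n ∈ N ↔ (n.1.1, n.2.1) ∈ m.N := fun n => Finset.mem_preimage
  let c : AC ν₁ κ₁ :=
    { X := U, R := Q, N := N
      p := fun n => ⟨m.p (n.map φ (Prod.map ψ id)), (h _).2 ⟨n, rfl⟩⟩
      nd := ⟨fun a ha b hb e => m.nd.ne _ ((hN a).1 ha) _ ((hN b).1 hb) (congrArg Subtype.val e),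
        fun a ha b hb e => iv (m.nd.inj1 ((hN a).1 ha) ((hN b).1 hb) (congrArg Subtype.val e)),
        fun a ha b hb e => iv (m.nd.inj2 ((hN a).1 ha) ((hN b).1 hb) (congrArg Subtype.val e))⟩
      inj := fun a b e => (hφ.sumMap (hψ.prodMap injective_id)) (m.inj (congrArg Subtype.val e))
      sm := fun n a ha => ⟨fun e => (m.sm _ _ ((hN a).1 ha)).1 (congrArg Subtype.val e),
        fun e => (m.sm _ _ ((hN a).1 ha)).2 (congrArg Subtype.val e)⟩ }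
  have k : ∀ x y : U, Jn N x y ↔ Jn m.N x y := fun x y => or_congr (hN _) (hN _)
  refine ⟨⟨c, fun r => hQ.pb (m.L r), m.l, fun i x => m.y i x.1⟩, Subtype.val,
    ⟨hQ, Subtype.val_injective, fun x z => ⟨fun a => ⟨⟨z, hU.2 _ x.2 z a⟩, (k _ _).2 a, rfl⟩,
      fun ⟨y, a, e⟩ => e ▸ (k _ _).1 a⟩, fun _ => rfl, fun n ⟨x, e⟩ => (h n).1 (e ▸ x.2),
      fun _ => rfl, rfl, fun _ _ => rfl⟩, Subtype.range_val⟩

end AM

end Vale.Agent.P269
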